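import Vale.Agent.P095.Amen.Targets

/-!
# P095 coin: Cuntz subequivalence from operator inequalities

Everything the coin needs of the states of the semigroup follows from
`u ≤ ∑ x_j* v_j x_j + r`, `r < δ` ⟹ `d (cut δ u) ≤ ∑ d (v_j)`.
-/

namespace Vale.Agent.P095.Amen.Coin

open Vale.Agent.P101.KR Finset

noncomputable section

variable {F : Type} [CStarAlgebra F] [PartialOrder F] [StarOrderedRing F]
  {B : StarSubalgebra ℂ F}

theorem sqLe_iff {a b : F} : SqLe a b ↔ a ≤ b := by
  rw [← sub_nonneg, CStarAlgebra.nonneg_iff_eq_star_mul_self]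
  rfl

omit [PartialOrder F] [StarOrderedRing F] in
theorem cfc_mem' (hB : IsClosed (B : Set F)) {a : F} (ha : a ∈ B) (f : ℝ → ℝ) : cfc f a ∈ B := by
  by_cases h : IsSelfAdjoint a
  · rw [cfc_real_eq_complex f h]
    exact StarAlgebra.elemental.le_of_mem hB ha (cfc_mem_elemental _ a)
  · rw [cfc_apply_of_not_predicate a h]; exact zero_mem B

theorem posIn_of_nonneg (hB : IsClosed (B : Set F)) {u : F} (hu : u ∈ B) (h0 : 0 ≤ u) :
    PosIn B u := by
  refine ⟨hu, cfc Real.sqrt u, cfc_mem' hB hu _, ?_⟩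
  rw [(cfc_predicate Real.sqrt u : IsSelfAdjoint _).star_eq, ← cfc_mul ..]
  exact ((cfc_congr fun t ht => Real.mul_self_sqrt (spectrum_nonneg_of_nonneg h0 ht)).trans
    (cfc_id' ℝ u)).symm

omit [PartialOrder F] [StarOrderedRing F] in
theorem conj_cfc (u : F) (f g : ℝ → ℝ) (hf : Continuous f) (hg : Continuous g) :
    star (cfc f u) * cfc g u * cfc f u = cfc (fun t => f t * g t * f t) u := by
  rw [(cfc_predicate f u : IsSelfAdjoint _).star_eq,
    cfc_mul (fun t => f t * g t) f u (hf.mul hg).continuousOn hf.continuousOn,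
    cfc_mul f g u hf.continuousOn hg.continuousOn]

omit [PartialOrder F] [StarOrderedRing F] in
theorem smul_mem' {u : F} (hu : u ∈ B) (r : ℝ) : r • u ∈ B := by
  rw [← Complex.coe_smul]; exact SMulMemClass.smul_mem _ hu

omit [PartialOrder F] [StarOrderedRing F] in
theorem cut_mem (hB : IsClosed (B : Set F)) {u : F} (hu : u ∈ B) (δ : ℝ) : cut δ u ∈ B :=
  cfc_mem' hB hu _

theorem cut_nonneg' (δ : ℝ) (u : F) : 0 ≤ cut δ u :=
  cfc_nonneg fun _ _ => le_max_right _ _

theorem le_cut_add {u : F} (hu : IsSelfAdjoint u) (δ : ℝ) : u ≤ cut δ u + δ • (1 : F) := by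
  rw [cut, ← Algebra.algebraMap_eq_smul_one, ← cfc_add_const ..]
  conv_lhs => rw [← cfc_id' ℝ u]
  exact cfc_mono fun t _ => by have := le_max_left (t - δ) 0; linarith

theorem cut_le_self {u : F} (hu : 0 ≤ u) {δ : ℝ} (hδ : 0 ≤ δ) : cut δ u ≤ u := by
  rw [cut]
  conv_rhs => rw [← cfc_id' ℝ u]
  exact cfc_mono fun t ht => max_le (by linarith) (spectrum_nonneg_of_nonneg hu ht)

omit [PartialOrder F] [StarOrderedRing F] in
theorem cut_cut {u : F} (hu : IsSelfAdjoint u) {δ δ' : ℝ} (hδ : 0 ≤ δ) :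
    cut δ (cut δ' u) = cut (δ + δ') u := by
  rw [cut, cut, cut, ← cfc_comp' (fun t => max (t - δ) 0) (fun t => max (t - δ') 0) u]
  refine cfc_congr fun t _ => ?_
  rcases le_total (t - δ') 0 with h | h
  · simp only [max_eq_right h, zero_sub]
    rw [max_eq_right (by linarith), max_eq_right (by linarith)]
  · simp only [max_eq_left h]
    congr 1; ring

/-- Rørdam's lemma, in the form of a conjugation. -/
theorem exists_conj_of_le (hB : IsClosed (B : Set F)) {u W : F} (hu : IsSelfAdjoint u)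
    (huB : u ∈ B) {r δ : ℝ} (h : u ≤ W + r • (1 : F)) (hr : r < δ) :
    ∃ g ∈ B, cut δ u ≤ star g * W * g := by
  set f : ℝ → ℝ := fun t => Real.sqrt (max (t - δ) 0 / max (t - r) (δ - r))
  have hf : Continuous f := Real.continuous_sqrt.comp
    ((by fun_prop : Continuous fun t => max (t - δ) 0).div (by fun_prop)
      fun t => (lt_of_lt_of_le (sub_pos.2 hr) (le_max_right _ _)).ne')
  refine ⟨cfc f u, cfc_mem' hB huB f, ?_⟩
  have hs : star (cfc f u) = cfc f u := (cfc_predicate f u : IsSelfAdjoint _).star_eq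
  have h1 : u - r • (1 : F) ≤ W := sub_le_iff_le_add.2 h
  refine le_of_eq_of_le ?_ (star_left_conjugate_le_conjugate h1 _)
  have e : u - r • (1 : F) = cfc (fun t => t - r) u := by
    rw [cfc_sub (fun t : ℝ => t) (fun _ => r) u continuous_id.continuousOn continuousOn_const,
      cfc_id' ℝ u, cfc_const r u, Algebra.algebraMap_eq_smul_one]
  rw [e, conj_cfc u f (fun t => t - r) hf (continuous_id.sub continuous_const), cut]
  refine cfc_congr fun t _ => ?_
  rcases le_total t δ with ht | ht
  · simp [f, max_eq_right (sub_nonpos.2 ht)]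
  · simp only [f, max_eq_left (sub_nonneg.2 ht), max_eq_left (sub_le_sub_right ht r)]
    have h2 : 0 ≤ (t - δ) / (t - r) := div_nonneg (by linarith) (by linarith)
    rw [mul_comm (Real.sqrt _) (t - r), mul_assoc, Real.mul_self_sqrt h2,
      mul_div_cancel₀ _ (by linarith : t - r ≠ 0)]

/-- A positive element below a sum of conjugates is below the family. -/
theorem leIn_of_le (hB : IsClosed (B : Set F)) {c : F} (hc : 0 ≤ c) (hcB : c ∈ B) {m : ℕ}
    (v x : Fin m → F) (hvB : ∀ j, v j ∈ B) (hxB : ∀ j, x j ∈ B)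
    (h : c ≤ ∑ j, star (x j) * v j * x j) : LeIn B ![c] v := by
  intro ε hε
  set M := ∑ j, star (x j) * v j * x j
  have hM : 0 ≤ M := hc.trans h
  have hMB : M ∈ B := sum_mem fun j _ => mul_mem (mul_mem (star_mem (hxB j)) (hvB j)) (hxB j)
  set f : ℝ → ℝ := fun t => (Real.sqrt (max t 0 + ε))⁻¹
  have hpos : ∀ t : ℝ, 0 < max t 0 + ε := fun t =>
    lt_of_lt_of_le hε (le_add_of_nonneg_left (le_max_right _ _))
  have hf : Continuous f := ((by fun_prop : Continuous fun t : ℝ => max t 0 + ε).sqrt).inv₀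
    fun t => (Real.sqrt_pos.2 (hpos t)).ne'
  set p := cfc f M
  have hp : star p = p := (cfc_predicate f M : IsSelfAdjoint _).star_eq
  set s := cfc Real.sqrt c
  have hss : s * s = c := by
    rw [← cfc_mul ..]
    exact (cfc_congr fun t ht => Real.mul_self_sqrt (spectrum_nonneg_of_nonneg hc ht)).trans
      (cfc_id' ℝ c)
  have hs : star s = s := (cfc_predicate Real.sqrt c : IsSelfAdjoint _).star_eq
  refine ⟨fun j _ => x j * (p * s),
    fun j _ => mul_mem (hxB j) (mul_mem (cfc_mem' hB hMB f) (cfc_mem' hB hcB _)), fun i i' => ?_⟩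
  rw [Fin.fin_one_eq_zero i, Fin.fin_one_eq_zero i', if_pos rfl]
  show ‖(∑ j, star (x j * (p * s)) * v j * (x j * (p * s))) - c‖ ≤ ε
  have h1 : ∑ j, star (x j * (p * s)) * v j * (x j * (p * s)) = star (p * s) * M * (p * s) := by
    simp only [M, mul_sum, sum_mul, star_mul, mul_assoc]
  have hMsa : IsSelfAdjoint M := IsSelfAdjoint.of_nonneg hM
  have hid : cfc (fun t : ℝ => t) M = M := cfc_id' ℝ M hMsa
  have hpMp : p * M * p = cfc (fun t => f t * t * f t) M := by
    have := conj_cfc M f (fun t => t) hf continuous_id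
    rwa [hid, hp] at this
  have h2 : p * M * p = 1 - ε • (p * p) := by
    have e : ε • (p * p) = cfc (fun t => ε • (f t * f t)) M := by
      rw [cfc_smul ε (fun t => f t * f t) M (hf.mul hf).continuousOn,
        cfc_mul f f M hf.continuousOn hf.continuousOn]
    rw [hpMp, e, ← cfc_const_one ℝ M hMsa, ← cfc_sub (fun _ : ℝ => (1 : ℝ)) (fun t => ε • (f t * f t)) M
      continuousOn_const ((hf.mul hf).const_smul ε).continuousOn]
    refine cfc_congr fun t ht => ?_
    have h0 := max_eq_left (spectrum_nonneg_of_nonneg hM ht : (0:ℝ) ≤ t)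
    have h4 := hpos t
    simp only [f, smul_eq_mul, h0] at h4 ⊢
    have h5 := Real.mul_self_sqrt h4.le
    have h6 := Real.sqrt_pos.2 h4
    field_simp
    linarith
  have h3 : star (p * s) * M * (p * s) - c = -(ε • (star (p * s) * (p * s))) := by
    rw [star_mul, hp, hs]
    calc s * p * M * (p * s) - c = s * (p * M * p) * s - s * s := by rw [hss]; noncomm_ring
      _ = -(ε • (s * (p * p) * s)) := by
        rw [h2, mul_sub, sub_mul, mul_one, mul_smul_comm, smul_mul_assoc]; abel
      _ = -(ε • (s * p * (p * s))) := by simp only [mul_assoc]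
  rw [h1, h3, norm_neg, norm_smul, Real.norm_of_nonneg hε.le]
  refine mul_le_of_le_one_right hε.le ?_
  rw [CStarRing.norm_star_mul_self, ← CStarRing.norm_self_mul_star, star_mul, hp, hs]
  rw [show p * s * (s * p) = star p * c * p by rw [hp, ← hss]; noncomm_ring]
  refine (CStarAlgebra.norm_le_norm_of_nonneg_of_le (star_left_conjugate_nonneg hc p)
    (star_left_conjugate_le_conjugate h p)).trans ?_
  rw [hp, hpMp]
  refine norm_cfc_le zero_le_one fun t ht => ?_
  have h0 := spectrum_nonneg_of_nonneg hM ht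
  simp only [f, max_eq_left h0]
  rw [mul_comm _ t, mul_assoc, ← mul_inv, Real.mul_self_sqrt (by linarith),
    Real.norm_of_nonneg (by positivity), ← div_eq_mul_inv, div_le_one (by linarith)]
  linarith

omit [PartialOrder F] [StarOrderedRing F] in
theorem star_smul_conj (r : ℝ) (x v : F) : star (r • x) * v * (r • x) = (r * r) • (star x * v * x) := by
  rw [star_smul, star_trivial, smul_mul_assoc, smul_mul_assoc, mul_smul_comm, smul_smul]

/-- The value of a cut below a sum of conjugates. -/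
theorem dim_cut_le (hB : IsClosed (B : Set F)) (d : Dim B) {u : F} (hu : IsSelfAdjoint u)
    (huB : u ∈ B) {m : ℕ} (v x : Fin m → F) (hv : ∀ j, 0 ≤ v j) (hvB : ∀ j, v j ∈ B)
    (hxB : ∀ j, x j ∈ B) {r δ : ℝ} (h : u ≤ (∑ j, star (x j) * v j * x j) + r • (1 : F))
    (hr : r < δ) : d.d (cut δ u) ≤ ∑ j, d.d (v j) := by
  obtain ⟨g, hgB, hg⟩ := exists_conj_of_le hB hu huB h hr
  have hle := leIn_of_le hB (cut_nonneg' δ u) (cut_mem hB huB δ) v (fun j => x j * g) hvB
    (fun j => mul_mem (hxB j) hgB) (hg.trans_eq (by simp [mul_sum, sum_mul, mul_assoc]))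
  have := d.mono ![cut δ u] v
    (fun i => by
      rw [Fin.fin_one_eq_zero i]; exact posIn_of_nonneg hB (cut_mem hB huB δ) (cut_nonneg' δ u))
    (fun j => posIn_of_nonneg hB (hvB j) (hv j)) hle
  simpa using this

/-- The value of one below a sum of conjugates. -/
theorem one_le_dim_sum (hB : IsClosed (B : Set F)) (d : Dim B) {m : ℕ} (v x : Fin m → F)
    (hv : ∀ j, 0 ≤ v j) (hvB : ∀ j, v j ∈ B) (hxB : ∀ j, x j ∈ B) {r : ℝ} (hr : r < 1)
    (h : (1 : F) ≤ (∑ j, star (x j) * v j * x j) + r • (1 : F)) : 1 ≤ ∑ j, d.d (v j) := by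
  set a := Real.sqrt (1 - r)⁻¹
  have ha : a * a = (1 - r)⁻¹ := Real.mul_self_sqrt (inv_nonneg.2 (by linarith))
  have h1 : (1 - r) • (1 : F) ≤ ∑ j, star (x j) * v j * x j := by
    rw [sub_smul, one_smul]; exact sub_le_iff_le_add.2 h
  have hle := leIn_of_le hB zero_le_one (one_mem B) v (fun j => a • x j) hvB
    (fun j => smul_mem' (hxB j) a) (by
      simp only [star_smul_conj, ha, ← smul_sum]
      have h2 := smul_le_smul_of_nonneg_left h1 (inv_nonneg.2 (sub_nonneg.2 hr.le))
      rwa [smul_smul, inv_mul_cancel₀ (sub_ne_zero.2 hr.ne'), one_smul] at h2)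
  have := d.mono ![1] v
    (fun i => by rw [Fin.fin_one_eq_zero i]; exact posIn_of_nonneg hB (one_mem B) zero_le_one)
    (fun j => posIn_of_nonneg hB (hvB j) (hv j)) hle
  simpa [d.one] using this

/-- Conjugates almost dominating one give fullness. -/
theorem fullPos_of_one_le {v : F} (hv : IsSelfAdjoint v) {K : ℕ} (x : Fin K → F) {r : ℝ}
    (hr : r < 1) (h : (1 : F) ≤ (∑ i, star (x i) * v * x i) + r • (1 : F)) : FullPos v := by
  set M := ∑ i, star (x i) * v * x i
  have hMsa : IsSelfAdjoint M := isSelfAdjoint_sum _ fun i _ => hv.conjugate' (x i)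
  have h1 : algebraMap ℝ F (1 - r) ≤ M := by
    rw [Algebra.algebraMap_eq_smul_one, sub_smul, one_smul]; exact sub_le_iff_le_add.2 h
  have hspec := (algebraMap_le_iff_le_spectrum hMsa).1 h1
  set f : ℝ → ℝ := fun t => (Real.sqrt (max t (1 - r)))⁻¹
  have hpos : ∀ t : ℝ, 0 < max t (1 - r) := fun t =>
    lt_of_lt_of_le (sub_pos.2 hr) (le_max_right _ _)
  have hf : Continuous f := ((by fun_prop : Continuous fun t : ℝ => max t (1 - r)).sqrt).inv₀
    fun t => (Real.sqrt_pos.2 (hpos t)).ne'
  refine ⟨K, fun i => x i * cfc f M, ?_⟩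
  have hs : star (cfc f M) = cfc f M := (cfc_predicate f M : IsSelfAdjoint _).star_eq
  calc ∑ i, star (x i * cfc f M) * v * (x i * cfc f M) =
        star (cfc f M) * M * cfc f M := by
        simp only [M, mul_sum, sum_mul, star_mul, mul_assoc]
    _ = 1 := by
        have hc := conj_cfc M f (fun t => t) hf continuous_id
        rw [cfc_id' ℝ M] at hc
        rw [hc, ← cfc_const_one ℝ M]
        refine cfc_congr fun t ht => ?_
        have := hspec t ht
        simp only [f, max_eq_left this]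
        rw [mul_comm _ t, mul_assoc, ← mul_inv, Real.mul_self_sqrt (by linarith),
          mul_inv_cancel₀ (by linarith)]

/-- What dominates a conjugate of a full element is full. -/
theorem fullPos_of_le_conj {u v g : F} (hu : FullPos u) (hv : IsSelfAdjoint v)
    (h : u ≤ star g * v * g) : FullPos v := by
  obtain ⟨K, y, hy⟩ := hu
  refine fullPos_of_one_le hv (fun i => g * y i) zero_lt_one ?_
  rw [zero_smul, add_zero, ← hy]
  exact sum_le_sum fun i _ => (star_left_conjugate_le_conjugate h (y i)).trans_eq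
    (by simp only [star_mul, mul_assoc])

/-- An element which is bounded below on a full commuting one is full. -/
theorem fullPos_of_mul_le {e w : F} (he0 : 0 ≤ e) (he : FullPos e) (hw : IsSelfAdjoint w)
    (hcomm : Commute e w) {k : ℝ} (hk : 0 < k) (h : k • e ≤ w * e) : FullPos w := by
  set s := cfc Real.sqrt e
  have hs : star s = s := (cfc_predicate Real.sqrt e : IsSelfAdjoint _).star_eq
  have hss : s * s = e := by
    rw [← cfc_mul ..]
    exact (cfc_congr fun t ht => Real.mul_self_sqrt (spectrum_nonneg_of_nonneg he0 ht)).trans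
      (cfc_id' ℝ e)
  refine fullPos_of_le_conj (g := (Real.sqrt k)⁻¹ • s) he hw ?_
  rw [star_smul_conj, hs, (hcomm.cfc_real Real.sqrt).eq, mul_assoc, hss, ← mul_inv,
    Real.mul_self_sqrt hk.le]
  calc e = k⁻¹ • (k • e) := by rw [smul_smul, inv_mul_cancel₀ hk.ne', one_smul]
    _ ≤ k⁻¹ • (w * e) := smul_le_smul_of_nonneg_left h (inv_nonneg.2 hk.le)

end

end Vale.Agent.P095.Amen.Coin
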