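import Mathlib

/-!
# P095 coin: the phase of relatively invariant elements is absolutely invariant
-/

namespace Vale.Agent.P095.Amen.Coin

open scoped CStarAlgebra

noncomputable section

variable {F : Type} [CStarAlgebra F]

/-- Between `-s` and `s` means of norm at most `s`. -/
theorem norm_le_of_bounds [PartialOrder F] [StarOrderedRing F] {x : F} (hx : IsSelfAdjoint x)
    {s : ℝ} (hs : 0 ≤ s) (hlo : -algebraMap ℝ F s ≤ x) (hhi : x ≤ algebraMap ℝ F s) :
    ‖x‖ ≤ s := by
  rw [← cfc_id ℝ x]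
  refine norm_cfc_le hs fun t ht => ?_
  rw [← map_neg] at hlo
  rw [id, Real.norm_eq_abs, abs_le]
  exact ⟨(algebraMap_le_iff_le_spectrum hx).1 hlo t ht, (le_algebraMap_iff_spectrum_le hx).1 hhi t ht⟩

/-- The logarithm turns a relative bound into an absolute one. -/
theorem norm_log_sub_le [PartialOrder F] [StarOrderedRing F] {N N' : F} (hN : 0 ≤ N) (hN' : 0 ≤ N')
    {s c : ℝ} (hs : 0 ≤ s) (hc : 0 ≤ c) (h1 : N' ≤ (1 + s) • N) (h2 : N ≤ (1 + s) • N') :
    ‖CFC.log (1 + c • N') - CFC.log (1 + c • N)‖ ≤ s := by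
  rcases subsingleton_or_nontrivial F with hF | hF
  · rw [Subsingleton.elim (CFC.log (1 + c • N') - CFC.log (1 + c • N)) 0, norm_zero]; exact hs
  have key : ∀ {X Y : F}, 0 ≤ X → 0 ≤ Y → Y ≤ (1 + s) • X →
      CFC.log (1 + c • Y) ≤ algebraMap ℝ F s + CFC.log (1 + c • X) := by
    intro X Y hX hY h
    have hsp : IsStrictlyPositive (1 + c • X) :=
      (isStrictlyPositive_one).add_nonneg (smul_nonneg hc hX)
    have hsp' : IsStrictlyPositive (1 + c • Y) :=
      (isStrictlyPositive_one).add_nonneg (smul_nonneg hc hY)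
    have hle : 1 + c • Y ≤ (1 + s) • (1 + c • X) := by
      rw [smul_add, smul_comm (1 + s) c X, ← Algebra.algebraMap_eq_smul_one]
      refine add_le_add ?_ (smul_le_smul_of_nonneg_left h hc)
      calc (1 : F) = algebraMap ℝ F 1 := (map_one _).symm
        _ ≤ algebraMap ℝ F (1 + s) := algebraMap_le_algebraMap.2 (by linarith)
    refine (CFC.log_le_log hle hsp').trans ?_
    rw [CFC.log_smul' (1 + c • X) (by linarith : (0 : ℝ) < 1 + s)
      (ha := hsp)]
    gcongr
    linarith [Real.log_le_sub_one_of_pos (show 0 < 1 + s by linarith)]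
  have hsa : IsSelfAdjoint (CFC.log (1 + c • N') - CFC.log (1 + c • N)) :=
    (IsSelfAdjoint.log).sub IsSelfAdjoint.log
  refine norm_le_of_bounds hsa hs ?_ ?_
  · have := key hN' hN h2
    rw [neg_le_sub_iff_le_add]
    exact this.trans_eq (add_comm _ _)
  · rw [sub_le_iff_le_add]
    exact key hN hN' h1

/-- The phase element `A log (1 + x / B)`, as a unitary. -/
def expI (a : F) : F := NormedSpace.exp (Complex.I • a)

theorem expI_unitary {a : F} (ha : IsSelfAdjoint a) : expI a ∈ unitary F :=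
  (selfAdjoint.expUnitary ⟨a, ha⟩).2

theorem norm_expI_le {a : F} (ha : IsSelfAdjoint a) : ‖expI a‖ ≤ 1 := by
  rcases subsingleton_or_nontrivial F with h | h
  · simp [Subsingleton.elim (expI a) 0]
  · exact (CStarRing.norm_of_mem_unitary (expI_unitary ha)).le

/-- The exponential is one-Lipschitz on self-adjoint elements. -/
theorem norm_expI_sub_le {a b : F} (ha : IsSelfAdjoint a) (hb : IsSelfAdjoint b) :
    ‖expI a - expI b‖ ≤ ‖a - b‖ := by
  set X := Complex.I • a
  set Y := Complex.I • b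
  set h : ℝ → F := fun t => NormedSpace.exp (t • X) * NormedSpace.exp ((1 - t) • Y)
  have hscal : ∀ (t : ℝ) (c : F), t • (Complex.I • c) = Complex.I • (t • c) := fun t c =>
    smul_comm t Complex.I c
  have hd : ∀ t : ℝ, HasDerivAt h
      (NormedSpace.exp (t • X) * (X - Y) * NormedSpace.exp ((1 - t) • Y)) t := by
    intro t
    have h1 := hasDerivAt_exp_smul_const (𝕂 := ℝ) X t
    have h2 := (hasDerivAt_exp_smul_const' (𝕂 := ℝ) Y (1 - t)).scomp t
      ((hasDerivAt_id t).const_sub 1)
    refine (h1.mul h2).congr_deriv ?_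
    simp only [neg_smul, one_smul, Function.comp_apply]
    noncomm_ring
  have hb1 : ∀ t ∈ Set.Ico (0 : ℝ) 1, ‖derivWithin h (Set.Icc 0 1) t‖ ≤ ‖a - b‖ := by
    intro t ht
    rw [(hd t).hasDerivWithinAt.derivWithin (uniqueDiffOn_Icc zero_lt_one t (Set.Ico_subset_Icc_self ht))]
    refine (norm_mul₃_le).trans ?_
    have e1 : ‖NormedSpace.exp (t • X)‖ ≤ 1 := by
      rw [hscal]; exact norm_expI_le ((IsSelfAdjoint.all t).smul ha)
    have e2 : ‖NormedSpace.exp ((1 - t) • Y)‖ ≤ 1 := by
      rw [hscal]; exact norm_expI_le ((IsSelfAdjoint.all (1 - t)).smul hb)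
    calc _ ≤ 1 * ‖X - Y‖ * 1 := by gcongr
      _ = ‖a - b‖ := by rw [one_mul, mul_one, ← smul_sub, norm_smul, Complex.norm_I, one_mul]
  have := norm_image_sub_le_of_norm_deriv_le_segment_01
    (fun t _ => (hd t).differentiableAt.differentiableWithinAt) hb1
  simpa [h, expI, X, Y] using this

open Classical in
/-- A function on the circle, extended by zero. -/
def ext0 (g : C(Metric.sphere (0 : ℂ) 1, ℂ)) (z : ℂ) : ℂ :=
  if h : z ∈ Metric.sphere (0 : ℂ) 1 then g ⟨z, h⟩ else 0

theorem ext0_apply (g : C(Metric.sphere (0 : ℂ) 1, ℂ)) {z : ℂ} (hz : z ∈ Metric.sphere (0 : ℂ) 1) :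
    ext0 g z = g ⟨z, hz⟩ := dif_pos hz

theorem continuousOn_ext0 (g : C(Metric.sphere (0 : ℂ) 1, ℂ)) :
    ContinuousOn (ext0 g) (Metric.sphere 0 1) := by
  rw [continuousOn_iff_continuous_domRestrict]
  refine g.continuous.congr fun z => ?_
  show g z = ext0 g z.1
  exact (ext0_apply g z.2).symm

theorem spectrum_subset_sphere {U : F} (hU : U ∈ unitary F) :
    spectrum ℂ U ⊆ Metric.sphere 0 1 := fun _ hz => spectrum.subset_circle_of_unitary hU hz

/-- A continuous function on the circle of a unitary is uniformly continuous in the unitary. -/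
theorem exists_modulus (f : ℂ → ℂ) (hf : ContinuousOn f (Metric.sphere 0 1)) {ε : ℝ} (hε : 0 < ε) :
    ∃ δ, 0 < δ ∧ ∀ {F : Type} [CStarAlgebra F] (U V : F), U ∈ unitary F → V ∈ unitary F →
      ‖U - V‖ ≤ δ → ‖cfc f U - cfc f V‖ ≤ ε := by
  have hS : CompactSpace (Metric.sphere (0 : ℂ) 1) :=
    isCompact_iff_compactSpace.1 (isCompact_sphere _ _)
  let P : C(Metric.sphere (0 : ℂ) 1, ℂ) → Prop := fun g => ∀ e : ℝ, 0 < e → ∃ δ, 0 < δ ∧
    ∀ {F : Type} [CStarAlgebra F] (U V : F), U ∈ unitary F → V ∈ unitary F →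
      ‖U - V‖ ≤ δ → ‖cfc (ext0 g) U - cfc (ext0 g) V‖ ≤ e
  have heq : ∀ g h : C(Metric.sphere (0 : ℂ) 1, ℂ), ∀ {F : Type} [CStarAlgebra F] {U : F},
      U ∈ unitary F → cfc (ext0 (g + h)) U = cfc (ext0 g) U + cfc (ext0 h) U ∧
        cfc (ext0 (g * h)) U = cfc (ext0 g) U * cfc (ext0 h) U := by
    intro g h F _ U hU
    have hn : IsStarNormal U := ⟨show star U * U = U * star U by rw [hU.1, hU.2]⟩
    have hsub := spectrum_subset_sphere hU
    constructor
    · rw [← cfc_add (a := U) (ext0 g) (ext0 h) ((continuousOn_ext0 g).mono hsub)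
        ((continuousOn_ext0 h).mono hsub)]
      exact cfc_congr fun z hz => by simp only [ext0_apply _ (hsub hz)]; rfl
    · rw [← cfc_mul (ext0 g) (ext0 h) U ((continuousOn_ext0 g).mono hsub)
        ((continuousOn_ext0 h).mono hsub)]
      exact cfc_congr fun z hz => by simp only [ext0_apply _ (hsub hz)]; rfl
  have hnorm : ∀ g : C(Metric.sphere (0 : ℂ) 1, ℂ), ∀ {F : Type} [CStarAlgebra F] {U : F},
      U ∈ unitary F → ‖cfc (ext0 g) U‖ ≤ ‖g‖ := by
    intro g F _ U hU
    refine norm_cfc_le (norm_nonneg g) fun z hz => ?_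
    rw [ext0_apply _ (spectrum_subset_sphere hU hz)]
    exact g.norm_coe_le_norm _
  let g₀ : C(Metric.sphere (0 : ℂ) 1, ℂ) := ⟨_, hf.domRestrict⟩
  have hP : P g₀ := by
    induction g₀ using ContinuousMap.induction_on_of_compact with
    | const r =>
      intro e he
      refine ⟨1, one_pos, fun {F} _ U V hU hV _ => ?_⟩
      have : ∀ {W : F}, W ∈ unitary F →
          cfc (ext0 (ContinuousMap.const _ r)) W = algebraMap ℂ F r := fun {W} hW => by
        have hn : IsStarNormal W := ⟨show star W * W = W * star W by rw [hW.1, hW.2]⟩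
        rw [cfc_congr (g := fun _ => r) fun z hz => by
            rw [ext0_apply _ (spectrum_subset_sphere hW hz)]; rfl]
        exact cfc_const r W
      rw [this hU, this hV, sub_self, norm_zero]
      exact he.le
    | id =>
      intro e he
      refine ⟨e, he, fun {F} _ U V hU hV hUV => ?_⟩
      have : ∀ {W : F}, W ∈ unitary F →
          cfc (ext0 (ContinuousMap.restrict (Metric.sphere (0 : ℂ) 1) (.id ℂ))) W = W :=
        fun {W} hW => by
          have hn : IsStarNormal W := ⟨show star W * W = W * star W by rw [hW.1, hW.2]⟩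
          rw [cfc_congr (g := id) fun z hz => by
            rw [ext0_apply _ (spectrum_subset_sphere hW hz)]; rfl]
          exact cfc_id ℂ W
      rwa [this hU, this hV]
    | star_id =>
      intro e he
      refine ⟨e, he, fun {F} _ U V hU hV hUV => ?_⟩
      have : ∀ {W : F}, W ∈ unitary F →
          cfc (ext0 (star (ContinuousMap.restrict (Metric.sphere (0 : ℂ) 1) (.id ℂ)))) W = star W :=
        fun {W} hW => by
          have hn : IsStarNormal W := ⟨show star W * W = W * star W by rw [hW.1, hW.2]⟩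
          rw [cfc_congr (g := fun z => star z) fun z hz => by
            rw [ext0_apply _ (spectrum_subset_sphere hW hz)]; rfl]
          exact cfc_star_id W
      rw [this hU, this hV, ← star_sub, norm_star]
      exact hUV
    | add g h hg hh =>
      intro e he
      obtain ⟨δ₁, h₁, k₁⟩ := hg (e / 2) (half_pos he)
      obtain ⟨δ₂, h₂, k₂⟩ := hh (e / 2) (half_pos he)
      refine ⟨min δ₁ δ₂, lt_min h₁ h₂, fun U V hU hV hUV => ?_⟩
      rw [(heq g h hU).1, (heq g h hV).1, add_sub_add_comm]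
      refine (norm_add_le _ _).trans ?_
      linarith [k₁ U V hU hV (hUV.trans (min_le_left _ _)),
        k₂ U V hU hV (hUV.trans (min_le_right _ _))]
    | mul g h hg hh =>
      intro e he
      set C := ‖g‖ + ‖h‖ + 1
      have hC : 0 < C := by positivity
      obtain ⟨δ₁, h₁, k₁⟩ := hg (e / (2 * C)) (by positivity)
      obtain ⟨δ₂, h₂, k₂⟩ := hh (e / (2 * C)) (by positivity)
      refine ⟨min δ₁ δ₂, lt_min h₁ h₂, fun U V hU hV hUV => ?_⟩
      rw [(heq g h hU).2, (heq g h hV).2, show ∀ a b c d : _, a * b - c * d =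
        (a - c) * b + c * (b - d) from fun a b c d => by noncomm_ring]
      refine (norm_add_le _ _).trans ((add_le_add (norm_mul_le _ _) (norm_mul_le _ _)).trans ?_)
      have a1 := k₁ U V hU hV (hUV.trans (min_le_left _ _))
      have a2 := k₂ U V hU hV (hUV.trans (min_le_right _ _))
      have b1 : ‖cfc (ext0 h) U‖ ≤ C :=
        (hnorm h hU).trans (by simp only [C]; linarith [norm_nonneg g])
      have b2 : ‖cfc (ext0 g) V‖ ≤ C :=
        (hnorm g hV).trans (by simp only [C]; linarith [norm_nonneg h])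
      calc _ ≤ e / (2 * C) * C + C * (e / (2 * C)) := by gcongr
        _ = e := by field_simp; ring
    | frequently g hg =>
      intro e he
      obtain ⟨q, hq, hqg⟩ := ((hg.and_eventually
        (Metric.ball_mem_nhds g (by linarith : 0 < e / 4))).exists)
      obtain ⟨δ, hδ, k⟩ := hq (e / 2) (half_pos he)
      refine ⟨δ, hδ, fun {F} _ U V hU hV hUV => ?_⟩
      have hd : ‖g - q‖ ≤ e / 4 := by
        rw [dist_comm, dist_eq_norm] at hqg; exact hqg.le
      have hdiff : ∀ {W : F}, W ∈ unitary F →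
          ‖cfc (ext0 g) W - cfc (ext0 q) W‖ ≤ e / 4 := fun {W} hW => by
        have := (heq (g - q) q hW).1
        rw [sub_add_cancel] at this
        rw [this, add_sub_cancel_right]
        exact (hnorm _ hW).trans hd
      calc ‖cfc (ext0 g) U - cfc (ext0 g) V‖
          = ‖(cfc (ext0 g) U - cfc (ext0 q) U) + (cfc (ext0 q) U - cfc (ext0 q) V) +
              -(cfc (ext0 g) V - cfc (ext0 q) V)‖ := by congr 1; abel
        _ ≤ _ := norm_add₃_le
        _ ≤ e := by rw [norm_neg]; linarith [hdiff hU, hdiff hV, k U V hU hV hUV]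
  obtain ⟨δ, hδ, k⟩ := hP ε hε
  refine ⟨δ, hδ, fun {F} _ U V hU hV hUV => ?_⟩
  have : ∀ {W : F}, W ∈ unitary F → cfc (ext0 g₀) W = cfc f W := fun {W} hW =>
    cfc_congr fun z hz => by rw [ext0_apply _ (spectrum_subset_sphere hW hz)]; rfl
  rw [← this hU, ← this hV]
  exact k U V hU hV hUV

end

end Vale.Agent.P095.Amen.Coin
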