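import Vale.Agent.P101.KR.PowerDefs
import Vale.Agent.P095.Amen.Coin.Ineq

/-!
# P095 coin: the values of the elements of a dimension drop algebra
-/

namespace Vale.Agent.P095.Amen.Coin

open Vale.Agent.P101.KR Finset

noncomputable section

variable {F : Type} [CStarAlgebra F] [PartialOrder F] [StarOrderedRing F]
  {B : StarSubalgebra ℂ F}

/-- `dim_cut_le` for any finite index. -/
theorem dim_cut_le' (hB : IsClosed (B : Set F)) (d : Dim B) {u : F} (hu : IsSelfAdjoint u)
    (huB : u ∈ B) {ι : Type} [Fintype ι] (v x : ι → F) (hv : ∀ j, 0 ≤ v j) (hvB : ∀ j, v j ∈ B)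
    (hxB : ∀ j, x j ∈ B) {r δ : ℝ} (h : u ≤ (∑ j, star (x j) * v j * x j) + r • (1 : F))
    (hr : r < δ) : d.d (cut δ u) ≤ ∑ j, d.d (v j) := by
  let e := (Fintype.equivFin ι).symm
  rw [← e.sum_comp (fun j => d.d (v j))]
  refine dim_cut_le hB d hu huB (v ∘ e) (x ∘ e) (fun j => hv _) (fun j => hvB _) (fun j => hxB _)
    (h.trans_eq ?_) hr
  rw [← e.sum_comp (fun j => star (x j) * v j * x j)]
  rfl

/-- `one_le_dim_sum` for any finite index. -/
theorem one_le_dim_sum' (hB : IsClosed (B : Set F)) (d : Dim B) {ι : Type} [Fintype ι]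
    (v x : ι → F) (hv : ∀ j, 0 ≤ v j) (hvB : ∀ j, v j ∈ B) (hxB : ∀ j, x j ∈ B) {r : ℝ} (hr : r < 1)
    (h : (1 : F) ≤ (∑ j, star (x j) * v j * x j) + r • (1 : F)) : 1 ≤ ∑ j, d.d (v j) := by
  let e := (Fintype.equivFin ι).symm
  rw [← e.sum_comp (fun j => d.d (v j))]
  refine one_le_dim_sum hB d (v ∘ e) (x ∘ e) (fun j => hv _) (fun j => hvB _) (fun j => hxB _) hr
    (h.trans_eq ?_)
  rw [← e.sum_comp (fun j => star (x j) * v j * x j)]
  rfl

/-- `fullPos_of_one_le` for any finite index. -/
theorem fullPos_of_one_le' {v : F} (hv : IsSelfAdjoint v) {ι : Type} [Fintype ι] (x : ι → F)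
    {r : ℝ} (hr : r < 1) (h : (1 : F) ≤ (∑ i, star (x i) * v * x i) + r • (1 : F)) :
    FullPos v := by
  let e := (Fintype.equivFin ι).symm
  refine fullPos_of_one_le hv (x ∘ e) hr (h.trans_eq ?_)
  rw [← e.sum_comp (fun j => star (x j) * v * x j)]
  rfl

variable {N : ℕ} [NeZero N] (D : DropDataN N F)

/-- All entries in a subalgebra. -/
def EntriesIn (B : StarSubalgebra ℂ F) : Prop := (∀ a b, D.P a b ∈ B) ∧ D.v ∈ B

theorem P_nonneg (a : Fin N) : 0 ≤ D.P a a := by
  obtain ⟨c, hc⟩ := D.orderZero.pos a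
  rw [hc]; exact star_mul_self_nonneg c

theorem diag_nonneg : 0 ≤ diagN D.P := sum_nonneg fun a _ => P_nonneg D a

theorem diag_le_one : diagN D.P ≤ 1 := by
  rw [← sub_nonneg, ← D.star_mul_v]; exact star_mul_self_nonneg _

theorem P_le_diag (a : Fin N) : D.P a a ≤ diagN D.P :=
  single_le_sum (fun b _ => P_nonneg D b) (mem_univ a)

omit [PartialOrder F] [StarOrderedRing F] in
theorem commute_diag (a b : Fin N) : Commute (diagN D.P) (D.P a b) := by
  show diagN D.P * D.P a b = D.P a b * diagN D.P
  have h1 : diagN D.P * D.P a b = D.P a a * D.P a b := by rw [D.orderZero.mul_eq, if_pos rfl]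
  have h2 : D.P a b * diagN D.P = D.P a b * D.P b b := by
    simp [diagN, mul_sum, D.orderZero.mul_eq]
  rw [h1, h2, D.orderZero.mul_eq, D.orderZero.mul_eq, if_pos rfl, if_pos rfl]

theorem sq_P_le (a : Fin N) : D.P a a * D.P a a ≤ D.P a a := by
  have h0 := P_nonneg D a
  have hsa := IsSelfAdjoint.of_nonneg h0
  have hs : ∀ t ∈ spectrum ℝ (D.P a a), t ≤ 1 := (le_algebraMap_iff_spectrum_le hsa).1
    (((P_le_diag D a).trans (diag_le_one D)).trans_eq (map_one _).symm)
  calc D.P a a * D.P a a = cfc (fun t : ℝ => t * t) (D.P a a) := by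
        rw [cfc_mul .., cfc_id' ℝ (D.P a a)]
    _ ≤ cfc (fun t : ℝ => t) (D.P a a) := cfc_mono fun t ht => by
        have := spectrum_nonneg_of_nonneg h0 ht
        have := hs t ht
        nlinarith
    _ = _ := cfc_id' ℝ _

/-- The weight that turns `θ(e_{0a})` into an almost isometry. -/
def colK (ε : ℝ) : F :=
  cfc (fun t : ℝ => (Real.sqrt (max t 0 ^ 2 + ε))⁻¹) (diagN D.P)

omit [PartialOrder F] [StarOrderedRing F] in
theorem commute_colK (ε : ℝ) (a b : Fin N) : Commute (colK D ε) (D.P a b) :=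
  (commute_diag D a b).cfc_real _

/-- Part of the diagonal is below conjugates of anything that almost dominates the first entry. -/
theorem cover (S : Finset (Fin N)) {w : F} {δ ε : ℝ} (hε : 0 < ε) (hδ : 0 ≤ δ)
    (hw : D.P 0 0 ≤ w + δ • (1 : F)) :
    ∑ a ∈ S, D.P a a ≤
      (∑ a ∈ S, star (D.P 0 a * colK D ε) * w * (D.P 0 a * colK D ε)) +
        (Real.sqrt ε + δ) • (1 : F) := by
  set h := diagN D.P
  have h0 : 0 ≤ h := diag_nonneg D
  have hsa : IsSelfAdjoint h := IsSelfAdjoint.of_nonneg h0
  set f : ℝ → ℝ := fun t => (Real.sqrt (max t 0 ^ 2 + ε))⁻¹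
  have hpos : ∀ t : ℝ, 0 < max t 0 ^ 2 + ε := fun t => by positivity
  have hf : Continuous f := ((by fun_prop : Continuous fun t : ℝ => max t 0 ^ 2 + ε).sqrt).inv₀
    fun t => (Real.sqrt_pos.2 (hpos t)).ne'
  set k := colK D ε
  have hk : k = cfc f h := rfl
  have hks : star k = k := (cfc_predicate f h : IsSelfAdjoint _).star_eq
  have hid : cfc (fun t : ℝ => t) h = h := cfc_id' ℝ h hsa
  set T := ∑ a ∈ S, D.P a a
  have hTh : T ≤ h := sum_le_univ_sum_of_nonneg fun a => P_nonneg D a
  -- the two sums of conjugates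
  have e1 : ∑ a ∈ S, star (D.P 0 a * k) * D.P 0 0 * (D.P 0 a * k) =
      T - (T - k * (h * h) * T * k) := by
    rw [sub_sub_cancel]
    simp only [T, mul_sum, sum_mul]
    refine sum_congr rfl fun a _ => ?_
    rw [star_mul, hks, D.orderZero.star_eq]
    calc k * D.P a 0 * D.P 0 0 * (D.P 0 a * k) = k * ((D.P a 0 * D.P 0 0) * D.P 0 a) * k := by
          noncomm_ring
      _ = k * (h * h * D.P a a) * k := by
          rw [D.orderZero.mul_eq, if_pos rfl, mul_assoc (diagN D.P), D.orderZero.mul_eq, if_pos rfl,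
            mul_assoc h h]
      _ = _ := by noncomm_ring
  have hkh : Commute k h := ((Commute.refl h).cfc_real f)
  have hkT : Commute k T := Commute.sum_right _ _ _ fun a _ => commute_colK D ε a a
  -- the defect
  have e2 : T - k * (h * h) * T * k ≤ Real.sqrt ε • (1 : F) := by
    set g : ℝ → ℝ := fun t => Real.sqrt ε * f t
    have hg : Continuous g := continuous_const.mul hf
    set m := cfc g h
    have hms : star m = m := (cfc_predicate g h : IsSelfAdjoint _).star_eq
    have hm : T - k * (h * h) * T * k = star m * T * m := by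
      have hkk : k * (h * h) * k = 1 - m * m := by
        have hc := conj_cfc h f (fun t => t * t) hf (continuous_id.mul continuous_id)
        rw [cfc_mul (fun t : ℝ => t) (fun t => t) h continuous_id.continuousOn
          continuous_id.continuousOn, hid, ← hk, hks] at hc
        rw [hc, show m * m = cfc (fun t => g t * g t) h from
          (cfc_mul g g h hg.continuousOn hg.continuousOn).symm, ← cfc_const_one ℝ h hsa,
          ← cfc_sub (fun _ : ℝ => (1 : ℝ)) (fun t => g t * g t) h continuousOn_const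
            (hg.mul hg).continuousOn]
        refine cfc_congr fun t ht => ?_
        have h1 := max_eq_left (spectrum_nonneg_of_nonneg h0 ht : (0 : ℝ) ≤ t)
        have h2 := hpos t
        simp only [f, g, h1] at h2 ⊢
        have h3 := Real.mul_self_sqrt h2.le
        have h4 := Real.sqrt_pos.2 h2
        have h5 := Real.mul_self_sqrt hε.le
        field_simp
        nlinarith
      have hmT : Commute m T := (Commute.sum_right _ _ _ fun a _ => commute_diag D a a).cfc_real g
      calc T - k * (h * h) * T * k = T - k * (h * h) * (T * k) := by noncomm_ring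
        _ = T - k * (h * h) * k * T := by rw [← hkT.eq]; noncomm_ring
        _ = m * m * T := by rw [hkk]; noncomm_ring
        _ = star m * T * m := by rw [hms, mul_assoc m T, ← hmT.eq, mul_assoc]
    rw [hm]
    refine (star_left_conjugate_le_conjugate hTh m).trans ?_
    have hc := conj_cfc h g (fun t => t) hg continuous_id
    rw [hid] at hc
    rw [hc, ← Algebra.algebraMap_eq_smul_one]
    refine cfc_le_algebraMap _ _ _ (fun t ht => ?_)
      ((hg.mul continuous_id).mul hg).continuousOn hsa
    have h1 := max_eq_left (spectrum_nonneg_of_nonneg h0 ht : (0 : ℝ) ≤ t)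
    have h2 := hpos t
    simp only [f, g, h1] at h2 ⊢
    have h3 := Real.mul_self_sqrt h2.le
    have h4 := Real.sqrt_pos.2 h2
    have h5 := Real.mul_self_sqrt hε.le
    have ht0 : 0 ≤ t := h1 ▸ le_max_right t 0
    have h6 : Real.sqrt ε * t ≤ t ^ 2 + ε := by nlinarith [sq_nonneg (t - Real.sqrt ε)]
    field_simp
    nlinarith [mul_le_mul_of_nonneg_left h6 (Real.sqrt_nonneg ε)]
  have e3 : ∑ a ∈ S, star (D.P 0 a * k) * (D.P 0 a * k) ≤ 1 := by
    have : ∑ a ∈ S, star (D.P 0 a * k) * (D.P 0 a * k) = k * (h * T) * k := by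
      simp only [T, mul_sum, sum_mul]
      refine sum_congr rfl fun a _ => ?_
      rw [star_mul, hks, D.orderZero.star_eq,
        show k * D.P a 0 * (D.P 0 a * k) = k * (D.P a 0 * D.P 0 a) * k by noncomm_ring,
        D.orderZero.mul_eq, if_pos rfl]
    rw [this]
    set q := cfc Real.sqrt h
    have hq : q * q = h := by
      rw [← cfc_mul ..]
      exact (cfc_congr fun t ht => Real.mul_self_sqrt (spectrum_nonneg_of_nonneg h0 ht)).trans hid
    have hqs : star q = q := (cfc_predicate Real.sqrt h : IsSelfAdjoint _).star_eq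
    have hqT : Commute q T :=
      (Commute.sum_right _ _ _ fun a _ => commute_diag D a a).cfc_real Real.sqrt
    have e : k * (h * T) * k = star (q * k) * T * (q * k) := by
      rw [star_mul, hks, hqs, ← hq]
      calc k * (q * q * T) * k = k * (q * (q * T)) * k := by noncomm_ring
        _ = k * (q * (T * q)) * k := by rw [hqT.eq]
        _ = k * q * T * (q * k) := by noncomm_ring
    rw [e]
    refine (star_left_conjugate_le_conjugate hTh _).trans ?_
    have hc := conj_cfc h (fun t => Real.sqrt t * f t) (fun t => t)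
      (Real.continuous_sqrt.mul hf) continuous_id
    rw [hid, cfc_mul Real.sqrt f h Real.continuous_sqrt.continuousOn hf.continuousOn, ← hk] at hc
    rw [hc]
    refine cfc_le_one _ _ (fun t ht => ?_)
    have h1 := max_eq_left (spectrum_nonneg_of_nonneg h0 ht : (0 : ℝ) ≤ t)
    have h2 := hpos t
    have ht0 : 0 ≤ t := h1 ▸ le_max_right t 0
    simp only [f, h1] at h2 ⊢
    have h3 := Real.mul_self_sqrt h2.le
    have h4 := Real.sqrt_pos.2 h2
    have h5 := Real.mul_self_sqrt ht0
    field_simp
    nlinarith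
  calc T = (∑ a ∈ S, star (D.P 0 a * k) * D.P 0 0 * (D.P 0 a * k)) +
        (T - k * (h * h) * T * k) := by rw [e1]; abel
    _ ≤ (∑ a ∈ S, star (D.P 0 a * k) * (w + δ • (1 : F)) * (D.P 0 a * k)) + Real.sqrt ε • (1 : F) :=
        add_le_add (sum_le_sum fun a _ => star_left_conjugate_le_conjugate hw _) e2
    _ ≤ _ := by
        simp only [mul_add, add_mul, sum_add_distrib, mul_smul_comm, smul_mul_assoc, mul_one,
          ← smul_sum]
        rw [add_smul, add_assoc]
        refine add_le_add le_rfl ?_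
        rw [add_comm]
        exact add_le_add le_rfl (smul_le_smul_of_nonneg_left e3 hδ)

/-- The remainder of the diagonal is below a conjugate as well. -/
theorem cover_v {w : F} {δ : ℝ} (hδ : 0 ≤ δ) (hw : D.P 0 0 ≤ w + δ • (1 : F)) :
    1 - diagN D.P ≤ star D.v * w * D.v + δ • (1 : F) := by
  rw [← D.star_mul_v]
  calc star D.v * D.v = star D.v * (D.P 0 0 * D.P 0 0) * D.v := by
        conv_lhs => rw [← D.fix_v, star_mul, D.orderZero.star_eq]
        noncomm_ring
    _ ≤ star D.v * (w + δ • (1 : F)) * D.v :=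
        star_left_conjugate_le_conjugate ((sq_P_le D 0).trans hw) _
    _ ≤ _ := by
        rw [mul_add, add_mul, mul_smul_comm, smul_mul_assoc, mul_one]
        refine add_le_add le_rfl (smul_le_smul_of_nonneg_left ?_ hδ)
        rw [D.star_mul_v]
        exact sub_le_self _ (diag_nonneg D)

/-- The copy of the first entry is worth at most `1 / N`. -/
theorem dim_P_le (hB : IsClosed (B : Set F)) (hD : EntriesIn D B) (d : Dim B) {δ : ℝ} (hδ : 0 < δ) :
    d.d (cut δ (D.P 0 0)) ≤ 1 / N := by
  set p := D.P 0 0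
  set g : ℝ → ℝ := fun t => Real.sqrt (max (t - δ) 0) / max t δ
  have hg : Continuous g := ((by fun_prop : Continuous fun t => max (t - δ) 0).sqrt).div
    (by fun_prop) fun t => (lt_of_lt_of_le hδ (le_max_right _ _)).ne'
  have hgs : star (cfc g p) = cfc g p := (cfc_predicate g p : IsSelfAdjoint _).star_eq
  have hp := IsSelfAdjoint.of_nonneg (P_nonneg D 0)
  have hle : LeIn B (fun _ : Fin N => cut δ p) ![1] := by
    intro ε hε
    refine ⟨fun _ a => D.P a 0 * cfc g p, fun _ a => mul_mem (hD.1 a 0) (cfc_mem' hB (hD.1 0 0) g),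
      fun a b => le_of_eq_of_le ?_ hε.le⟩
    rw [norm_eq_zero, sub_eq_zero, Fin.sum_univ_one]
    show star (D.P a 0 * cfc g p) * 1 * (D.P b 0 * cfc g p) = _
    rw [star_mul, hgs, D.orderZero.star_eq, mul_one,
      show cfc g p * D.P 0 a * (D.P b 0 * cfc g p) = cfc g p * (D.P 0 a * D.P b 0) * cfc g p by
        noncomm_ring, D.orderZero.mul_eq]
    split_ifs with hab
    · rw [show diagN D.P * D.P 0 0 = p * p by rw [D.orderZero.mul_eq, if_pos rfl]]
      have := conj_cfc p g (fun t => t * t) hg (continuous_id.mul continuous_id)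
      rw [cfc_mul (fun t : ℝ => t) (fun t => t) p continuous_id.continuousOn
        continuous_id.continuousOn, cfc_id' ℝ p hp, hgs] at this
      rw [this, cut]
      refine cfc_congr fun t _ => ?_
      simp only [g]
      rcases le_total t δ with ht | ht
      · simp [max_eq_right (sub_nonpos.2 ht)]
      · have h3 := Real.mul_self_sqrt (sub_nonneg.2 ht)
        rw [max_eq_left (sub_nonneg.2 ht), max_eq_left ht]
        have : t ≠ 0 := (lt_of_lt_of_le hδ ht).ne'
        field_simp
        linarith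
    · simp
  have := d.mono (fun _ : Fin N => cut δ p) ![1]
    (fun _ => posIn_of_nonneg hB (cut_mem hB (hD.1 0 0) δ) (cut_nonneg' δ p))
    (fun i => by rw [Fin.fin_one_eq_zero i]; exact posIn_of_nonneg hB (one_mem B) zero_le_one) hle
  simp [d.one] at this
  rw [le_div_iff₀ (Nat.cast_pos.2 (NeZero.pos N))]
  linarith

/-- The first entry is full, and so is what almost dominates it. -/
theorem fullPos_of_P_le {w : F} (hw : IsSelfAdjoint w) {δ : ℝ} (hδ : 0 ≤ δ) (hδ2 : δ < 1 / 2)
    (h : D.P 0 0 ≤ w + δ • (1 : F)) : FullPos w := by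
  set ε := ((1 / 2 - δ)) ^ 2
  have hε : 0 < ε := by have : 0 < 1 / 2 - δ := (by linarith); positivity
  refine fullPos_of_one_le' hw
    (fun o : Option (Fin N) => o.elim D.v fun a => D.P 0 a * colK D ε)
    (show Real.sqrt ε + δ + δ < 1 by rw [Real.sqrt_sq (by linarith)]; linarith) ?_
  rw [Fintype.sum_option]
  calc (1 : F) = ∑ a, D.P a a + (1 - diagN D.P) := by rw [← diagN]; abel
    _ ≤ _ := add_le_add (cover D univ hε hδ h) (cover_v D hδ h)
    _ = _ := by simp only [Option.elim, add_smul]; abel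

/-- The first entry is worth at least `1 / (N + 1)`. -/
theorem le_dim_P (hB : IsClosed (B : Set F)) (hD : EntriesIn D B) (d : Dim B) {δ : ℝ} (hδ : 0 ≤ δ)
    (hδ2 : δ < 1 / 2) : 1 / ((N : ℝ) + 1) ≤ d.d (cut δ (D.P 0 0)) := by
  set ε := ((1 / 2 - δ)) ^ 2
  have hε : 0 < ε := by have : 0 < 1 / 2 - δ := (by linarith); positivity
  have h := le_cut_add (IsSelfAdjoint.of_nonneg (P_nonneg D 0)) δ
  have hk : colK D ε ∈ B := cfc_mem' hB (sum_mem fun a _ => hD.1 a a) _
  have := one_le_dim_sum' hB d (fun _ : Option (Fin N) => cut δ (D.P 0 0))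
    (fun o : Option (Fin N) => o.elim D.v fun a => D.P 0 a * colK D ε)
    (fun _ => cut_nonneg' δ _) (fun _ => cut_mem hB (hD.1 0 0) δ)
    (fun o => by cases o <;> simp [hD.2, mul_mem, hD.1, hk])
    (show Real.sqrt ε + δ + δ < 1 by rw [Real.sqrt_sq (by linarith)]; linarith) (by
      rw [Fintype.sum_option]
      calc (1 : F) = ∑ a, D.P a a + (1 - diagN D.P) := by rw [← diagN]; abel
        _ ≤ _ := add_le_add (cover D univ hε hδ h) (cover_v D hδ h)
        _ = _ := by simp only [Option.elim, add_smul]; abel)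
  simp at this
  rw [div_le_iff₀ (by positivity)]
  linarith

/-- A block of `j` diagonal entries is worth `j / N`, up to `1 / N`. -/
theorem dim_block (hB : IsClosed (B : Set F)) (hD : EntriesIn D B) (d : Dim B) (S : Finset (Fin N))
    {δ : ℝ} (hδ : 0 < δ) :
    d.d (cut δ (∑ a ∈ S, D.P a a)) ≤ S.card / N ∧
      (δ < 1 → ((S.card : ℝ) - 1) / N ≤ d.d (cut δ (∑ a ∈ S, D.P a a))) := by
  classical
  have hN : (0 : ℝ) < N := Nat.cast_pos.2 (NeZero.pos N)
  have hp := IsSelfAdjoint.of_nonneg (P_nonneg D 0)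
  set T := ∑ a ∈ S, D.P a a
  have hT : 0 ≤ T := sum_nonneg fun a _ => P_nonneg D a
  have hTB : T ∈ B := sum_mem fun a _ => hD.1 a a
  have hk : ∀ ε, colK D ε ∈ B := fun ε => cfc_mem' hB (sum_mem fun a _ => hD.1 a a) _
  refine ⟨?_, fun hδ1 => ?_⟩
  · set r := δ / 4
    have hr : 0 < r := by positivity
    have h := cover D S (sq_pos_of_pos hr) hr.le (le_cut_add hp r)
    rw [Real.sqrt_sq hr.le,
      ← sum_coe_sort S fun a => star (D.P 0 a * colK D (r ^ 2)) * _ * (D.P 0 a * colK D (r ^ 2))] at h
    refine (dim_cut_le' hB d (IsSelfAdjoint.of_nonneg hT) hTB (fun _ : S => cut r (D.P 0 0))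
      (fun a : S => D.P 0 a * colK D (r ^ 2)) (fun _ => cut_nonneg' r _)
      (fun _ => cut_mem hB (hD.1 0 0) r) (fun a => mul_mem (hD.1 0 a) (hk _)) h
      (show r + r < δ by simp only [r]; linarith)).trans ?_
    refine (sum_le_sum fun _ _ => dim_P_le D hB hD d hr).trans_eq ?_
    simp [div_eq_mul_inv]
  · set r := (1 - δ) / 4
    have hr : 0 < r := by simp only [r]; linarith
    have h1 := cover D Sᶜ (sq_pos_of_pos hr) hr.le (le_cut_add hp r)
    rw [Real.sqrt_sq hr.le, ← sum_coe_sort (Sᶜ : Finset (Fin N))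
      fun a => star (D.P 0 a * colK D (r ^ 2)) * _ * (D.P 0 a * colK D (r ^ 2))] at h1
    have h2 := cover_v D hr.le (le_cut_add hp r)
    let v : Option (Option (Sᶜ : Finset (Fin N))) → F := fun o =>
      o.elim (cut δ T) fun _ => cut r (D.P 0 0)
    let x : Option (Option (Sᶜ : Finset (Fin N))) → F := fun o =>
      o.elim 1 fun p => p.elim D.v fun a => D.P 0 a * colK D (r ^ 2)
    have := one_le_dim_sum' hB d v x
      (fun o => by rcases o with _ | o <;> simp [v, cut_nonneg'])
      (fun o => by rcases o with _ | o <;> simp [v, cut_mem hB hTB, cut_mem hB (hD.1 0 0)])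
      (fun o => by rcases o with _ | (_ | a) <;> simp [x, hD.2, mul_mem, hD.1, hk, one_mem])
      (show δ + (r + r) + r < 1 by simp only [r]; linarith) (by
        simp only [Fintype.sum_option, v, x, Option.elim, star_one, one_mul, mul_one]
        calc (1 : F) = T + ∑ a ∈ Sᶜ, D.P a a + (1 - diagN D.P) := by
              rw [sum_add_sum_compl, ← diagN]; abel
          _ ≤ _ := add_le_add (add_le_add (le_cut_add (IsSelfAdjoint.of_nonneg hT) δ) h1) h2
          _ = _ := by simp only [add_smul]; abel)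
    simp only [Fintype.sum_option, v, Option.elim, sum_const, card_univ, Fintype.card_option, Fintype.card_coe,
      nsmul_eq_mul] at this
    rw [card_compl, Fintype.card_fin] at this
    push_cast at this
    rw [Nat.cast_sub (card_le_univ S |>.trans_eq (Fintype.card_fin N))]
      at this
    have hP := dim_P_le D hB hD d hr
    rw [le_div_iff₀ hN] at hP
    rw [div_le_iff₀ hN]
    have h3 : (0 : ℝ) ≤ N - S.card := by
      rw [sub_nonneg]; exact_mod_cast card_le_univ S |>.trans_eq (Fintype.card_fin N)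
    nlinarith [mul_le_mul_of_nonneg_left hP h3, mul_le_mul_of_nonneg_left this hN.le]

end

end Vale.Agent.P095.Amen.Coin
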