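import Vale.Agent.P101.KR.Base
import Vale.Agent.P095.Amen.Coin.Drop

/-!
# P095 coin: orbits, shifts and copies
-/

namespace Vale.Agent.P095.Amen.Coin

open Vale.Agent.P101.KR

noncomputable section

variable {F : Type} [CStarAlgebra F] (σ : F ≃⋆ₐ[ℂ] F)

/-- The orbit of a set. -/
def orb (s : Set F) : Set F := ⋃ g : ℤ, (σ ^ g : F ≃⋆ₐ[ℂ] F) '' s

theorem orb_countable {s : Set F} (hs : s.Countable) : (orb σ s).Countable :=
  Set.countable_iUnion fun _ => hs.image _

theorem subset_orb (s : Set F) : s ⊆ orb σ s := fun x hx =>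
  Set.mem_iUnion.2 ⟨0, x, hx, by rw [zpow_zero]; rfl⟩

theorem image_orb (s : Set F) : σ '' orb σ s = orb σ s := by
  simp only [orb, Set.image_iUnion, Set.image_image]
  refine ((Equiv.addLeft (1 : ℤ)).surjective.iUnion_comp (g := fun g => (σ ^ g : F ≃⋆ₐ[ℂ] F) '' s)).symm.trans
    ?_ |>.symm
  refine Set.iUnion_congr fun g => ?_
  show (σ ^ (1 + g) : F ≃⋆ₐ[ℂ] F) '' s = _
  rw [zpow_one_add]
  rfl

theorem step_zpow (g : ℤ) (x : F) :
    σ ((σ ^ g : F ≃⋆ₐ[ℂ] F) x) = (σ ^ (1 + g) : F ≃⋆ₐ[ℂ] F) x := by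
  rw [zpow_one_add]; rfl

theorem zpow_image {s : Set F} (hs : σ '' s = s) (g : ℤ) : (σ ^ g : F ≃⋆ₐ[ℂ] F) '' s = s := by
  induction g using Int.induction_on with
  | zero => rw [zpow_zero]; exact Set.image_id' s
  | succ n ih =>
    rw [← Set.image_congr (fun x _ => (step_zpow σ n x).trans (by rw [add_comm])),
      ← Set.image_image, ih, hs]
  | pred n ih =>
    have h : ∀ x, σ ((σ ^ (-(n : ℤ) - 1) : F ≃⋆ₐ[ℂ] F) x) = (σ ^ (-(n : ℤ)) : F ≃⋆ₐ[ℂ] F) x :=
      fun x => by rw [step_zpow, add_sub_cancel]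
    refine Set.image_injective.2 (fun a b (e : σ a = σ b) => EquivLike.injective σ e) ?_
    rw [Set.image_image, Set.image_congr (fun x _ => h x), ih, hs]

theorem zpow_mem_Cl {s : Set F} (hs : σ '' s = s) (g : ℤ) {x : F} (hx : x ∈ Cl s) :
    (σ ^ g : F ≃⋆ₐ[ℂ] F) x ∈ Cl s := by
  have hcl : IsClosed ((Cl s).comap (σ ^ g : F ≃⋆ₐ[ℂ] F).toStarAlgHom : Set F) :=
    (isClosed_Cl s).preimage (StarAlgEquiv.isometry (σ ^ g : F ≃⋆ₐ[ℂ] F)).continuous
  exact Cl_le hcl (fun y hy => subset_Cl s ((zpow_image σ hs g).subset ⟨y, hy, rfl⟩)) hx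

/-- The shift on an invariant subalgebra. -/
def sh {s : Set F} (hs : σ '' s = s) (g : ℤ) : Cl s →⋆ₐ[ℂ] Cl s :=
  (((σ ^ g : F ≃⋆ₐ[ℂ] F).toStarAlgHom).comp (Cl s).subtype).codRestrict _
    fun x => zpow_mem_Cl σ hs g x.2

theorem sh_coe {s : Set F} (hs : σ '' s = s) (g : ℤ) (x : Cl s) :
    (sh σ hs g x : F) = (σ ^ g : F ≃⋆ₐ[ℂ] F) x := rfl

theorem zpow_hom {s : Set F} (hs : σ '' s = s) {ι : Type} (κ : ECopies σ s ι) (i : ι) (g : ℤ)
    (x : Cl s) : (σ ^ g : F ≃⋆ₐ[ℂ] F) (κ.hom i x) = κ.hom i (sh σ hs g x) := by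
  induction g using Int.induction_on with
  | zero =>
    rw [zpow_zero, show sh σ hs 0 x = x from Subtype.ext (by rw [sh_coe, zpow_zero]; rfl)]
    rfl
  | succ n ih =>
    rw [add_comm, ← step_zpow, ih]
    exact κ.equiv i _ _ (by rw [sh_coe, sh_coe, step_zpow])
  | pred n ih =>
    refine EquivLike.injective σ ?_
    rw [step_zpow, add_sub_cancel, ih]
    exact (κ.equiv i _ _ (by rw [sh_coe, sh_coe, step_zpow, add_sub_cancel])).symm

/-- The setting has copies of everything separable. -/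
theorem hasCopies_of (h : Setting σ) : HasCopies F := by
  intro s hs m
  obtain ⟨κ⟩ := h.copies (orb σ s) (orb_countable σ hs) (image_orb σ s)
  have hle : Cl s ≤ Cl (orb σ s) := Cl_mono (subset_orb σ s)
  exact ⟨⟨fun i => (κ.hom i).comp (StarSubalgebra.inclusion hle),
    fun i j hij a b => κ.comm _ _ (fun e => hij (Fin.val_injective e)) _ _⟩⟩

variable {G : Type} [CStarAlgebra G] {N : ℕ} [NeZero N]

/-- Dimension drop data under a homomorphism. -/
def mapDrop (D : DropDataN N G) (φ : G →⋆ₐ[ℂ] F) : DropDataN N F where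
  P a b := φ (D.P a b)
  v := φ D.v
  orderZero :=
    { star_eq := fun a b => by rw [← map_star, D.orderZero.star_eq]
      mul_eq := fun a b c d => by
        rw [← map_mul, D.orderZero.mul_eq]
        split_ifs <;> simp [diagN, map_sum]
      pos := fun a => by
        obtain ⟨c, hc⟩ := D.orderZero.pos a
        exact ⟨φ c, by rw [hc, map_mul, map_star]⟩ }
  star_mul_v := by rw [← map_star, ← map_mul, D.star_mul_v]; simp [diagN, map_sum]
  fix_v := by rw [← map_mul, D.fix_v]

/-- Dimension drop data inside a subalgebra. -/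
def restrictDrop [PartialOrder F] [StarOrderedRing F] (D : DropDataN N F) {B : StarSubalgebra ℂ F}
    [hB : IsClosed (B : Set F)] (h : EntriesIn D B) : DropDataN N B where
  P a b := ⟨D.P a b, h.1 a b⟩
  v := ⟨D.v, h.2⟩
  orderZero :=
    { star_eq := fun a b => Subtype.ext (D.orderZero.star_eq a b)
      mul_eq := fun a b c d => Subtype.ext (by
        have := D.orderZero.mul_eq a b c d
        split_ifs with he
        · rw [if_pos he] at this; simpa [diagN] using this
        · rw [if_neg he] at this; simpa using this)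
      pos := fun a => by
        obtain ⟨-, c, hc, e⟩ := posIn_of_nonneg hB (h.1 a a) (P_nonneg D a)
        exact ⟨⟨c, hc⟩, Subtype.ext e⟩ }
  star_mul_v := Subtype.ext (by simpa [diagN] using D.star_mul_v)
  fix_v := Subtype.ext D.fix_v

/-- The same data with the second index first. -/
def swapDrop (hN : 2 ≤ N) (D : DropDataN N F) : DropDataN N F :=
  let i : Fin N := ⟨1, hN⟩
  let e := Equiv.swap (0 : Fin N) i
  { P := fun a b => D.P (e a) (e b)
    v := D.P i 0 * D.v
    orderZero :=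
      { star_eq := fun a b => D.orderZero.star_eq _ _
        mul_eq := fun a b c d => by
          rw [D.orderZero.mul_eq]
          simp only [e.injective.eq_iff, diagN]
          rw [Equiv.sum_comp e (fun j => D.P j j)]
        pos := fun a => D.orderZero.pos _ }
    star_mul_v := by
      have hh : diagN D.P * D.P 0 0 = D.P 0 0 * D.P 0 0 := by
        rw [D.orderZero.mul_eq, if_pos rfl]
      simp only [diagN, Equiv.sum_comp e (fun j => D.P j j)]
      rw [star_mul, D.orderZero.star_eq]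
      calc star D.v * D.P 0 i * (D.P i 0 * D.v) = star D.v * (D.P 0 i * D.P i 0) * D.v := by
            noncomm_ring
        _ = star D.v * (D.P 0 0 * D.P 0 0) * D.v := by rw [D.orderZero.mul_eq, if_pos rfl, hh]
        _ = star (D.P 0 0 * D.v) * (D.P 0 0 * D.v) := by
            rw [star_mul, D.orderZero.star_eq]; noncomm_ring
        _ = _ := by rw [D.fix_v, D.star_mul_v, diagN]
    fix_v := by
      simp only [e, Equiv.swap_apply_left]
      rw [← mul_assoc, D.orderZero.mul_eq, if_pos rfl]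
      have : diagN D.P * D.P i 0 = D.P i 0 * D.P 0 0 := by
        rw [D.orderZero.mul_eq, if_pos rfl]
      rw [this, mul_assoc, D.fix_v] }

theorem swapDrop_zero (hN : 2 ≤ N) (D : DropDataN N F) :
    (swapDrop hN D).P 0 0 = D.P ⟨1, hN⟩ ⟨1, hN⟩ := by
  simp [swapDrop]

/-- A product of full positive elements of commuting copies is full. -/
theorem exists_full_prod [PartialOrder F] [StarOrderedRing F] {B : StarSubalgebra ℂ F} :
    ∀ {L : ℕ} (φ : Fin L → G →⋆ₐ[ℂ] F),
    (∀ i j, i ≠ j → ∀ a b, Commute (φ i a) (φ j b)) →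
    ∀ f : Fin L → G, (∀ j, FullPos (f j) ∧ ∃ c, f j = star c * c) → (∀ j, φ j (f j) ∈ B) →
    ∃ e : F, 0 ≤ e ∧ e ∈ B ∧ FullPos e ∧ (∀ j, ∃ r, e = φ j (f j) * r) ∧
      ∀ z, (∀ j, Commute z (φ j (f j))) → Commute z e := by
  intro L
  induction L with
  | zero =>
    intro φ _ f _ _
    exact ⟨1, zero_le_one, one_mem B, ⟨1, fun _ => 1, by simp⟩, fun j => j.elim0,
      fun z _ => Commute.one_right z⟩
  | succ L ih =>
    intro φ hφ f hf hB
    obtain ⟨e, he0, heB, ⟨K, y, hy⟩, hfac, hcomm⟩ := ih (fun j => φ j.succ)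
      (fun i j h => hφ _ _ (fun e => h (Fin.succ_injective _ e))) (fun j => f j.succ)
      (fun j => hf _) (fun j => hB _)
    have hc : ∀ x, Commute (φ 0 x) e := fun x => hcomm _ fun j =>
      hφ 0 j.succ (Fin.succ_ne_zero j).symm x _
    obtain ⟨⟨K', y', hy'⟩, c, hc0⟩ := hf 0
    refine ⟨φ 0 (f 0) * e, ?_, mul_mem (hB 0) heB, ?_, ?_, ?_⟩
    · refine (commute_iff_mul_nonneg ?_ he0).1 (hc _)
      rw [hc0, map_mul, map_star]; exact star_mul_self_nonneg _
    · let q := (finProdFinEquiv (m := K') (n := K)).symm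
      refine ⟨K' * K, fun p => φ 0 (y' (q p).1) * y (q p).2, ?_⟩
      rw [Equiv.sum_comp q (fun p : Fin K' × Fin K =>
        star (φ 0 (y' p.1) * y p.2) * (φ 0 (f 0) * e) * (φ 0 (y' p.1) * y p.2)),
        Fintype.sum_prod_type, Finset.sum_comm]
      have h1 : ∀ k i, star (φ 0 (y' i) * y k) * (φ 0 (f 0) * e) * (φ 0 (y' i) * y k) =
          star (y k) * (φ 0 (star (y' i) * f 0 * y' i) * (e * y k)) := fun k i => by
        rw [star_mul, map_mul, map_mul, ← map_star]
        calc star (y k) * φ 0 (star (y' i)) * (φ 0 (f 0) * e) * (φ 0 (y' i) * y k)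
            = star (y k) * (φ 0 (star (y' i)) * φ 0 (f 0) * (e * φ 0 (y' i)) * y k) := by
              noncomm_ring
          _ = _ := by rw [← (hc (y' i)).eq]; noncomm_ring
      simp only [h1, ← Finset.mul_sum, ← Finset.sum_mul, ← map_sum, hy', map_one, one_mul]
      simpa only [mul_assoc] using hy
    · refine Fin.cases ⟨e, rfl⟩ fun j => ?_
      obtain ⟨r, hr⟩ := hfac j
      exact ⟨φ 0 (f 0) * r, by
        rw [hr, ← mul_assoc, ← mul_assoc,
          (hφ 0 j.succ (Fin.succ_ne_zero j).symm _ _).eq]⟩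
    · exact fun z hz => (hz 0).mul_right (hcomm z fun j => hz _)

end

end Vale.Agent.P095.Amen.Coin
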