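import Vale.Agent.P101.Bridge.Interfaces
import Vale.Agent.P095.Amen.Coin.Setup

/-!
# P095 coin: the atom

A small full positive element, of known size, all of whose translates along a window vanish on one
full positive element.
-/

namespace Vale.Agent.P095.Amen.Coin

open Vale.Agent.P101.KR Finset

noncomputable section

variable {F : Type} [CStarAlgebra F] [PartialOrder F] [StarOrderedRing F]

theorem bump_le_cut (u : F) : bump (1 / 8) u ≤ (32 : ℝ) • cut (1 / 32) u := by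
  rw [bump, cut, ← cfc_const_mul (32 : ℝ) (fun t => max (t - 1 / 32) 0) u (by fun_prop)]
  refine cfc_mono (fun t _ => ?_) (by fun_prop) (by fun_prop)
  rcases le_total t (1 / 16) with h | h
  · exact le_trans (min_le_right _ _) ((max_le le_rfl (by linarith)).trans
      (mul_nonneg (by norm_num) (le_max_right _ _)))
  · refine le_trans (min_le_left _ _) ?_
    have := le_max_left (t - 1 / 32) 0
    linarith

/-- A positive element killed by a conjugate. -/
theorem mul_eq_zero_of_conj {X s : F} (hX : 0 ≤ X) (h : star s * X * s ≤ 0) : X * s = 0 := by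
  set q := cfc Real.sqrt X
  have hqq : q * q = X := by
    rw [← cfc_mul ..]
    exact (cfc_congr fun t ht => Real.mul_self_sqrt (spectrum_nonneg_of_nonneg hX ht)).trans
      (cfc_id' ℝ X)
  have hqs : star q = q := (cfc_predicate Real.sqrt X : IsSelfAdjoint _).star_eq
  have h0 : star (q * s) * (q * s) = 0 := by
    rw [star_mul, hqs, show star s * q * (q * s) = star s * (q * q) * s by noncomm_ring, hqq]
    exact le_antisymm h (star_left_conjugate_nonneg hX s)
  rw [← hqq, mul_assoc, (CStarRing.star_mul_self_eq_zero_iff _).1 h0, mul_zero]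

omit [PartialOrder F] [StarOrderedRing F] in
theorem cut_mul_eq (u : F) :
    bump (1 / 8) u * cut (1 / 8) u = cut (1 / 8) u ∧
      bump (1 / 8) u * cfc (fun t : ℝ => max 0 (1 - 16 * t)) u = 0 := by
  rw [bump, cut, ← cfc_mul .., ← cfc_mul ..]
  constructor
  · refine cfc_congr fun t _ => ?_
    rcases le_total t (1 / 8) with h | h
    · rw [max_eq_right (by linarith : t - 1 / 8 ≤ (0 : ℝ)), mul_zero]
    · rw [max_eq_right (show (0 : ℝ) ≤ (t - 1 / 8 / 2) / (1 / 8 / 2) by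
        apply div_nonneg <;> linarith), min_eq_left (by
        rw [le_div_iff₀ (by norm_num)]; linarith), one_mul]
  · refine (cfc_congr fun t _ => ?_).trans (cfc_zero ℝ u)
    rcases le_total t (1 / 16) with h | h
    · rw [max_eq_left (show (t - 1 / 8 / 2) / (1 / 8 / 2) ≤ (0 : ℝ) by
        rw [div_le_iff₀ (by norm_num)]; linarith), min_eq_right zero_le_one]
      simp
    · simp [max_eq_left (by linarith : (1 : ℝ) - 16 * t ≤ 0)]

/-- The weight: one where the sum vanishes, zero where it is at least one. -/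
def fQ (t : ℝ) : ℝ := max (1 - t) 0

theorem continuous_fQ : Continuous fQ := (by fun_prop : Continuous fun t : ℝ => max (1 - t) 0)

/-- The weight of an element. -/
def weight (S : F) : F := cfc fQ S

theorem weight_nonneg (S : F) : 0 ≤ weight S := cfc_nonneg fun _ _ => le_max_right _ _

theorem weight_le_one {S : F} (hS : 0 ≤ S) : weight S ≤ 1 := cfc_le_one _ _ fun _ ht =>
  max_le (by linarith [spectrum_nonneg_of_nonneg hS ht]) zero_le_one

theorem weight_sq_le_one {S : F} (hS : 0 ≤ S) : weight S * weight S ≤ 1 := by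
  rw [weight, ← cfc_mul fQ fQ S continuous_fQ.continuousOn continuous_fQ.continuousOn]
  refine cfc_le_one _ _ fun t ht => ?_
  have h1 : fQ t ≤ 1 := max_le (by linarith [spectrum_nonneg_of_nonneg hS ht]) zero_le_one
  exact mul_le_one₀ h1 (le_max_right _ _) h1

theorem one_sub_weight_le {S : F} (hS : 0 ≤ S) :
    1 - weight S ≤ S ∧ 1 - weight S * weight S ≤ (2 : ℝ) • S := by
  have hsa := IsSelfAdjoint.of_nonneg hS
  have hc := continuous_fQ
  have h1 : cfc (fun t => 1 - fQ t) S = 1 - weight S := by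
    rw [cfc_sub (fun _ : ℝ => (1 : ℝ)) fQ S continuousOn_const hc.continuousOn,
      cfc_const_one ℝ S hsa, weight]
  have h2 : cfc (fun t => 1 - fQ t * fQ t) S = 1 - weight S * weight S := by
    rw [cfc_sub (fun _ : ℝ => (1 : ℝ)) (fun t => fQ t * fQ t) S continuousOn_const
      (hc.mul hc).continuousOn, cfc_const_one ℝ S hsa, weight,
      cfc_mul fQ fQ S hc.continuousOn hc.continuousOn]
  have h3 : cfc (fun t : ℝ => 2 * t) S = (2 : ℝ) • S := by
    rw [cfc_const_mul (2 : ℝ) (fun t : ℝ => t) S continuous_id.continuousOn, cfc_id' ℝ S hsa]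
  constructor
  · rw [← h1]
    conv_rhs => rw [← cfc_id' ℝ S hsa]
    exact cfc_mono (fun t _ => by have := le_max_left (1 - t) (0 : ℝ); simp only [fQ]; linarith)
      (continuous_const.sub hc).continuousOn continuous_id.continuousOn
  · rw [← h2, ← h3]
    refine cfc_mono (fun t ht => ?_) (continuous_const.sub (hc.mul hc)).continuousOn
      (continuous_const.mul continuous_id).continuousOn
    have := spectrum_nonneg_of_nonneg hS ht
    rcases le_total (1 - t) 0 with h | h <;> simp [fQ, h] <;> nlinarith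

omit [PartialOrder F] [StarOrderedRing F] in
theorem cut_split {θ : F} (hθ : IsSelfAdjoint θ) (δ : ℝ) :
    θ - δ • (1 : F) = cut δ θ - cfc (fun t : ℝ => max (δ - t) 0) θ ∧
      cfc (fun t : ℝ => max (δ - t) 0) θ * cut δ θ = 0 := by
  have h1 : Continuous fun t : ℝ => max (δ - t) 0 := by fun_prop
  have h2 : Continuous fun t : ℝ => max (t - δ) 0 := by fun_prop
  constructor
  · rw [cut, ← cfc_sub _ _ θ h2.continuousOn h1.continuousOn, ← Algebra.algebraMap_eq_smul_one,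
      ← cfc_const δ θ hθ]
    conv_lhs => arg 1; rw [← cfc_id' ℝ θ hθ]
    rw [← cfc_sub (fun t : ℝ => t) (fun _ => δ) θ continuous_id.continuousOn continuousOn_const]
    refine cfc_congr fun t _ => ?_
    rcases le_total t δ with h | h <;> simp [h]
  · rw [cut, ← cfc_mul _ _ θ h1.continuousOn h2.continuousOn]
    refine (cfc_congr fun t _ => ?_).trans (cfc_zero ℝ θ)
    rcases le_total t δ with h | h <;> simp [h]

variable {G : Type} [CStarAlgebra G] [PartialOrder G] [StarOrderedRing G]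

theorem map_cut (ψ : G →⋆ₐ[ℂ] F) (δ : ℝ) {x : G} (hx : 0 ≤ x) : ψ (cut δ x) = cut δ (ψ x) :=
  StarAlgHomClass.map_cfc ψ (fun t : ℝ => max (t - δ) 0) x (by fun_prop) (map_continuous ψ)
    (IsSelfAdjoint.of_nonneg hx) ((IsSelfAdjoint.of_nonneg hx).map ψ)

/-- The atom: the first entry in the last slot, weighted away from the bumps in the others. -/
def atom {L : ℕ} (φ : Fin (L + 1) → G →⋆ₐ[ℂ] F) (θ θ' : G) : F :=
  weight (∑ j : Fin L, φ j.castSucc (bump (1 / 8) θ')) * φ (Fin.last L) θ *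
    weight (∑ j : Fin L, φ j.castSucc (bump (1 / 8) θ'))

theorem slots_nonneg {L : ℕ} (φ : Fin (L + 1) → G →⋆ₐ[ℂ] F) (θ' : G) :
    0 ≤ ∑ j : Fin L, φ j.castSucc (bump (1 / 8) θ') :=
  sum_nonneg fun _ _ => map_nonneg _ (cfc_nonneg fun _ _ => le_min zero_le_one (le_max_left _ _))

omit [PartialOrder F] [StarOrderedRing F] [PartialOrder G] [StarOrderedRing G] in
theorem commute_weight {L : ℕ} (φ : Fin (L + 1) → G →⋆ₐ[ℂ] F)
    (hφ : ∀ i j, i ≠ j → ∀ x y, Commute (φ i x) (φ j y)) (θ θ' : G) :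
    Commute (weight (∑ j : Fin L, φ j.castSucc (bump (1 / 8) θ'))) (φ (Fin.last L) θ) :=
  (Commute.sum_left _ _ _ fun j _ => hφ _ _ (Fin.castSucc_lt_last j).ne _ _).cfc_real fQ

theorem atom_bounds {L : ℕ} (φ : Fin (L + 1) → G →⋆ₐ[ℂ] F)
    (hφ : ∀ i j, i ≠ j → ∀ x y, Commute (φ i x) (φ j y)) {θ : G} (hθ : 0 ≤ θ) (hθ1 : θ ≤ 1)
    (θ' : G) :
    0 ≤ atom φ θ θ' ∧ atom φ θ θ' ≤ φ (Fin.last L) θ ∧ atom φ θ θ' ≤ 1 := by
  set h := φ (Fin.last L) θ
  set S := ∑ j : Fin L, φ j.castSucc (bump (1 / 8) θ')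
  set Q := weight S
  have hh : 0 ≤ h := map_nonneg _ hθ
  have hcQh : Commute Q h := commute_weight φ hφ θ θ'
  have hQs : star Q = Q := (cfc_predicate fQ S : IsSelfAdjoint _).star_eq
  have h0 : 0 ≤ Q * h * Q := by
    have := star_left_conjugate_nonneg hh Q; rwa [hQs] at this
  set q := cfc Real.sqrt h
  have hqq : q * q = h := by
    rw [← cfc_mul ..]
    exact (cfc_congr fun t ht => Real.mul_self_sqrt (spectrum_nonneg_of_nonneg hh ht)).trans
      (cfc_id' ℝ h)
  have hqs : star q = q := (cfc_predicate Real.sqrt h : IsSelfAdjoint _).star_eq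
  have hqQ : Commute q Q := hcQh.symm.cfc_real _
  have h1 : Q * h * Q ≤ h :=
    calc Q * h * Q = (Q * q) * (q * Q) := by rw [← hqq]; noncomm_ring
      _ = star q * (Q * Q) * q := by
        rw [← hqQ.eq, hqs, show q * Q * (q * Q) = q * (Q * (q * Q)) by noncomm_ring, hqQ.eq]
        noncomm_ring
      _ ≤ star q * 1 * q := star_left_conjugate_le_conjugate (weight_sq_le_one (slots_nonneg φ θ')) q
      _ = h := by rw [mul_one, hqs, hqq]
  exact ⟨h0, h1, h1.trans ((OrderHomClass.mono (φ (Fin.last L)) hθ1).trans_eq (map_one _))⟩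

/-- The weight of the sum vanishes where one summand is one. -/
theorem weight_mul_eq_zero {L : ℕ} (β : Fin L → F) (hβ0 : ∀ j, 0 ≤ β j) (j₀ : Fin L)
    (hc0 : ∀ j, Commute (β j) (β j₀)) (h1β : 0 ≤ 1 - β j₀) {e : F} (hbe : β j₀ * e = e) :
    weight (∑ j, β j) * e = 0 := by
  set S' := ∑ j, β j
  have hS'0 : 0 ≤ S' := sum_nonneg fun j _ => hβ0 j
  set Q' := cfc fQ S'
  have hQ'0 : 0 ≤ Q' := weight_nonneg S'
  have hQ's : star Q' = Q' := (cfc_predicate fQ S' : IsSelfAdjoint _).star_eq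
  have hQ'1 : Q' ≤ 1 := weight_le_one hS'0
  have hle : β j₀ ≤ S' := single_le_sum (fun j _ => hβ0 j) (mem_univ j₀)
  have hcS : Commute S' (β j₀) := Commute.sum_left _ _ _ fun j _ => hc0 j
  have hcQ : Commute Q' (β j₀) := hcS.cfc_real fQ
  have hsq : Q' * Q' ≤ 1 - β j₀ := by
    have h2 : Q' * Q' = Q' * (1 - S') := by
      have hlin : cfc (fun t : ℝ => 1 - t) S' = 1 - S' := by
        rw [cfc_sub (fun _ : ℝ => (1 : ℝ)) (fun t => t) S', cfc_id' ℝ S', cfc_const_one ℝ S']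
      rw [← hlin, ← cfc_mul fQ fQ S' continuous_fQ.continuousOn continuous_fQ.continuousOn,
        ← cfc_mul fQ (fun t => 1 - t) S' continuous_fQ.continuousOn (by fun_prop)]
      refine cfc_congr fun t _ => ?_
      rcases le_total (1 - t) 0 with h | h <;> simp [fQ, h]
    have h3 : 0 ≤ Q' * (S' - β j₀) := (commute_iff_mul_nonneg hQ'0 (sub_nonneg.2 hle)).1
      (((Commute.refl S').cfc_real fQ).sub_right hcQ)
    have h4 : 0 ≤ (1 - Q') * (1 - β j₀) := (commute_iff_mul_nonneg (sub_nonneg.2 hQ'1) h1β).1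
      (((Commute.one_left _).sub_left ((Commute.one_right Q').sub_right hcQ)))
    have h5 : 1 - β j₀ - Q' * Q' = Q' * (S' - β j₀) + (1 - Q') * (1 - β j₀) := by
      rw [h2]; noncomm_ring
    rw [← sub_nonneg, h5]
    exact add_nonneg h3 h4
  have hQe : Q' * e = 0 := by
    have : star (Q' * e) * (Q' * e) = 0 := by
      refine le_antisymm ?_ (star_mul_self_nonneg _)
      calc star (Q' * e) * (Q' * e) = star e * (Q' * Q') * e := by
            rw [star_mul, hQ's]; noncomm_ring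
        _ ≤ star e * (1 - β j₀) * e := star_left_conjugate_le_conjugate hsq e
        _ = 0 := by rw [mul_assoc, sub_mul, one_mul, hbe, sub_self, mul_zero]
    exact (CStarRing.star_mul_self_eq_zero_iff _).1 this
  exact hQe

/-- A full element on which a bump of the first entry vanishes. -/
theorem fullPos_side {N : ℕ} [NeZero N] (h₂ : 2 ≤ N) (E₂ : DropDataN N F) :
    FullPos (cfc (fun t : ℝ => max 0 (1 - 16 * t)) (E₂.P 0 0)) := by
  set θ' := E₂.P 0 0
  have hθ' : 0 ≤ θ' := P_nonneg E₂ 0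
  refine fullPos_of_P_le (swapDrop h₂ E₂) (cfc_predicate _ _) le_rfl (by norm_num) ?_
  rw [swapDrop_zero, zero_smul, add_zero]
  set q := E₂.P ⟨1, h₂⟩ ⟨1, h₂⟩
  have hq0 : 0 ≤ q := P_nonneg E₂ _
  have hzero : θ' * q = 0 := by
    rw [E₂.orderZero.mul_eq, if_neg]; simp [Fin.ext_iff]
  set w := cfc (fun t : ℝ => max 0 (1 - 16 * t)) θ'
  have hw0 : 0 ≤ w := cfc_nonneg fun _ _ => le_max_left _ _
  have hw1 : w ≤ 1 := cfc_le_one _ _ fun t ht =>
    max_le zero_le_one (by linarith [spectrum_nonneg_of_nonneg hθ' ht])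
  have hwθ : 1 - w ≤ (16 : ℝ) • θ' := by
    conv_rhs => rw [← cfc_id' ℝ θ', ← cfc_const_mul (16 : ℝ) (fun t : ℝ => t) θ' (by fun_prop)]
    rw [← cfc_const_one ℝ θ', ← cfc_sub ..]
    exact cfc_mono fun t _ => by have := le_max_right 0 (1 - 16 * t); linarith
  have hwq : w * q = q := by
    have h1 : (1 - w) * q = 0 := by
      refine mul_eq_zero_of_conj (sub_nonneg.2 hw1) ?_
      calc star q * (1 - w) * q ≤ star q * ((16 : ℝ) • θ') * q :=
            star_left_conjugate_le_conjugate hwθ q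
        _ = 0 := by rw [mul_smul_comm, smul_mul_assoc, mul_assoc, hzero, mul_zero, smul_zero]
    rw [sub_mul, one_mul, sub_eq_zero] at h1
    exact h1.symm
  have hqs : star q = q := (IsSelfAdjoint.of_nonneg hq0).star_eq
  have hws : star w = w := (IsSelfAdjoint.of_nonneg hw0).star_eq
  have hq1 : q ≤ 1 := (P_le_diag E₂ _).trans (diag_le_one E₂)
  calc q = star w * q * w := by
        rw [hws, hwq]
        conv_lhs => rw [← hqs, ← hwq, star_mul, hws, hqs]
    _ ≤ star w * 1 * w := star_left_conjugate_le_conjugate hq1 w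
    _ ≤ w := by
        rw [mul_one, hws, ← cfc_mul ..]
        refine cfc_mono fun t ht => ?_
        have h1 : max 0 (1 - 16 * t) ≤ (1 : ℝ) :=
          max_le zero_le_one (by linarith [spectrum_nonneg_of_nonneg hθ' ht])
        exact mul_le_of_le_one_right (le_max_left _ _) h1

/-- The atom is bounded below on a full element. -/
theorem fullPos_atom {L : ℕ} (φ : Fin (L + 1) → G →⋆ₐ[ℂ] F)
    (hφ : ∀ i j, i ≠ j → ∀ x y, Commute (φ i x) (φ j y)) {θ θ' : G} (hθ : 0 ≤ θ)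
    (hθ1 : θ ≤ 1) (hfθ : FullPos (cut (1 / 8) θ))
    (hsv : FullPos (cfc (fun t : ℝ => max 0 (1 - 16 * t)) θ')) :
    FullPos (cut (1 / 16) (atom φ θ θ')) := by
  set top : Fin (L + 1) := Fin.last L
  set sv := cfc (fun t : ℝ => max 0 (1 - 16 * t)) θ'
  set h := φ top θ
  set b : Fin L → F := fun j => φ j.castSucc (bump (1 / 8) θ')
  set S := ∑ j, b j
  have hS : 0 ≤ S := slots_nonneg φ θ'
  set Q := cfc fQ S
  have hQ1 : Q ≤ 1 := weight_le_one hS
  have hQs : star Q = Q := (cfc_predicate fQ S : IsSelfAdjoint _).star_eq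
  set a := Q * h * Q
  have ha0 : 0 ≤ a := (atom_bounds φ hφ hθ hθ1 θ').1
  set f : Fin (L + 1) → G := fun i => if i = top then cut (1 / 8) θ else sv
  obtain ⟨e', he'0, -, he'full, he'fac, he'comm⟩ := exists_full_prod (B := (⊤ : StarSubalgebra ℂ F)) φ hφ f
    (fun i => by
      simp only [f]
      split_ifs
      · exact ⟨hfθ, CStarAlgebra.nonneg_iff_eq_star_mul_self.1 (cut_nonneg' _ _)⟩
      · exact ⟨hsv, CStarAlgebra.nonneg_iff_eq_star_mul_self.1
          (cfc_nonneg fun _ _ => le_max_left _ _)⟩)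
    (fun i => StarSubalgebra.mem_top)
  have hSe : S * e' = 0 := by
    rw [sum_mul]
    refine sum_eq_zero fun j _ => ?_
    obtain ⟨r, hr⟩ := he'fac j.castSucc
    rw [hr, ← mul_assoc, ← map_mul, show f j.castSucc = sv from if_neg (Fin.castSucc_lt_last j).ne,
      (cut_mul_eq θ').2, map_zero, zero_mul]
  have hQe' : Q * e' = e' := by
    have h1 : (1 - Q) * e' = 0 := by
      refine mul_eq_zero_of_conj (sub_nonneg.2 hQ1) ?_
      have hle : 1 - Q ≤ S := (one_sub_weight_le hS).1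
      calc star e' * (1 - Q) * e' ≤ star e' * S * e' := star_left_conjugate_le_conjugate hle e'
        _ = 0 := by rw [mul_assoc, hSe, mul_zero]
    rw [sub_mul, one_mul, sub_eq_zero] at h1
    exact h1.symm
  have hcs : ∀ z, Commute z (φ top (cut (1 / 8) θ)) →
      (∀ j : Fin L, Commute z (φ j.castSucc sv)) → Commute z e' := fun z hz hz' =>
    he'comm z (Fin.lastCases (by simpa [f, top] using hz) fun j => by
      simpa [f, top, (Fin.castSucc_lt_last j).ne] using hz' j)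
  have hhe : Commute h e' := hcs h (((Commute.refl θ).cfc_real _).symm.map (φ top))
    fun j => hφ _ _ (Fin.castSucc_lt_last j).ne' _ _
  have hSe' : Commute S e' := hcs S
    (Commute.sum_left _ _ _ fun j _ => hφ _ _ (Fin.castSucc_lt_last j).ne _ _)
    (fun j => Commute.sum_left _ _ _ fun k _ => by
      rcases eq_or_ne k j with rfl | hne
      · exact (((Commute.refl θ').cfc_real _).symm.cfc_real _).symm.map (φ k.castSucc)
      · exact hφ _ _ (fun e => hne (Fin.castSucc_injective _ e)) _ _)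
  have hQe'c : Commute Q e' := hSe'.cfc_real fQ
  have hae : Commute a e' := (hQe'c.mul_left hhe).mul_left hQe'c
  have haeq : a * e' = h * e' := by
    show Q * h * Q * e' = _
    rw [mul_assoc, hQe', mul_assoc, hhe.eq, ← mul_assoc, hQe']
  obtain ⟨r, hr⟩ := he'fac top
  have hlow : (1 / 8 : ℝ) • e' ≤ h * e' := by
    set m := φ top (cfc (fun t : ℝ => max (1 / 8 - t) 0) θ)
    set p := φ top (cut (1 / 8) θ)
    obtain ⟨hsplit, hzero⟩ := cut_split (IsSelfAdjoint.of_nonneg hθ) (1 / 8)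
    have hme : m * e' = 0 := by
      rw [hr, ← mul_assoc, ← map_mul, show f top = cut (1 / 8) θ from if_pos rfl, hzero, map_zero,
        zero_mul]
    have hd : h - (1 / 8 : ℝ) • (1 : F) = p - m := by
      rw [← map_sub, ← hsplit, map_sub, ← Complex.coe_smul (1 / 8 : ℝ) (1 : G), map_smul, map_one,
        Complex.coe_smul]
    rw [← sub_nonneg, show h * e' - (1 / 8 : ℝ) • e' = (h - (1 / 8 : ℝ) • (1 : F)) * e' by
      rw [sub_mul, smul_mul_assoc, one_mul], hd, sub_mul, hme, sub_zero]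
    exact (commute_iff_mul_nonneg (map_nonneg _ (cut_nonneg' _ _)) he'0).1
      (hcs p (Commute.refl _) fun j => hφ _ _ (Fin.castSucc_lt_last j).ne' _ _)
  refine fullPos_of_mul_le he'0 he'full (cfc_predicate _ _) (hae.cfc_real _).symm
    (show (0 : ℝ) < 1 / 16 by norm_num) ?_
  have h1 : 0 ≤ (cut (1 / 16) a + (1 / 16 : ℝ) • (1 : F) - a) * e' :=
    (commute_iff_mul_nonneg (sub_nonneg.2 (le_cut_add (IsSelfAdjoint.of_nonneg ha0) _)) he'0).1
      ((((hae.cfc_real _).add_left ((Commute.one_left e').smul_left _))).sub_left hae)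
  rw [sub_mul, add_mul, smul_mul_assoc, one_mul, haeq] at h1
  calc (1 / 16 : ℝ) • e' = (1 / 8 : ℝ) • e' - (1 / 16 : ℝ) • e' := by rw [← sub_smul]; norm_num
    _ ≤ h * e' - (1 / 16 : ℝ) • e' := sub_le_sub_right hlow _
    _ ≤ cut (1 / 16) a * e' := sub_le_iff_le_add.2 (sub_nonneg.1 h1)

/-- The first slot is below the atom and the bumps. -/
theorem le_atom_add {L : ℕ} (φ : Fin (L + 1) → G →⋆ₐ[ℂ] F)
    (hφ : ∀ i j, i ≠ j → ∀ x y, Commute (φ i x) (φ j y)) {θ θ' : G} (hθ : 0 ≤ θ) (hθ' : 0 ≤ θ')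
    (hθ1 : θ ≤ 1) :
    φ (Fin.last L) θ ≤ cut (1 / 16) (atom φ θ θ') +
      (∑ j : Fin L, (64 : ℝ) • cut (1 / 32) (φ j.castSucc θ')) + (1 / 16 : ℝ) • (1 : F) := by
  set top : Fin (L + 1) := Fin.last L
  set h := φ top θ
  set b : Fin L → F := fun j => φ j.castSucc (bump (1 / 8) θ')
  let c : Fin L → F := fun j => cut (1 / 32) (φ j.castSucc θ')
  set S := ∑ j, b j
  have hS : 0 ≤ S := slots_nonneg φ θ'
  set Q := cfc fQ S
  have hQQ : Q * Q ≤ 1 := weight_sq_le_one hS
  have hcQh : Commute Q h := commute_weight φ hφ θ θ'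
  have hh1 : h ≤ 1 := (OrderHomClass.mono (φ top) hθ1).trans_eq (map_one _)
  set a := Q * h * Q
  have ha0 : 0 ≤ a := (atom_bounds φ hφ hθ hθ1 θ').1
  have hdef : h - a ≤ (2 : ℝ) • S := by
    have e : h - a = h * (1 - Q * Q) := by
      show h - Q * h * Q = _
      rw [hcQh.eq, mul_sub, mul_one, mul_assoc]
    have hle : 1 - Q * Q ≤ (2 : ℝ) • S := (one_sub_weight_le hS).2
    have hcomm : Commute h (1 - Q * Q) :=
      (Commute.one_right h).sub_right (hcQh.symm.mul_right hcQh.symm)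
    rw [e]
    refine le_trans ?_ hle
    have := (commute_iff_mul_nonneg (sub_nonneg.2 hh1) (sub_nonneg.2 hQQ)).1
      ((Commute.one_left _).sub_left hcomm)
    rwa [sub_mul, one_mul, sub_nonneg] at this
  have hbc : ∀ j, b j ≤ (32 : ℝ) • c j := fun j => by
    have := OrderHomClass.mono (φ j.castSucc) (bump_le_cut θ')
    rwa [← Complex.coe_smul, map_smul, Complex.coe_smul, map_cut _ _ hθ'] at this
  have h2 : (2 : ℝ) • S ≤ ∑ j, (64 : ℝ) • c j := by
    rw [smul_sum]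
    exact sum_le_sum fun j _ => (smul_le_smul_of_nonneg_left (hbc j) zero_le_two).trans_eq
      (by rw [smul_smul]; norm_num)
  calc h = a + (h - a) := by abel
    _ ≤ (cut (1 / 16) a + (1 / 16 : ℝ) • (1 : F)) + ∑ j, (64 : ℝ) • c j :=
        add_le_add (le_cut_add (IsSelfAdjoint.of_nonneg ha0) _) (hdef.trans h2)
    _ = _ := by simp only [c, a, atom, weight]; abel

/-- The atom in given slots. -/
theorem atom_spec {L N₁ N₂ : ℕ} [NeZero N₁] [NeZero N₂] (h₂ : 2 ≤ N₂)
    (E₁ : DropDataN N₁ G) (E₂ : DropDataN N₂ G) (σg : ℤ → F ≃⋆ₐ[ℂ] F) (ψ : ℤ → G →⋆ₐ[ℂ] G)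
    (φ : Fin (L + 1) → G →⋆ₐ[ℂ] F) (hφ : ∀ i j, i ≠ j → ∀ x y, Commute (φ i x) (φ j y))
    (hσ : ∀ i g x, σg g (φ i x) = φ i (ψ g x)) (gof : Fin L → ℤ)
    {C : StarSubalgebra ℂ F} (hC : IsClosed (C : Set F)) (hφC : ∀ i x, φ i x ∈ C) :
    ∃ a e : F, a ∈ C ∧ e ∈ C ∧ 0 ≤ a ∧ a ≤ 1 ∧ 0 ≤ e ∧ FullPos e ∧ FullPos (cut (1 / 16) a) ∧
      (∀ j, σg (gof j) a * e = 0) ∧
      (∀ B : StarSubalgebra ℂ F, IsClosed (B : Set F) → C ≤ B → ∀ d : Dim B,
        1 / ((N₁ : ℝ) + 1) - L / N₂ ≤ d.d (cut (1 / 16) a)) ∧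
      ∀ g : ℤ, ∃ h ∈ C, 0 ≤ h ∧ σg g a ≤ h ∧
        ∀ B : StarSubalgebra ℂ F, IsClosed (B : Set F) → C ≤ B → ∀ d : Dim B, ∀ δ : ℝ, 0 < δ →
          d.d (cut δ h) ≤ 1 / N₁ := by
  set θ : G := E₁.P 0 0
  set θ' : G := E₂.P 0 0
  have hθ : 0 ≤ θ := P_nonneg E₁ 0
  have hθ' : 0 ≤ θ' := P_nonneg E₂ 0
  have hθ1 : θ ≤ 1 := (P_le_diag E₁ 0).trans (diag_le_one E₁)
  obtain ⟨ha0, hah, ha1⟩ := atom_bounds φ hφ hθ hθ1 θ'
  have hSmem : ∑ j : Fin L, φ j.castSucc (bump (1 / 8) θ') ∈ C := sum_mem fun j _ => hφC _ _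
  have haC : atom φ θ θ' ∈ C := mul_mem (mul_mem (cfc_mem' hC hSmem _) (hφC _ _))
    (cfc_mem' hC hSmem _)
  have hfullcut : ∀ {N : ℕ} [NeZero N] (D : DropDataN N G), FullPos (cut (1 / 8) (D.P 0 0)) :=
    fun D => fullPos_of_P_le D (IsSelfAdjoint.of_nonneg (cut_nonneg' _ _)) (by norm_num)
      (by norm_num) (le_cut_add (IsSelfAdjoint.of_nonneg (P_nonneg D 0)) _)
  set c' : G := cut (1 / 8) θ'
  obtain ⟨e, he0, heB, hefull, hefac, -⟩ := exists_full_prod (B := C) (fun j : Fin L => φ j.castSucc)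
    (fun i j hij => hφ _ _ fun e => hij (Fin.castSucc_injective _ e))
    (fun j => ψ (gof j) c')
    (fun j => ⟨by
      obtain ⟨K, y, hy⟩ := hfullcut E₂
      exact ⟨K, fun i => ψ (gof j) (y i), by
        have : ψ (gof j) (∑ i, star (y i) * c' * y i) = 1 := (congrArg _ hy).trans (map_one _)
        simpa only [map_sum, map_mul, map_star] using this⟩,
      CStarAlgebra.nonneg_iff_eq_star_mul_self.1 (map_nonneg _ (cut_nonneg' _ _))⟩)
    (fun j => hφC _ _)
  refine ⟨atom φ θ θ', e, haC, heB, ha0, ha1, he0, hefull,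
    fullPos_atom φ hφ hθ hθ1 (hfullcut E₁) (fullPos_side h₂ E₂), fun j₀ => ?_,
    fun B hB hsB d => ?_, fun g => ?_⟩
  · set g := gof j₀
    set β : Fin L → F := fun j => φ j.castSucc (ψ g (bump (1 / 8) θ'))
    have hS' : σg g (∑ j : Fin L, φ j.castSucc (bump (1 / 8) θ')) = ∑ j, β j := by
      simp only [map_sum, hσ, β]
    have hQ' : σg g (weight (∑ j : Fin L, φ j.castSucc (bump (1 / 8) θ'))) = weight (∑ j, β j) := by
      rw [weight, weight, StarAlgHomClass.map_cfc (σg g) fQ _ continuous_fQ.continuousOn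
        (StarAlgEquiv.isometry (σg g)).continuous
        (IsSelfAdjoint.of_nonneg (slots_nonneg φ θ'))
        ((IsSelfAdjoint.of_nonneg (slots_nonneg φ θ')).map (σg g)), hS']
    obtain ⟨r, hr⟩ := hefac j₀
    have hQe : weight (∑ j, β j) * e = 0 := weight_mul_eq_zero β
      (fun j => map_nonneg _ (map_nonneg _
        (cfc_nonneg fun _ _ => le_min zero_le_one (le_max_left _ _)))) j₀
      (fun j => by
        rcases eq_or_ne j j₀ with rfl | hne
        · exact Commute.refl _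
        · exact hφ _ _ (fun e => hne (Fin.castSucc_injective _ e)) _ _)
      (by
        rw [sub_nonneg]
        have : bump (1 / 8) θ' ≤ 1 := cfc_le_one _ _ fun t _ => min_le_left _ _
        simpa [β] using OrderHomClass.mono ((φ j₀.castSucc).comp (ψ g)) this)
      (by
        rw [hr, ← mul_assoc]
        congr 1
        show φ j₀.castSucc (ψ g _) * φ j₀.castSucc (ψ g c') = _
        rw [← map_mul, ← map_mul, (cut_mul_eq θ').1])
    rw [atom, map_mul, map_mul, hQ', mul_assoc, hQe, mul_zero]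
  · let c : Fin L → F := fun j => cut (1 / 32) (φ j.castSucc θ')
    have h8 : (8 : ℝ) * 8 = 64 := by norm_num
    have key := dim_cut_le' hB d (IsSelfAdjoint.of_nonneg (map_nonneg (φ (Fin.last L)) hθ))
      (hsB (hφC _ _))
      (fun o : Option (Fin L) => o.elim (cut (1 / 16) (atom φ θ θ')) c)
      (fun o : Option (Fin L) => o.elim 1 fun _ => (8 : ℝ) • (1 : F))
      (fun o => by cases o <;> exact cut_nonneg' _ _)
      (fun o => by
        cases o
        · exact cut_mem hB (hsB haC) _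
        · exact cut_mem hB (hsB (hφC _ _)) _)
      (fun o => by cases o <;> first | exact one_mem B | exact smul_mem' (one_mem B) 8)
      (r := 1 / 16) (δ := 1 / 8)
      (by simpa [Fintype.sum_option, star_smul_conj, smul_smul, h8, c] using le_atom_add φ hφ hθ hθ' hθ1)
      (by norm_num)
    simp only [Fintype.sum_option, Option.elim] at key
    have hlow : 1 / ((N₁ : ℝ) + 1) ≤ d.d (cut (1 / 8) (φ (Fin.last L) θ)) :=
      le_dim_P (mapDrop E₁ (φ (Fin.last L))) hB
        ⟨fun x y => hsB (hφC _ _), hsB (hφC _ _)⟩ d (by norm_num) (by norm_num)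
    have hup : ∀ j, d.d (c j) ≤ 1 / N₂ := fun j =>
      dim_P_le (mapDrop E₂ (φ j.castSucc)) hB ⟨fun x y => hsB (hφC _ _), hsB (hφC _ _)⟩ d
        (by norm_num)
    have hsum : ∑ j, d.d (c j) ≤ (L : ℝ) / N₂ :=
      (sum_le_sum fun j _ => hup j).trans_eq (by simp [div_eq_mul_inv])
    linarith
  · refine ⟨φ (Fin.last L) (ψ g θ), hφC _ _, map_nonneg _ (map_nonneg _ hθ), ?_,
      fun B hB hsB d δ hδ => dim_P_le (mapDrop E₁ ((φ (Fin.last L)).comp (ψ g))) hB
        ⟨fun x y => hsB (hφC _ _), hsB (hφC _ _)⟩ d hδ⟩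
    rw [← hσ]
    exact OrderHomClass.mono (σg g) hah

/-- Parameters: `W` the window, `L` its length. -/
theorem exists_atom {σ : F ≃⋆ₐ[ℂ] F} (hσ : Setting σ) (W : ℕ) {N₁ N₂ : ℕ} [NeZero N₁] [NeZero N₂]
    (h₂ : 2 ≤ N₂) (D₁ : DropDataN N₁ F) (D₂ : DropDataN N₂ F) :
    ∃ (s : Set F) (a e : F), s.Countable ∧ σ '' s = s ∧ a ∈ Cl s ∧ e ∈ Cl s ∧
      0 ≤ a ∧ a ≤ 1 ∧ 0 ≤ e ∧ FullPos e ∧ FullPos (cut (1 / 16) a) ∧
      (∀ g : ℤ, g.natAbs ≤ W → (σ ^ g : F ≃⋆ₐ[ℂ] F) a * e = 0) ∧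
      (∀ B : StarSubalgebra ℂ F, IsClosed (B : Set F) → Cl s ≤ B → ∀ d : Dim B,
        1 / ((N₁ : ℝ) + 1) - (2 * W + 1) / N₂ ≤ d.d (cut (1 / 16) a)) ∧
      ∀ g : ℤ, ∃ h ∈ Cl s, 0 ≤ h ∧ (σ ^ g : F ≃⋆ₐ[ℂ] F) a ≤ h ∧
        ∀ B : StarSubalgebra ℂ F, IsClosed (B : Set F) → Cl s ≤ B → ∀ d : Dim B, ∀ δ : ℝ, 0 < δ →
          d.d (cut δ h) ≤ 1 / N₁ := by
  classical
  set s₀ : Set F := orb σ ((Set.range (fun p : Fin N₁ × Fin N₁ => D₁.P p.1 p.2) ∪ {D₁.v}) ∪
    (Set.range (fun p : Fin N₂ × Fin N₂ => D₂.P p.1 p.2) ∪ {D₂.v}))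
  have hs₀c : s₀.Countable := orb_countable σ
    (((Set.countable_range _).union (Set.countable_singleton _)).union
      ((Set.countable_range _).union (Set.countable_singleton _)))
  have hinv : σ '' s₀ = s₀ := image_orb σ _
  obtain ⟨κ⟩ := hσ.copies s₀ hs₀c hinv
  have hD₁ : EntriesIn D₁ (Cl s₀) :=
    ⟨fun x y => subset_Cl _ (subset_orb σ _ (.inl (.inl ⟨(x, y), rfl⟩))),
      subset_Cl _ (subset_orb σ _ (.inl (.inr rfl)))⟩
  have hD₂ : EntriesIn D₂ (Cl s₀) :=
    ⟨fun x y => subset_Cl _ (subset_orb σ _ (.inr (.inl ⟨(x, y), rfl⟩))),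
      subset_Cl _ (subset_orb σ _ (.inr (.inr rfl)))⟩
  set L : ℕ := 2 * W + 1 with hLdef
  set φ : Fin (L + 1) → Cl s₀ →⋆ₐ[ℂ] F := fun i => κ.hom i.1
  set t₀ : Set (Cl s₀) := Subtype.val ⁻¹' s₀
  set s : Set F := orb σ (⋃ i : Fin (L + 1), φ i '' t₀)
  have hsc : s.Countable := orb_countable σ (Set.countable_iUnion fun i =>
    (hs₀c.preimage Subtype.coe_injective).image _)
  have hφmem : ∀ i x, φ i x ∈ Cl s := fun i x =>
    Cl_mono (fun y hy => subset_orb σ _ (Set.mem_iUnion.2 ⟨i, hy⟩)) (hom_mem_Cl _ x)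
  let := CStarAlgebra.spectralOrder (Cl s₀)
  have := CStarAlgebra.spectralOrderedRing (Cl s₀)
  obtain ⟨a, e, haS, heS, ha0, ha1, he0, hef, haf, hkill, hlow, hup⟩ :=
    atom_spec (G := Cl s₀) (L := L) h₂ (restrictDrop D₁ hD₁) (restrictDrop D₂ hD₂) (fun g => σ ^ g)
      (fun g => sh σ hinv g) φ (fun i j h => κ.comm _ _ fun e => h (Fin.ext e))
      (fun i g x => zpow_hom σ hinv κ _ g x) (fun j => (j : ℕ) - (W : ℤ)) (isClosed_Cl s) hφmem
  refine ⟨s, a, e, hsc, image_orb σ _, haS, heS, ha0, ha1, he0, hef, haf, fun g hg => ?_,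
    fun B hB hsB d => ?_, hup⟩
  · have h := hkill ⟨(g + W).toNat, by omega⟩
    rwa [show (((g + W).toNat : ℕ) : ℤ) - W = g by omega] at h
  · have := hlow B hB hsB d
    simpa [L] using this

end

end Vale.Agent.P095.Amen.Coin
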