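import Vale.Agent.P095.Amen.Coin.Atom

/-!
# P095 coin: the weighted sum of the translates and one bank
-/

namespace Vale.Agent.P095.Amen.Coin

open Vale.Agent.P101.KR Finset

noncomputable section

variable {F : Type} [CStarAlgebra F] [PartialOrder F] [StarOrderedRing F] (σ : F ≃⋆ₐ[ℂ] F)

/-- The weighted sum of the translates, with a floor. -/
def avg (W : ℕ) (q η₀ : ℝ) (a : F) : F :=
  η₀ • (1 : F) + ∑ g ∈ Icc (-(W : ℤ)) W, q ^ g.natAbs • (σ ^ g : F ≃⋆ₐ[ℂ] F) a

/-- The operator monotone function of the bank. -/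
def bankFun (τ₀ t : ℝ) : ℝ := 1 - τ₀ * (τ₀ + max t 0)⁻¹

theorem continuous_inv_add {τ₀ : ℝ} (hτ : 0 < τ₀) : Continuous fun t : ℝ => (τ₀ + max t 0)⁻¹ :=
  (continuous_const.add (continuous_id.max continuous_const)).inv₀ fun t =>
    (add_pos_of_pos_of_nonneg hτ (le_max_right t 0)).ne'

theorem continuous_bankFun {τ₀ : ℝ} (hτ : 0 < τ₀) : Continuous (bankFun τ₀) :=
  continuous_const.sub (continuous_const.mul (continuous_inv_add hτ))

theorem bankFun_mem {τ₀ t : ℝ} (hτ : 0 < τ₀) : 0 ≤ bankFun τ₀ t ∧ bankFun τ₀ t ≤ 1 := by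
  have h : 0 < τ₀ + max t 0 := add_pos_of_pos_of_nonneg hτ (le_max_right t 0)
  have h1 : τ₀ * (τ₀ + max t 0)⁻¹ ≤ 1 := by
    rw [← div_eq_mul_inv, div_le_one h]; linarith [le_max_right t (0 : ℝ)]
  exact ⟨sub_nonneg.2 h1, sub_le_self _ (mul_nonneg hτ.le (inv_nonneg.2 h.le))⟩

/-- The resolvent is antitone. -/
theorem cfc_inv_antitone {τ₀ : ℝ} (hτ : 0 < τ₀) {X Y : F} (hX : 0 ≤ X) (hXY : X ≤ Y) :
    cfc (fun t : ℝ => (τ₀ + max t 0)⁻¹) Y ≤ cfc (fun t : ℝ => (τ₀ + max t 0)⁻¹) X := by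
  have key : ∀ Z : F, 0 ≤ Z → ∃ u : Fˣ, (u : F) = τ₀ • (1 : F) + Z ∧
      (↑u⁻¹ : F) = cfc (fun t : ℝ => (τ₀ + max t 0)⁻¹) Z := by
    intro Z hZ
    have hsa := IsSelfAdjoint.of_nonneg hZ
    have hc := continuous_inv_add hτ
    have hlin : cfc (fun t : ℝ => τ₀ + t) Z = τ₀ • (1 : F) + Z := by
      rw [cfc_const_add τ₀ (fun t => t) Z continuous_id.continuousOn hsa, cfc_id' ℝ Z hsa,
        Algebra.algebraMap_eq_smul_one]
    have hl : Continuous fun t : ℝ => τ₀ + t := continuous_const.add continuous_id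
    have h1 : ∀ t ∈ spectrum ℝ Z, (τ₀ + t) * (τ₀ + max t 0)⁻¹ = 1 := fun t ht => by
      have := spectrum_nonneg_of_nonneg hZ ht
      rw [max_eq_left this, mul_inv_cancel₀]; linarith
    refine ⟨⟨τ₀ • (1 : F) + Z, cfc (fun t : ℝ => (τ₀ + max t 0)⁻¹) Z, ?_, ?_⟩, rfl, rfl⟩
    · rw [← hlin, ← cfc_mul _ _ Z hl.continuousOn hc.continuousOn]
      exact (cfc_congr h1).trans (cfc_const_one ℝ Z hsa)
    · rw [← hlin, ← cfc_mul _ _ Z hc.continuousOn hl.continuousOn]
      exact (cfc_congr fun t ht => by rw [mul_comm]; exact h1 t ht).trans (cfc_const_one ℝ Z hsa)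
  obtain ⟨u, hu, hu'⟩ := key X hX
  obtain ⟨v, hv, hv'⟩ := key Y (hX.trans hXY)
  rw [← hu', ← hv']
  refine CStarAlgebra.inv_le_inv ?_ ?_
  · rw [hu]; exact add_nonneg (smul_nonneg hτ.le zero_le_one) hX
  · rw [hu, hv]; exact add_le_add le_rfl hXY

/-- The bank keeps relative bounds. -/
theorem bank_rel {τ₀ r : ℝ} (hτ : 0 < τ₀) (hr : 0 ≤ r) {X Y : F} (hX : 0 ≤ X) (hY : 0 ≤ Y)
    (h : Y ≤ (1 + r) • X) : cfc (bankFun τ₀) Y ≤ (1 + r) • cfc (bankFun τ₀) X := by
  have hc := continuous_inv_add hτ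
  have hb := continuous_bankFun hτ
  have hsX := IsSelfAdjoint.of_nonneg hX
  have hZ : 0 ≤ (1 + r) • X := smul_nonneg (by linarith) hX
  have hform : ∀ Z : F, 0 ≤ Z →
      cfc (bankFun τ₀) Z = 1 - τ₀ • cfc (fun t : ℝ => (τ₀ + max t 0)⁻¹) Z := fun Z hZ => by
    have hsZ := IsSelfAdjoint.of_nonneg hZ
    rw [show bankFun τ₀ = fun t => 1 - τ₀ * (τ₀ + max t 0)⁻¹ from rfl,
      cfc_sub (fun _ : ℝ => (1 : ℝ)) (fun t => τ₀ * (τ₀ + max t 0)⁻¹) Z continuousOn_const
        (continuous_const.mul hc).continuousOn, cfc_const_one ℝ Z hsZ,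
      cfc_const_mul τ₀ _ Z hc.continuousOn]
  calc cfc (bankFun τ₀) Y ≤ cfc (bankFun τ₀) ((1 + r) • X) := by
        rw [hform Y hY, hform _ hZ]
        exact sub_le_sub_left (smul_le_smul_of_nonneg_left (cfc_inv_antitone hτ hY h) hτ.le) _
    _ = cfc (fun t => bankFun τ₀ ((1 + r) * t)) X := (cfc_comp_smul (1 + r) (bankFun τ₀) X).symm
    _ ≤ cfc (fun t => (1 + r) * bankFun τ₀ t) X := by
        refine cfc_mono (fun t ht => ?_)
          (hb.comp (continuous_const.mul continuous_id)).continuousOn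
          (continuous_const.mul hb).continuousOn
        have h0 := spectrum_nonneg_of_nonneg hX ht
        have h1 : 0 ≤ (1 + r) * t := mul_nonneg (by linarith) h0
        simp only [bankFun, max_eq_left h0, max_eq_left h1]
        have ha : 0 < τ₀ + t := by linarith
        have hb : 0 < τ₀ + (1 + r) * t := by linarith
        have e1 : 1 - τ₀ * (τ₀ + t)⁻¹ = t / (τ₀ + t) := by field_simp; ring
        have e2 : 1 - τ₀ * (τ₀ + (1 + r) * t)⁻¹ = (1 + r) * t / (τ₀ + (1 + r) * t) := by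
          field_simp; ring
        rw [e1, e2, mul_div_assoc (1 + r) t (τ₀ + (1 + r) * t)]
        refine mul_le_mul_of_nonneg_left (div_le_div_of_nonneg_left h0 ha ?_) (by linarith)
        nlinarith
    _ = _ := cfc_const_mul (1 + r) (bankFun τ₀) X hb.continuousOn

variable {W : ℕ} {q η₀ : ℝ} {a : F}

theorem nonneg_sum_translates (hq : 0 ≤ q) (ha0 : 0 ≤ a) :
    0 ≤ ∑ g ∈ Icc (-(W : ℤ)) W, q ^ g.natAbs • (σ ^ g : F ≃⋆ₐ[ℂ] F) a :=
  sum_nonneg fun _ _ => smul_nonneg (pow_nonneg hq _) (map_nonneg _ ha0)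

theorem le_avg (hq : 0 ≤ q) (hη : 0 ≤ η₀) (ha0 : 0 ≤ a) :
    η₀ • (1 : F) ≤ avg σ W q η₀ a ∧ a ≤ avg σ W q η₀ a ∧ 0 ≤ avg σ W q η₀ a := by
  have h1 : η₀ • (1 : F) ≤ avg σ W q η₀ a := le_add_of_nonneg_right (nonneg_sum_translates σ hq ha0)
  refine ⟨h1, ?_, (smul_nonneg hη zero_le_one).trans h1⟩
  refine le_add_of_nonneg_of_le (smul_nonneg hη zero_le_one) (le_of_eq_of_le ?_ (single_le_sum
    (fun _ _ => smul_nonneg (pow_nonneg hq _) (map_nonneg _ ha0)) (show (0 : ℤ) ∈ _ by simp)))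
  simp only [Int.natAbs_zero, pow_zero, one_smul, zpow_zero]
  rfl

/-- One step changes the sum relatively. -/
theorem avg_step {r : ℝ} (hq : 0 < q) (hq1 : q ≤ 1) (hη : 0 < η₀) (ha0 : 0 ≤ a) (ha1 : a ≤ 1)
    (hr : q⁻¹ + q ^ W / η₀ ≤ 1 + r) (e : ℤ) (he : e.natAbs = 1) :
    (σ ^ e : F ≃⋆ₐ[ℂ] F) (avg σ W q η₀ a) ≤ (1 + r) • avg σ W q η₀ a := by
  classical
  set I := Icc (-(W : ℤ)) W
  set X : ℤ → F := fun g => (σ ^ g : F ≃⋆ₐ[ℂ] F) a
  set P := ∑ g ∈ I, q ^ g.natAbs • X g with hP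
  have hX : ∀ g, 0 ≤ X g ∧ X g ≤ 1 := fun g =>
    ⟨map_nonneg _ ha0, (OrderHomClass.mono (σ ^ g : F ≃⋆ₐ[ℂ] F) ha1).trans_eq (map_one _)⟩
  have hshift : (σ ^ e : F ≃⋆ₐ[ℂ] F) (avg σ W q η₀ a) =
      η₀ • (1 : F) + ∑ g ∈ I.map (addRightEmbedding e), q ^ (g - e).natAbs • X g := by
    simp only [avg, map_add, map_sum, sum_map, addRightEmbedding_apply, add_sub_cancel_right,
      ← Complex.coe_smul, map_smul, map_one]
    refine congrArg _ (sum_congr rfl fun g _ => ?_)
    show _ • (σ ^ e * σ ^ g : F ≃⋆ₐ[ℂ] F) a = _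
    rw [← zpow_add, add_comm]
  have hin : ∑ g ∈ I.map (addRightEmbedding e) ∩ I, q ^ (g - e).natAbs • X g ≤ q⁻¹ • P := by
    rw [hP, smul_sum]
    refine le_trans (sum_le_sum fun g _ => ?_) (sum_le_sum_of_subset_of_nonneg inter_subset_right
      fun g _ _ => smul_nonneg (inv_nonneg.2 hq.le) (smul_nonneg (pow_nonneg hq.le _) (hX g).1))
    rw [smul_smul]
    refine smul_le_smul_of_nonneg_right ?_ (hX g).1
    rw [le_inv_mul_iff₀ hq, ← pow_succ']
    exact pow_le_pow_of_le_one hq.le hq1 (by omega)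
  have hout : ∑ g ∈ I.map (addRightEmbedding e) \ I, q ^ (g - e).natAbs • X g ≤
      q ^ W • (1 : F) := by
    have hsub : I.map (addRightEmbedding e) \ I ⊆ {if e = 1 then (W : ℤ) + 1 else -(W : ℤ) - 1} := by
      intro g hg
      simp only [Finset.mem_sdiff, Finset.mem_map, addRightEmbedding_apply, I, Finset.mem_Icc] at hg
      obtain ⟨⟨x, hx, rfl⟩, hg⟩ := hg
      rw [Finset.mem_singleton]
      split_ifs <;> omega
    refine (sum_le_sum_of_subset_of_nonneg hsub fun g _ _ =>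
      smul_nonneg (pow_nonneg hq.le _) (hX g).1).trans ?_
    rw [sum_singleton]
    refine (smul_le_smul_of_nonneg_left (hX _).2 (pow_nonneg hq.le _)).trans
      (smul_le_smul_of_nonneg_right ?_ zero_le_one)
    exact pow_le_pow_of_le_one hq.le hq1 (by split_ifs <;> omega)
  rw [hshift, ← sum_inter_add_sum_sdiff (I.map (addRightEmbedding e)) I]
  have hP0 : 0 ≤ P := nonneg_sum_translates σ hq.le ha0
  have hq2 : 1 ≤ q⁻¹ := (one_le_inv₀ hq).2 hq1
  have hW : 0 ≤ q ^ W / η₀ := div_nonneg (pow_nonneg hq.le _) hη.le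
  calc η₀ • (1 : F) + (∑ g ∈ I.map (addRightEmbedding e) ∩ I, q ^ (g - e).natAbs • X g +
        ∑ g ∈ I.map (addRightEmbedding e) \ I, q ^ (g - e).natAbs • X g)
      ≤ η₀ • (1 : F) + (q⁻¹ • P + q ^ W • (1 : F)) := add_le_add le_rfl (add_le_add hin hout)
    _ = (η₀ + q ^ W) • (1 : F) + q⁻¹ • P := by rw [add_smul]; abel
    _ ≤ ((1 + r) * η₀) • (1 : F) + (1 + r) • P := by
        refine add_le_add (smul_le_smul_of_nonneg_right ?_ zero_le_one)
          (smul_le_smul_of_nonneg_right (by linarith) hP0)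
        have h := mul_le_mul_of_nonneg_right hr hη.le
        rw [add_mul, div_mul_cancel₀ _ hη.ne'] at h
        nlinarith [mul_le_mul_of_nonneg_right hq2 hη.le]
    _ = _ := by rw [avg, smul_add, smul_smul]

/-- An element is below its norm times a bump, up to the threshold. -/
theorem le_smul_bump_add {A : F} (hA : IsSelfAdjoint A) :
    A ≤ ‖A‖ • bump (1 / 32) A + (1 / 32 : ℝ) • (1 : F) := by
  set f : ℝ → ℝ := fun t => min 1 (max 0 ((t - 1 / 32 / 2) / (1 / 32 / 2))) with hf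
  have hfc : Continuous f := by fun_prop
  have e : ‖A‖ • bump (1 / 32) A + (1 / 32 : ℝ) • (1 : F) =
      cfc (fun t : ℝ => ‖A‖ * f t + 1 / 32) A := by
    rw [cfc_add_const (1 / 32 : ℝ) (fun t => ‖A‖ * f t) A (continuous_const.mul hfc).continuousOn hA,
      cfc_const_mul ‖A‖ f A hfc.continuousOn, Algebra.algebraMap_eq_smul_one]
    rfl
  rw [e]
  conv_lhs => rw [← cfc_id' ℝ A hA]
  refine cfc_mono (fun t ht => ?_) continuous_id.continuousOn
    ((continuous_const.mul hfc).add continuous_const).continuousOn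
  have htM : t ≤ ‖A‖ := (le_algebraMap_iff_spectrum_le hA).1
    (IsSelfAdjoint.le_algebraMap_norm_self hA) t ht
  have hm : 0 ≤ f t := le_min zero_le_one (le_max_left _ _)
  rcases le_total t (1 / 32) with h | h
  · nlinarith [mul_nonneg (norm_nonneg A) hm]
  · simp only [f]
    rw [min_eq_left (le_max_of_le_right (by rw [le_div_iff₀ (by norm_num)]; linarith))]
    linarith

/-- One bank: a positive contraction with the two ends and relative invariance. -/
theorem exists_bank {N₁ N₂ : ℕ} {s : Set F} {a e : F} (hs : σ '' s = s) (haS : a ∈ Cl s)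
    (ha0 : 0 ≤ a) (ha1 : a ≤ 1) (he0 : 0 ≤ e) (hef : FullPos e) (haf : FullPos (cut (1 / 16) a))
    (hkill : ∀ g : ℤ, g.natAbs ≤ W → (σ ^ g : F ≃⋆ₐ[ℂ] F) a * e = 0)
    (hlow : ∀ B : StarSubalgebra ℂ F, IsClosed (B : Set F) → Cl s ≤ B → ∀ d : Dim B,
      1 / ((N₁ : ℝ) + 1) - (2 * W + 1) / N₂ ≤ d.d (cut (1 / 16) a))
    (hup : ∀ g : ℤ, ∃ h ∈ Cl s, 0 ≤ h ∧ (σ ^ g : F ≃⋆ₐ[ℂ] F) a ≤ h ∧
      ∀ B : StarSubalgebra ℂ F, IsClosed (B : Set F) → Cl s ≤ B → ∀ d : Dim B, ∀ δ : ℝ, 0 < δ →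
        d.d (cut δ h) ≤ 1 / N₁)
    {τ τ₀ r : ℝ} (hτ : 0 < τ) (hτ1 : τ < 1) (hτ₀ : 0 < τ₀) (hτ₀τ : τ₀ ≤ τ / 64) (hq : 0 < q)
    (hq1 : q ≤ 1) (hr : q⁻¹ + q ^ W / (τ * τ₀ / 4) ≤ 1 + r) :
    ∃ T vh vl : F, T ∈ Cl s ∧ vh ∈ Cl s ∧ vl ∈ Cl s ∧ 0 ≤ T ∧ T ≤ 1 ∧
      σ T ≤ (1 + r) • T ∧ T ≤ (1 + r) • σ T ∧
      0 ≤ vh ∧ 0 ≤ vl ∧ FullPos vh ∧ FullPos vl ∧
      bump (1 - τ) T * vh = vh ∧ bump (1 - τ) (1 - T) * vl = vl ∧
      ∀ B : StarSubalgebra ℂ F, IsClosed (B : Set F) → Cl s ≤ B → ∀ d : Dim B,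
        1 / ((N₁ : ℝ) + 1) - (2 * W + 1) / N₂ ≤ d.d vh ∧ 1 - (2 * W + 1) / N₁ ≤ d.d vl := by
  classical
  set η : ℝ := τ * τ₀ with hηdef
  have hη : 0 < η := mul_pos hτ hτ₀
  set A := avg σ W q (η / 4) a
  obtain ⟨hAη, haA, hA0⟩ := le_avg σ (W := W) (q := q) (η₀ := η / 4) hq.le (by linarith) ha0
  have hAsa : IsSelfAdjoint A := IsSelfAdjoint.of_nonneg hA0
  have hcl : IsClosed (Cl s : Set F) := isClosed_Cl s
  have hAmem : A ∈ Cl s := add_mem (smul_mem' (one_mem _) _)
    (sum_mem fun g _ => smul_mem' (zpow_mem_Cl σ hs g haS) _)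
  have hb := continuous_bankFun hτ₀
  have hbump : ∀ ξ : ℝ, Continuous fun t : ℝ => min 1 (max 0 ((t - ξ / 2) / (ξ / 2))) := fun ξ => by
    fun_prop
  set T := cfc (bankFun τ₀) A
  set vh := bump (1 / 32) A
  set vl := cfc (fun t : ℝ => 1 - min 1 (max 0 ((t - η / 2) / (η / 2)))) A
  have hvl : vl = 1 - bump η A := by
    rw [bump, show vl = cfc (fun t : ℝ => (1 : ℝ) - min 1 (max 0 ((t - η / 2) / (η / 2)))) A from rfl,
      cfc_sub (fun _ : ℝ => (1 : ℝ)) _ A continuousOn_const (hbump η).continuousOn,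
      cfc_const_one ℝ A hAsa]
  have hr0 : 0 ≤ r := by
    have h1 : 1 ≤ q⁻¹ := (one_le_inv₀ hq).2 hq1
    have h2 : 0 ≤ q ^ W / (τ * τ₀ / 4) := by positivity
    linarith
  have hrel : ∀ e : ℤ, e.natAbs = 1 →
      (σ ^ e : F ≃⋆ₐ[ℂ] F) T ≤ (1 + r) • T := fun e he => by
    rw [StarAlgHomClass.map_cfc (σ ^ e : F ≃⋆ₐ[ℂ] F) (bankFun τ₀) A hb.continuousOn
      (StarAlgEquiv.isometry (σ ^ e : F ≃⋆ₐ[ℂ] F)).continuous hAsa (hAsa.map _)]
    exact bank_rel hτ₀ hr0 hA0 (map_nonneg _ hA0)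
      (avg_step σ hq hq1 (by linarith) ha0 ha1 hr e he)
  refine ⟨T, vh, vl, cfc_mem' hcl hAmem _, cfc_mem' hcl hAmem _, cfc_mem' hcl hAmem _,
    cfc_nonneg fun t _ => (bankFun_mem hτ₀).1, cfc_le_one _ _ fun t _ => (bankFun_mem hτ₀).2,
    ?_, ?_, cfc_nonneg fun t _ => le_min zero_le_one (le_max_left _ _),
    cfc_nonneg fun t _ => sub_nonneg.2 (min_le_left _ _), ?_, ?_, ?_, ?_, fun B hB hsB d => ⟨?_, ?_⟩⟩
  · simpa using hrel 1 rfl
  · have h1 := OrderHomClass.mono σ (hrel (-1) rfl)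
    rw [← Complex.coe_smul, map_smul, Complex.coe_smul, step_zpow, add_neg_cancel, zpow_zero] at h1
    exact h1
  · -- the top end is full
    set M := ‖A‖
    have hle : a ≤ M • vh + (1 / 32 : ℝ) • (1 : F) :=
      haA.trans (le_smul_bump_add hAsa)
    obtain ⟨g, -, hg⟩ := exists_conj_of_le hcl (IsSelfAdjoint.of_nonneg ha0) haS hle
      (show (1 / 32 : ℝ) < 1 / 16 by norm_num)
    refine fullPos_of_le_conj (g := Real.sqrt M • g) haf (cfc_predicate _ _) (hg.trans_eq ?_)
    rw [star_smul_conj, Real.mul_self_sqrt (norm_nonneg A), mul_smul_comm, smul_mul_assoc]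
  · -- the bottom end is full
    have hAe : (A - (η / 4) • (1 : F)) * e = 0 := by
      simp only [A, avg, add_sub_cancel_left, sum_mul, smul_mul_assoc]
      exact sum_eq_zero fun g hg => by
        rw [hkill g (by simp only [Finset.mem_Icc] at hg; omega), smul_zero]
    have hbe : bump η A * e = 0 := by
      set M : ℝ := 1 / (η / 4) ^ 2
      have hle : bump η A ≤ M • (star (A - (η / 4) • (1 : F)) * (A - (η / 4) • (1 : F))) := by
        have e1 : A - (η / 4) • (1 : F) = cfc (fun t : ℝ => t - η / 4) A := by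
          rw [cfc_sub (fun t : ℝ => t) (fun _ => η / 4) A continuous_id.continuousOn
            continuousOn_const, cfc_id' ℝ A hAsa, cfc_const (η / 4) A hAsa,
            Algebra.algebraMap_eq_smul_one]
        have hc : Continuous fun t : ℝ => t - η / 4 := continuous_id.sub continuous_const
        rw [e1, (cfc_predicate _ A : IsSelfAdjoint _).star_eq,
          ← cfc_mul (fun t => t - η / 4) (fun t => t - η / 4) A hc.continuousOn hc.continuousOn,
          ← cfc_const_mul M (fun t => (t - η / 4) * (t - η / 4)) A (hc.mul hc).continuousOn, bump]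
        refine cfc_mono (fun t ht => ?_) (hbump η).continuousOn
          (continuous_const.mul (hc.mul hc)).continuousOn
        rcases le_total t (η / 2) with h | h
        · rw [max_eq_left (div_nonpos_of_nonpos_of_nonneg (by linarith) (by linarith)),
            min_eq_right zero_le_one]
          exact mul_nonneg (by positivity) (mul_self_nonneg _)
        · refine (min_le_left _ _).trans ?_
          simp only [M]
          rw [one_div_mul_eq_div, le_div_iff₀ (by positivity)]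
          nlinarith
      refine mul_eq_zero_of_conj (cfc_nonneg fun t _ => le_min zero_le_one (le_max_left _ _)) ?_
      refine (star_left_conjugate_le_conjugate hle e).trans_eq ?_
      rw [mul_smul_comm, smul_mul_assoc, mul_assoc, mul_assoc, hAe, mul_zero, mul_zero, smul_zero]
    have hve : vl * e = e := by rw [hvl, sub_mul, one_mul, hbe, sub_zero]
    refine fullPos_of_mul_le he0 hef (cfc_predicate _ _) ?_ zero_lt_one (by rw [one_smul, hve])
    show e * vl = vl * e
    have h := congrArg star hve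
    rw [star_mul, (IsSelfAdjoint.of_nonneg he0).star_eq,
      (cfc_predicate _ A : IsSelfAdjoint vl).star_eq] at h
    rw [h, hve]
  · rw [show T = cfc (bankFun τ₀) A from rfl, bump, show vh = cfc _ A from rfl,
      ← cfc_comp' (fun t : ℝ => min 1 (max 0 ((t - (1 - τ) / 2) / ((1 - τ) / 2)))) (bankFun τ₀) A
        (hbump _).continuousOn hb.continuousOn hAsa,
      ← cfc_mul (fun t : ℝ => min 1 (max 0 ((bankFun τ₀ t - (1 - τ) / 2) / ((1 - τ) / 2))))
        (fun t : ℝ => min 1 (max 0 ((t - 1 / 32 / 2) / (1 / 32 / 2)))) A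
        ((hbump _).comp hb).continuousOn (hbump _).continuousOn]
    refine cfc_congr fun t _ => ?_
    rcases le_total t (1 / 64) with h | h
    · rw [max_eq_left (show (t - 1 / 32 / 2) / (1 / 32 / 2) ≤ (0 : ℝ) from
        div_nonpos_of_nonpos_of_nonneg (by linarith) (by norm_num)), min_eq_right zero_le_one,
        mul_zero]
    · have h1 : 1 - τ ≤ bankFun τ₀ t := by
        simp only [bankFun, max_eq_left (by linarith : (0 : ℝ) ≤ t), ← div_eq_mul_inv]
        have : τ₀ / (τ₀ + t) ≤ τ := by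
          rw [div_le_iff₀ (by linarith)]; nlinarith
        linarith
      rw [min_eq_left (le_max_of_le_right (by rw [le_div_iff₀ (by linarith)]; linarith)), one_mul]
  · have hT : 1 - T = cfc (fun t => 1 - bankFun τ₀ t) A := by
      rw [cfc_sub (fun _ : ℝ => (1 : ℝ)) (bankFun τ₀) A continuousOn_const hb.continuousOn,
        cfc_const_one ℝ A hAsa]
    rw [hT, bump, show vl = cfc _ A from rfl,
      ← cfc_comp' (fun t : ℝ => min 1 (max 0 ((t - (1 - τ) / 2) / ((1 - τ) / 2))))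
        (fun t => 1 - bankFun τ₀ t) A (hbump _).continuousOn
        (continuous_const.sub hb).continuousOn hAsa,
      ← cfc_mul (fun t : ℝ => min 1 (max 0 ((1 - bankFun τ₀ t - (1 - τ) / 2) / ((1 - τ) / 2))))
        (fun t : ℝ => 1 - min 1 (max 0 ((t - η / 2) / (η / 2)))) A
        ((hbump _).comp (continuous_const.sub hb)).continuousOn
        (continuous_const.sub (hbump η)).continuousOn]
    refine cfc_congr fun t _ => ?_
    rcases le_total η t with h | h
    · rw [min_eq_left (show (1 : ℝ) ≤ max 0 ((t - η / 2) / (η / 2)) from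
        le_max_of_le_right (by rw [le_div_iff₀ (by linarith)]; linarith)), sub_self, mul_zero]
    · have h1 : 1 - τ ≤ 1 - bankFun τ₀ t := by
        simp only [bankFun, sub_sub_cancel, ← div_eq_mul_inv]
        have hm : max t 0 ≤ η := max_le h hη.le
        rw [le_div_iff₀ (add_pos_of_pos_of_nonneg hτ₀ (le_max_right _ _))]
        nlinarith [le_max_right t 0]
      rw [min_eq_left (show (1 : ℝ) ≤ max 0 ((1 - bankFun τ₀ t - (1 - τ) / 2) / ((1 - τ) / 2)) from
        le_max_of_le_right (by rw [le_div_iff₀ (by linarith)]; linarith)), one_mul]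
  · -- the top end is large
    set M := ‖A‖
    have hle : a ≤ (∑ _j : Fin 1, star (Real.sqrt M • (1 : F)) * vh * (Real.sqrt M • (1 : F))) +
        (1 / 32 : ℝ) • (1 : F) := by
      rw [Fin.sum_univ_one, star_smul_conj, Real.mul_self_sqrt (norm_nonneg A), star_one, one_mul,
        mul_one]
      exact haA.trans (le_smul_bump_add hAsa)
    refine (hlow B hB hsB d).trans ((dim_cut_le hB d (IsSelfAdjoint.of_nonneg ha0) (hsB haS)
      (fun _ : Fin 1 => vh) (fun _ => Real.sqrt M • (1 : F))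
      (fun _ => cfc_nonneg fun t _ => le_min zero_le_one (le_max_left _ _))
      (fun _ => hsB (cfc_mem' hcl hAmem _)) (fun _ => smul_mem' (one_mem B) _) hle
      (show (1 / 32 : ℝ) < 1 / 16 by norm_num)).trans_eq ?_)
    simp
  · -- the bottom end is nearly everything
    choose h hhS hh0 hhle hhd using hup
    set I := Icc (-(W : ℤ)) W
    set M : ℝ := 4 / η
    have hM : 0 < M := by positivity
    set ρ : ℝ := 1 / (2 * M * (2 * W + 1))
    have hρ : 0 < ρ := by positivity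
    have hb1 : bump η A ≤ M • (A - (η / 4) • (1 : F)) := by
      have e1 : A - (η / 4) • (1 : F) = cfc (fun t : ℝ => t - η / 4) A := by
        rw [cfc_sub (fun t : ℝ => t) (fun _ => η / 4) A continuous_id.continuousOn
          continuousOn_const, cfc_id' ℝ A hAsa, cfc_const (η / 4) A hAsa,
          Algebra.algebraMap_eq_smul_one]
      have hc : Continuous fun t : ℝ => t - η / 4 := continuous_id.sub continuous_const
      rw [e1, ← cfc_const_mul M (fun t => t - η / 4) A hc.continuousOn, bump]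
      refine cfc_mono (fun t ht => ?_) (hbump η).continuousOn (continuous_const.mul hc).continuousOn
      have ht0 : η / 4 ≤ t := (algebraMap_le_iff_le_spectrum hAsa).1
        (by rw [Algebra.algebraMap_eq_smul_one]; exact hAη) t ht
      rcases le_total t (η / 2) with h | h
      · rw [max_eq_left (div_nonpos_of_nonpos_of_nonneg (by linarith) (by linarith)),
          min_eq_right zero_le_one]
        exact mul_nonneg hM.le (by linarith)
      · refine (min_le_left _ _).trans ?_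
        simp only [M]
        rw [div_mul_eq_mul_div, le_div_iff₀ hη]
        linarith
    have hb2 : A - (η / 4) • (1 : F) ≤ ∑ g : I, (cut ρ (h g) + ρ • (1 : F)) := by
      simp only [A, avg, add_sub_cancel_left]
      rw [← sum_coe_sort I fun g : ℤ => q ^ g.natAbs • (σ ^ g : F ≃⋆ₐ[ℂ] F) a]
      refine sum_le_sum fun g _ => ?_
      refine le_trans ?_ ((hhle g).trans (le_cut_add (IsSelfAdjoint.of_nonneg (hh0 g)) ρ))
      calc q ^ (g : ℤ).natAbs • (σ ^ (g : ℤ) : F ≃⋆ₐ[ℂ] F) a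
          ≤ (1 : ℝ) • (σ ^ (g : ℤ) : F ≃⋆ₐ[ℂ] F) a :=
            smul_le_smul_of_nonneg_right (pow_le_one₀ hq.le hq1) (map_nonneg _ ha0)
        _ = _ := one_smul _ _
    have hcard : (Fintype.card I : ℝ) = 2 * W + 1 := by
      have : Fintype.card I = 2 * W + 1 := by simp [I]; omega
      rw [this]; push_cast; ring
    have key := one_le_dim_sum' hB d (fun o : Option I => o.elim vl fun g => cut ρ (h g))
      (fun o : Option I => o.elim 1 fun _ => Real.sqrt M • (1 : F))
      (fun o => by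
        cases o
        · exact cfc_nonneg fun t _ => sub_nonneg.2 (min_le_left _ _)
        · exact cut_nonneg' _ _)
      (fun o => by
        cases o
        · exact hsB (cfc_mem' hcl hAmem _)
        · exact cut_mem hB (hsB (hhS _)) _)
      (fun o => by
        cases o
        · exact one_mem B
        · exact smul_mem' (one_mem B) _)
      (show (1 / 2 : ℝ) < 1 by norm_num) (by
        simp only [Fintype.sum_option, Option.elim, star_one, one_mul, mul_one, star_smul_conj,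
          Real.mul_self_sqrt hM.le]
        calc (1 : F) = vl + bump η A := by rw [hvl, sub_add_cancel]
          _ ≤ vl + M • ∑ g : I, (cut ρ (h g) + ρ • (1 : F)) :=
              add_le_add le_rfl (hb1.trans (smul_le_smul_of_nonneg_left hb2 hM.le))
          _ = _ := by
              rw [sum_add_distrib, smul_add, smul_sum, ← add_assoc]
              congr 1
              rw [sum_const, card_univ, ← Nat.cast_smul_eq_nsmul ℝ, smul_smul, smul_smul, hcard]
              congr 1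
              simp only [ρ]; field_simp)
    simp only [Fintype.sum_option, Option.elim] at key
    have hsum : ∑ g : I, d.d (cut ρ (h g)) ≤ (2 * W + 1) / N₁ := by
      refine (sum_le_sum fun (g : I) _ => hhd (g : ℤ) B hB hsB d ρ hρ).trans_eq ?_
      rw [sum_const, card_univ, nsmul_eq_mul, hcard, mul_one_div]
    linarith

end

end Vale.Agent.P095.Amen.Coin
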