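import Vale.Agent.P095.Amen.Coin.Inv

/-!
# P095 coin: functions of the phase are almost invariant under relative perturbations
-/

namespace Vale.Agent.P095.Amen.Coin

open scoped CStarAlgebra

noncomputable section

/-- The phase `A log (1 + c t)` on the half line, continued to the left by zero. -/
def phaseFun (A c t : ℝ) : ℝ := A * Real.log (1 + c * max t 0)

theorem continuous_phaseFun {A c : ℝ} (hc : 0 ≤ c) : Continuous (phaseFun A c) :=
  continuous_const.mul ((by fun_prop : Continuous fun t : ℝ => 1 + c * max t 0).log fun t =>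
    ((add_pos_of_pos_of_nonneg one_pos (mul_nonneg hc (le_max_right t 0))).ne'))

variable {F : Type} [CStarAlgebra F] [PartialOrder F] [StarOrderedRing F]

theorem cfc_phaseFun {S : F} (hS : 0 ≤ S) {A c : ℝ} (hc : 0 ≤ c) :
    cfc (phaseFun A c) S = A • CFC.log (1 + c • S) := by
  have hsa := IsSelfAdjoint.of_nonneg hS
  have hlin : cfc (fun t : ℝ => 1 + c * t) S = 1 + c • S := by
    rw [cfc_const_add (1 : ℝ) (fun t => c * t) S (continuous_const.mul continuous_id).continuousOn hsa,
      cfc_const_mul c (fun t => t) S continuous_id.continuousOn, cfc_id' ℝ S hsa, map_one]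
  have hpos : ∀ t ∈ spectrum ℝ S, (1 : ℝ) + c * t ≠ 0 := fun t ht =>
    (add_pos_of_pos_of_nonneg one_pos (mul_nonneg hc (spectrum_nonneg_of_nonneg hS ht))).ne'
  rw [← hlin, CFC.log, ← cfc_comp' Real.log (fun t => 1 + c * t) S
    (Real.continuousOn_log.mono fun y hy => by
      obtain ⟨t, ht, rfl⟩ := hy; exact hpos t ht)
    (continuous_const.add (continuous_const.mul continuous_id)).continuousOn hsa,
    ← cfc_const_mul A (fun t => Real.log (1 + c * t)) S
      ((continuous_const.add (continuous_const.mul continuous_id)).continuousOn.log hpos)]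
  exact cfc_congr fun t ht => by simp [phaseFun, max_eq_left (spectrum_nonneg_of_nonneg hS ht)]

omit [PartialOrder F] [StarOrderedRing F] in
/-- A function of `exp (i φ)` is that function of the unitary. -/
theorem cfc_comp_expI {S : F} (hsa : IsSelfAdjoint S) {φ : ℝ → ℝ} (hφ : Continuous φ)
    (f : ℂ → ℝ) (hf : ContinuousOn f (Metric.sphere 0 1)) :
    cfc (fun t => f (Complex.exp ((φ t : ℂ) * Complex.I))) S =
      cfc (fun z => (f z : ℂ)) (expI (cfc φ S)) := by
  have hn : IsStarNormal S := hsa.isStarNormal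
  have hφc : Continuous fun z : ℂ => (φ z.re : ℂ) :=
    Complex.continuous_ofReal.comp (hφ.comp Complex.continuous_re)
  have hI : Continuous fun z : ℂ => Complex.I * (φ z.re : ℂ) := continuous_const.mul hφc
  have e1 : Complex.I • cfc φ S = cfc (fun z : ℂ => Complex.I * (φ z.re : ℂ)) S := by
    rw [cfc_real_eq_complex φ hsa, cfc_const_mul _ _ S hφc.continuousOn]
  have e2 : expI (cfc φ S) = cfc (fun z : ℂ => Complex.exp (Complex.I * (φ z.re : ℂ))) S := by
    rw [expI, e1, ← CFC.complex_exp_eq_normedSpace_exp (cfc_predicate _ S),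
      ← cfc_comp' Complex.exp (fun z : ℂ => Complex.I * (φ z.re : ℂ)) S
        Complex.continuous_exp.continuousOn hI.continuousOn hn]
  rw [cfc_real_eq_complex _ hsa, e2,
    ← cfc_comp' (fun z => (f z : ℂ)) (fun z : ℂ => Complex.exp (Complex.I * (φ z.re : ℂ))) S
      ((Complex.continuous_ofReal.comp_continuousOn hf).mono fun y hy => by
        obtain ⟨z, -, rfl⟩ := hy
        simp [Complex.norm_exp])
      (Complex.continuous_exp.comp hI).continuousOn hn]
  exact cfc_congr fun z _ => by rw [mul_comm]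

/-- Almost invariance of functions of the phase. -/
theorem exists_phase_modulus (f : ℂ → ℝ) (hf : ContinuousOn f (Metric.sphere 0 1)) {ε : ℝ}
    (hε : 0 < ε) :
    ∃ δ, 0 < δ ∧ ∀ {F : Type} [CStarAlgebra F] [PartialOrder F] [StarOrderedRing F] (S S' : F)
      (A c r : ℝ), 0 ≤ S → 0 ≤ S' → 0 ≤ A → 0 ≤ c → 0 ≤ r → S' ≤ (1 + r) • S →
      S ≤ (1 + r) • S' → A * r ≤ δ →
      ‖cfc (fun t => f (Complex.exp ((phaseFun A c t : ℂ) * Complex.I))) S' -
        cfc (fun t => f (Complex.exp ((phaseFun A c t : ℂ) * Complex.I))) S‖ ≤ ε := by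
  obtain ⟨δ, hδ, h⟩ := exists_modulus (fun z => (f z : ℂ))
    (Complex.continuous_ofReal.comp_continuousOn hf) hε
  refine ⟨δ, hδ, ?_⟩
  intro F _ _ _ S S' A c r hS hS' hA hc hr h1 h2 hAr
  have hφ := continuous_phaseFun (A := A) hc
  rw [cfc_comp_expI (IsSelfAdjoint.of_nonneg hS) hφ f hf,
    cfc_comp_expI (IsSelfAdjoint.of_nonneg hS') hφ f hf]
  refine h _ _ (expI_unitary (cfc_predicate _ _)) (expI_unitary (cfc_predicate _ _)) ?_
  refine (norm_expI_sub_le (cfc_predicate _ _) (cfc_predicate _ _)).trans ?_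
  rw [cfc_phaseFun hS hc, cfc_phaseFun hS' hc, ← smul_sub, norm_smul, Real.norm_of_nonneg hA]
  exact (mul_le_mul_of_nonneg_left (norm_log_sub_le hS hS' hr hc h1 h2) hA).trans hAr

end

end Vale.Agent.P095.Amen.Coin
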