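import Vale.Agent.P101.Bridge.AllDrops
import Vale.Agent.P095.Amen.Coin.Avg
import Vale.Agent.P095.Amen.Coin.Phase

/-!
# P095: the coin

From comparison, witnesses of bounded size, the mixture lemma and the scalar coin: two exactly
fixed orthogonal full positive elements.
-/

namespace Vale.Agent.P095.Amen.Coin

open Vale.Agent.P101.KR Vale.Agent.P101.Bridge Finset

noncomputable section

/-- The clipped sine, on the circle. -/
def clip (e : ℝ) (z : ℂ) : ℝ := min 1 (max 0 (10 * (e * z.im)))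

theorem continuous_clip (e : ℝ) : Continuous (clip e) :=
  continuous_const.min (continuous_const.max
    (continuous_const.mul (continuous_const.mul Complex.continuous_im)))

/-- The weights of the coin as functions of the sum of the banks. -/
def psi (A k e t : ℝ) : ℝ := clip e (Complex.exp ((phaseFun A k t : ℂ) * Complex.I))

theorem psi_eq (A k e t : ℝ) :
    psi A k e t = min 1 (max 0 (10 * (e * Real.sin (phaseFun A k t)))) := by
  rw [psi, clip, Complex.exp_ofReal_mul_I_im]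

theorem continuous_psi {A k : ℝ} (hk : 0 ≤ k) (e : ℝ) : Continuous (psi A k e) :=
  (continuous_clip e).comp (Complex.continuous_exp.comp
    ((Complex.continuous_ofReal.comp (continuous_phaseFun hk)).mul continuous_const))

theorem psi_mul_eq_zero (A k t : ℝ) : psi A k 1 t * psi A k (-1) t = 0 := by
  rw [psi_eq, psi_eq]
  rcases le_total (Real.sin (phaseFun A k t)) 0 with h | h
  · rw [max_eq_left (show 10 * (1 * Real.sin (phaseFun A k t)) ≤ 0 by linarith),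
      min_eq_right zero_le_one, zero_mul]
  · rw [max_eq_left (show 10 * (-1 * Real.sin (phaseFun A k t)) ≤ 0 by linarith),
      min_eq_right zero_le_one, mul_zero]

theorem abs_log_sub_le {u v : ℝ} (hu : 1 ≤ u) (hv : 1 ≤ v) :
    |Real.log u - Real.log v| ≤ |u - v| := by
  have key : ∀ {a b : ℝ}, 1 ≤ a → 1 ≤ b → Real.log a - Real.log b ≤ |a - b| := by
    intro a b ha hb
    have hb0 : (0 : ℝ) < b := by linarith
    rw [← Real.log_div (by linarith) hb0.ne']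
    refine (Real.log_le_sub_one_of_pos (by positivity)).trans ?_
    rw [div_sub_one hb0.ne', div_le_iff₀ hb0]
    nlinarith [le_abs_self (a - b), abs_nonneg (a - b)]
  rw [abs_le]
  refine ⟨?_, key hu hv⟩
  have := key hv hu
  rw [abs_sub_comm] at this
  linarith

/-- The coin's weight is at least one half near the good set. -/
theorem half_le_psi {C L e g t : ℝ} (hC : 1 ≤ C) (hL : 1 ≤ L) (he : e = 1 ∨ e = -1) (hg : 0 ≤ g)
    (h : 1 / 10 ≤ e * Real.sin (coinPhase C L g)) (ht : |t - g| ≤ 1 / 20) :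
    1 / 2 ≤ psi (C ^ (3 / 4 : ℝ) * Real.sqrt L) (C * Real.sqrt L)⁻¹ e t := by
  set A := C ^ (3 / 4 : ℝ) * Real.sqrt L
  set k := (C * Real.sqrt L)⁻¹
  have hsL : 1 ≤ Real.sqrt L := Real.one_le_sqrt.2 hL
  have hA : 0 ≤ A := by positivity
  have hk : 0 ≤ k := by positivity
  have hAk : A * k ≤ 1 := by
    rw [← div_eq_mul_inv, div_le_one (by positivity)]
    refine mul_le_mul_of_nonneg_right ?_ (by linarith)
    calc C ^ (3 / 4 : ℝ) ≤ C ^ (1 : ℝ) := Real.rpow_le_rpow_of_exponent_le hC (by norm_num)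
      _ = C := Real.rpow_one C
  have hphase : coinPhase C L g = phaseFun A k g := by
    rw [coinPhase, phaseFun, max_eq_left hg, div_eq_inv_mul g (C * Real.sqrt L)]
  have hdist : |phaseFun A k t - phaseFun A k g| ≤ 1 / 20 := by
    rw [phaseFun, phaseFun, ← mul_sub, abs_mul, abs_of_nonneg hA]
    have hone : ∀ s : ℝ, 1 ≤ 1 + k * max s 0 := fun s =>
      le_add_of_nonneg_right (mul_nonneg hk (le_max_right _ _))
    refine (mul_le_mul_of_nonneg_left (abs_log_sub_le (hone t) (hone g)) hA).trans ?_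
    rw [add_sub_add_left_eq_sub, ← mul_sub, abs_mul, abs_of_nonneg hk, ← mul_assoc]
    refine (mul_le_mul hAk ((abs_max_sub_max_le_abs t g 0).trans ht) (abs_nonneg _)
      zero_le_one).trans (by rw [one_mul])
  rw [hphase] at h
  have hsin := Real.abs_sin_sub_sin_le (phaseFun A k t) (phaseFun A k g)
  rw [psi_eq, le_min_iff]
  refine ⟨by norm_num, le_max_of_le_right ?_⟩
  rcases he with rfl | rfl <;> linarith [abs_le.1 (hsin.trans hdist)]

/-- Only sums of values in the unit interval matter. -/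
theorem prob3_le_of_nonneg {R : ℕ} {x y : ℝ} (hx : 0 ≤ x) (hy : 0 ≤ y) (hxy : x + y ≤ 1)
    {v : Fin R → ℝ} (hv : ∀ j, 0 ≤ v j ∧ v j ≤ 1) {G G' : Set ℝ}
    (h : ∀ t, 0 ≤ t → t ∈ G → t ∈ G') : prob3 x y v G ≤ prob3 x y v G' := by
  classical
  refine sum_le_sum fun p _ => ?_
  have hs : 0 ≤ ∑ j, (![1, 0, v j] : Fin 3 → ℝ) (p j) := sum_nonneg fun j _ => by
    generalize p j = i
    fin_cases i <;> simp [(hv j).1]
  have hw : 0 ≤ ∏ j, (![x, y, 1 - x - y] : Fin 3 → ℝ) (p j) := prod_nonneg fun j _ => by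
    generalize p j = i
    fin_cases i <;> simp <;> linarith
  by_cases hG : (∑ j, (![1, 0, v j] : Fin 3 → ℝ) (p j)) ∈ G
  · rw [Set.indicator_of_mem hG, Set.indicator_of_mem (h _ hs hG)]
  · rw [Set.indicator_of_notMem hG]
    exact Set.indicator_nonneg (fun _ _ => hw) _

theorem exists_pattern {R k : ℕ} (hk : k ≤ R) :
    ∃ p : Fin R → Fin 2, (∑ j, ((p j : ℕ) : ℝ)) = k := by
  refine ⟨fun j => if (j : ℕ) < k then 1 else 0, ?_⟩
  have h : (univ.filter fun j : Fin R => (j : ℕ) < k).card = k := by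
    rw [Fin.card_filter_val_lt, min_eq_right hk]
  refine (sum_congr rfl fun j _ => ?_).trans (((sum_boole (R := ℝ) (fun j : Fin R => (j : ℕ) < k) univ)).trans
    (congrArg _ h))
  by_cases hjk : (j : ℕ) < k <;> simp [hjk]

variable {F : Type} [CStarAlgebra F]

section Order

variable [PartialOrder F] [StarOrderedRing F]

theorem hom_mono {s : Set F} (φ : Cl s →⋆ₐ[ℂ] F) {x y : Cl s} (h : (x : F) ≤ y) : φ x ≤ φ y := by
  obtain ⟨-, c, hc, e⟩ := posIn_of_nonneg (isClosed_Cl s) (sub_mem y.2 x.2) (sub_nonneg.2 h)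
  have e' : y - x = star (⟨c, hc⟩ : Cl s) * ⟨c, hc⟩ := Subtype.ext e
  rw [← sub_nonneg, ← map_sub, e', map_mul, map_star]
  exact star_mul_self_nonneg _

omit [PartialOrder F] [StarOrderedRing F] in
theorem mul_bump_of_mul {X v : F} (hv : IsSelfAdjoint v) (h : X * v = v) {η : ℝ} (hη : 0 < η) :
    X * bump η v = bump η v := by
  set f : ℝ → ℝ := fun t => min 1 (max 0 ((t - η / 2) / (η / 2))) with hf
  have hfc : Continuous f := by fun_prop
  set g : ℝ → ℝ := fun t => f t / max t (η / 2)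
  have hgc : Continuous g := hfc.div (continuous_id.max continuous_const) fun t =>
    (lt_of_lt_of_le (by linarith) (le_max_right _ _)).ne'
  have e : bump η v = v * cfc g v := by
    conv_rhs => arg 1; rw [← cfc_id' ℝ v hv]
    rw [← cfc_mul (fun t : ℝ => t) g v continuous_id.continuousOn hgc.continuousOn, bump]
    refine cfc_congr fun t _ => ?_
    rcases le_total t (η / 2) with ht | ht
    · simp only [g, f]
      rw [max_eq_left (div_nonpos_of_nonpos_of_nonneg (by linarith) (by linarith)),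
        min_eq_right zero_le_one, zero_div, mul_zero]
    · simp only [g, f, max_eq_left ht]
      rw [mul_div_cancel₀ _ (by linarith : t ≠ 0)]
  rw [e, ← mul_assoc, h]

/-- A pair `w, u = star w * w` of known value inside one end. -/
theorem exists_end (hC : CompareTarget) (h₁ : HasCopies F) (h₂ : HasCentralCopy F)
    (h₃ : NoCharacter F) {N : ℕ} [NeZero N] (D : DropDataN N F) (j : ℕ) (hj : 1 ≤ j) (hjN : j ≤ N)
    {s : Set F} (hsc : s.Countable) {X v : F} (hvs : v ∈ Cl s) (hv0 : 0 ≤ v) (hvf : FullPos v)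
    (hXv : X * v = v) {b : ℝ} (hb : (j : ℝ) / N < b)
    (hbound : ∀ B : StarSubalgebra ℂ F, IsClosed (B : Set F) → Cl s ≤ B → ∀ d : Dim B, b ≤ d.d v) :
    ∃ w : F, X * w = w ∧ FullPos (star w * w) ∧ ∃ t : Set F, t.Countable ∧
      ∀ B : StarSubalgebra ℂ F, IsClosed (B : Set F) → t ⊆ B → ∀ d : Dim B,
        ((j : ℝ) - 1) / N ≤ d.d (cut (1 / 100) (star w * w)) ∧ d.d (star w * w) ≤ j / N := by
  classical
  set S := univ.filter fun a : Fin N => (a : ℕ) < j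
  have hS : S.card = j := by rw [Fin.card_filter_val_lt, min_eq_right hjN]
  set U := ∑ a ∈ S, D.P a a
  have hU : 0 ≤ U := sum_nonneg fun a _ => P_nonneg D a
  have hUsa := IsSelfAdjoint.of_nonneg hU
  set t : Set F := Set.range (fun p : Fin N × Fin N => D.P p.1 p.2) ∪ {D.v}
  have htc : t.Countable := (Set.countable_range _).union (Set.countable_singleton _)
  have hent : ∀ B : StarSubalgebra ℂ F, t ⊆ B → EntriesIn D B := fun B h =>
    ⟨fun x y => h (.inl ⟨(x, y), rfl⟩), h (.inr rfl)⟩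
  have hUB : ∀ B : StarSubalgebra ℂ F, t ⊆ B → U ∈ B := fun B h =>
    sum_mem fun a _ => (hent B h).1 a a
  have hle : DLe (cut (1 / 100) U) ((j : ℝ) / N) :=
    ⟨t, htc, posIn_of_nonneg (isClosed_Cl t) (cut_mem (isClosed_Cl t) (hUB _ (subset_Cl t)) _)
      (cut_nonneg' _ _), fun d => hS ▸ (dim_block D (isClosed_Cl t) (hent _ (subset_Cl t)) d S
        (by norm_num)).1⟩
  have hge : DGe v b := ⟨s, hsc, posIn_of_nonneg (isClosed_Cl s) hvs hv0,
    fun d => hbound _ (isClosed_Cl s) le_rfl d⟩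
  obtain ⟨w, η, hη, hw, hwv⟩ := hC F h₁ h₂ h₃ _ v _ b (1 / 100) hvf hle hge hb (by norm_num)
  have hcc : ∀ δ : ℝ, 0 ≤ δ → cut δ (cut (1 / 100) U) = cut (δ + 1 / 100) U :=
    fun δ hδ => cut_cut hUsa hδ
  rw [hcc _ (by norm_num)] at hw
  refine ⟨w, ?_, ?_, t, htc, fun B hB htB d => ?_⟩
  · rw [← hwv, ← mul_assoc, mul_bump_of_mul (IsSelfAdjoint.of_nonneg hv0) hXv hη]
  · rw [hw]
    refine fullPos_of_P_le D (IsSelfAdjoint.of_nonneg (cut_nonneg' _ _))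
      (show (0 : ℝ) ≤ 1 / 100 + 1 / 100 by norm_num) (by norm_num) ?_
    refine le_trans ?_ (le_cut_add hUsa _)
    exact single_le_sum (fun a _ => P_nonneg D a) (by
      simp only [S, mem_filter, mem_univ, true_and, Fin.val_zero]; omega)
  · rw [hw, cut_cut hUsa (by norm_num)]
    have h1 := dim_block D hB (hent B htB) d S (δ := 1 / 100 + (1 / 100 + 1 / 100)) (by norm_num)
    have h2 := dim_block D hB (hent B htB) d S (δ := 1 / 100 + 1 / 100) (by norm_num)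
    exact hS ▸ ⟨h1.2 (by norm_num), h2.1⟩

end Order

/-- The parameters: `m` large against the modulus and the constant. -/
theorem exists_param {δ C : ℝ} (hδ : 0 < δ) (hC : 1 ≤ C) :
    ∃ m : ℕ, 2 ≤ m ∧
      C ^ (3 / 4 : ℝ) * Real.sqrt (20 * (2 * (m : ℝ) ^ 3 + 1)) * (4 / (m : ℝ) ^ 2) ≤ δ ∧
      128 * (3000 * C * (2 * (m : ℝ) ^ 3 + 1)) ^ 2 * (m : ℝ) ^ 2 ≤ Real.exp m := by
  obtain ⟨m₁, hm₁⟩ := exists_nat_gt ((40 * C / δ) ^ 2)
  have h := (Real.tendsto_exp_div_pow_atTop 8).comp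
    (tendsto_natCast_atTop_atTop (R := ℝ))
  obtain ⟨m₂, hm₂⟩ := Filter.eventually_atTop.1
    (h.eventually_ge_atTop (128 * (9000 * C) ^ 2))
  set m := max (max m₁ m₂) 2
  have hm2 : 2 ≤ m := le_max_right _ _
  have hmr : (2 : ℝ) ≤ m := by exact_mod_cast hm2
  have hm1r : (m₁ : ℝ) ≤ m := by exact_mod_cast (le_max_left m₁ m₂).trans (le_max_left _ _)
  refine ⟨m, hm2, ?_, ?_⟩
  · have hC34 : C ^ (3 / 4 : ℝ) ≤ C := by
      calc C ^ (3 / 4 : ℝ) ≤ C ^ (1 : ℝ) := Real.rpow_le_rpow_of_exponent_le hC (by norm_num)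
        _ = C := Real.rpow_one C
    have hsm : 1 ≤ Real.sqrt m := Real.one_le_sqrt.2 (by linarith)
    have hsq : Real.sqrt (20 * (2 * (m : ℝ) ^ 3 + 1)) ≤ 8 * (m * Real.sqrt m) := by
      rw [show 8 * ((m : ℝ) * Real.sqrt m) = Real.sqrt (64 * (m : ℝ) ^ 3) from ?_]
      · exact Real.sqrt_le_sqrt (by nlinarith [pow_le_pow_left₀ zero_le_two hmr 3])
      · rw [show (64 : ℝ) * (m : ℝ) ^ 3 = (8 * ((m : ℝ) * Real.sqrt m)) ^ 2 by
          rw [mul_pow, mul_pow, Real.sq_sqrt (by linarith)]; ring, Real.sqrt_sq (by positivity)]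
    have hbig : 40 * C / δ ≤ Real.sqrt m := by
      rw [Real.le_sqrt (by positivity) (by linarith)]
      linarith
    rw [div_le_iff₀ hδ] at hbig
    calc C ^ (3 / 4 : ℝ) * Real.sqrt (20 * (2 * (m : ℝ) ^ 3 + 1)) * (4 / (m : ℝ) ^ 2)
        ≤ C * (8 * (m * Real.sqrt m)) * (4 / (m : ℝ) ^ 2) := by gcongr
      _ = 32 * C / Real.sqrt m := by
          have := Real.mul_self_sqrt (show (0 : ℝ) ≤ m by linarith)
          field_simp
          nlinarith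
      _ ≤ δ := by rw [div_le_iff₀ (by linarith)]; nlinarith
  · have := hm₂ m ((le_max_right m₁ m₂).trans (le_max_left _ _))
    simp only [Function.comp_apply] at this
    rw [le_div_iff₀ (by positivity)] at this
    refine le_trans ?_ this
    have h1 : 3000 * C * (2 * (m : ℝ) ^ 3 + 1) ≤ 9000 * C * (m : ℝ) ^ 3 := by
      nlinarith [pow_le_pow_left₀ zero_le_two hmr 3, mul_nonneg (by linarith : (0 : ℝ) ≤ C)
        (by nlinarith [pow_le_pow_left₀ zero_le_two hmr 3] : (0 : ℝ) ≤ (m : ℝ) ^ 3 - 1)]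
    calc 128 * (3000 * C * (2 * (m : ℝ) ^ 3 + 1)) ^ 2 * (m : ℝ) ^ 2
        ≤ 128 * (9000 * C * (m : ℝ) ^ 3) ^ 2 * (m : ℝ) ^ 2 := by gcongr
      _ = _ := by ring

theorem ceil_bounds {C x N₁ : ℝ} (hC1 : 1 ≤ C) (hN : 10 ≤ N₁) (hx5 : 1 / (5 * N₁) ≤ x)
    (hx1 : x ≤ 1) : C ≤ (⌈C / x⌉₊ : ℝ) * x ∧ (⌈C / x⌉₊ : ℝ) * x ≤ C + 1 ∧
      (⌈C / x⌉₊ : ℝ) ≤ 6 * C * N₁ := by
  have hx0 : 0 < x := lt_of_lt_of_le (by positivity) hx5
  have hlt : (⌈C / x⌉₊ : ℝ) < C / x + 1 := Nat.ceil_lt_add_one (by positivity)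
  refine ⟨by rw [← div_le_iff₀ hx0]; exact Nat.le_ceil _, ?_, ?_⟩
  · have h1 := mul_le_mul_of_nonneg_right hlt.le hx0.le
    rw [add_mul, div_mul_cancel₀ _ hx0.ne', one_mul] at h1
    linarith
  · have h1 : C / x ≤ 5 * C * N₁ := by
      rw [div_le_iff₀ hx0]
      calc C = 5 * C * N₁ * (1 / (5 * N₁)) := by field_simp
        _ ≤ _ := by gcongr
    nlinarith

theorem tau_bounds {C N₁ R : ℝ} (hC1 : 1 ≤ C) (hN : 10 ≤ N₁) (hR : R ≤ 6 * C * N₁) :
    0 < 1 / (300 * C * N₁) ∧ 1 / (300 * C * N₁) < 1 / 4 ∧ R * (1 / (300 * C * N₁)) < 1 / 20 := by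
  refine ⟨by positivity, ?_, ?_⟩
  · rw [div_lt_div_iff₀ (by positivity) (by norm_num)]; nlinarith
  · rw [mul_one_div, div_lt_div_iff₀ (by positivity) (by norm_num)]; nlinarith

theorem q_bounds {C N₁ : ℝ} {m : ℕ} (hC1 : 1 ≤ C) (hm : 2 ≤ m)
    (hN : N₁ = 10 * (2 * (m : ℝ) ^ 3 + 1))
    (hexp : 128 * (3000 * C * (2 * (m : ℝ) ^ 3 + 1)) ^ 2 * (m : ℝ) ^ 2 ≤ Real.exp m) :
    0 < 1 - 1 / (m : ℝ) ^ 2 ∧ 1 - 1 / (m : ℝ) ^ 2 ≤ 1 ∧
      (1 - 1 / (m : ℝ) ^ 2)⁻¹ + (1 - 1 / (m : ℝ) ^ 2) ^ (m ^ 3) /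
          (1 / (300 * C * N₁) * (1 / (300 * C * N₁) / 64) / 4) ≤ 1 + 4 / (m : ℝ) ^ 2 := by
  have hm2 : (4 : ℝ) ≤ (m : ℝ) ^ 2 := by
    have : (2 : ℝ) ≤ m := by exact_mod_cast hm
    nlinarith
  set z : ℝ := 1 / (m : ℝ) ^ 2 with hz
  have hz0 : 0 ≤ z := by positivity
  have hz4 : z ≤ 1 / 4 := by
    rw [hz, div_le_div_iff₀ (by linarith) (by norm_num)]; linarith
  refine ⟨by linarith, by linarith, ?_⟩
  have h1 : (1 - z)⁻¹ ≤ 1 + 2 * z := by
    rw [inv_le_iff_one_le_mul₀ (by linarith)]; nlinarith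
  have h2 : (1 - z) ^ (m ^ 3) ≤ Real.exp (-(m : ℝ)) := by
    have h3 : 1 - z ≤ Real.exp (-z) := by linarith [Real.add_one_le_exp (-z)]
    refine (pow_le_pow_left₀ (by linarith) h3 _).trans_eq ?_
    rw [← Real.exp_nat_mul, hz]
    congr 1
    push_cast
    field_simp
  set P : ℝ := 128 * (3000 * C * (2 * (m : ℝ) ^ 3 + 1)) ^ 2 with hP
  have hP0 : 0 < P := by positivity
  have hden : 1 / (300 * C * N₁) * (1 / (300 * C * N₁) / 64) / 4 = 1 / (2 * P) := by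
    rw [hP, hN]; field_simp; ring
  have h4 : (1 - z) ^ (m ^ 3) / (1 / (300 * C * N₁) * (1 / (300 * C * N₁) / 64) / 4) ≤ 2 * z := by
    rw [hden, div_le_iff₀ (by positivity)]
    refine h2.trans ?_
    rw [Real.exp_neg, inv_le_iff_one_le_mul₀ (Real.exp_pos _)]
    calc (1 : ℝ) = z / P * (P * (m : ℝ) ^ 2) := by rw [hz]; field_simp
      _ ≤ z / P * Real.exp m := by gcongr
      _ = 2 * z * (1 / (2 * P)) * Real.exp m := by field_simp
  rw [show 4 / (m : ℝ) ^ 2 = 4 * z by rw [hz]; ring]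
  linarith

/-- All numbers of the coin. -/
theorem exists_numbers {C c δ : ℝ} (hC1 : 1 ≤ C) (hc : 0 < c) (hδ : 0 < δ) :
    ∃ (W N₁ N₂ N jh jl R : ℕ) (L τ q r : ℝ),
      (2 ≤ N₁ ∧ 2 ≤ N₂ ∧ 2 ≤ N ∧ 1 ≤ jh ∧ jh ≤ N ∧ 1 ≤ jl ∧ jl ≤ N) ∧
      (1 ≤ L ∧ 0 < ((jh : ℝ) - 1) / N ∧ 3 / 4 ≤ ((jl : ℝ) - 1) / N ∧
        ((jh : ℝ) - 1) / N + ((jl : ℝ) - 1) / N ≤ 9 / 10 ∧
        1 - ((jl : ℝ) - 1) / N ≤ L * (((jh : ℝ) - 1) / N) ∧
        C ≤ R * (((jh : ℝ) - 1) / N) ∧ R * (((jh : ℝ) - 1) / N) ≤ C + 1) ∧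
      (0 < τ ∧ τ < 1 / 4 ∧ (R : ℝ) * τ < 1 / 20 ∧ 0 < q ∧ q ≤ 1 ∧ 0 ≤ r ∧
        q⁻¹ + q ^ W / (τ * (τ / 64) / 4) ≤ 1 + r ∧ C ^ (3 / 4 : ℝ) * Real.sqrt L * r ≤ δ) ∧
      ((jh : ℝ) / N < 1 / ((N₁ : ℝ) + 1) - (2 * W + 1) / N₂ ∧
        (jl : ℝ) / N < 1 - (2 * W + 1) / N₁ ∧
        3 * (R : ℝ) * (1 / N) / (1 - ((jh : ℝ) - 1) / N - ((jl : ℝ) - 1) / N) ≤ c / 2) := by
  obtain ⟨m, hm, hmδ, hmexp⟩ := exists_param hδ hC1
  set W : ℕ := m ^ 3 with hW
  set N₁ : ℕ := 10 * (2 * W + 1) with hN₁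
  set N₂ : ℕ := 10 * N₁ * (2 * W + 1) with hN₂
  obtain ⟨M, hMbig⟩ := exists_nat_gt (50 * C / c)
  have hM1 : 1 ≤ M := Nat.one_le_iff_ne_zero.2 fun h => by
    rw [h, Nat.cast_zero] at hMbig
    linarith [show (0 : ℝ) ≤ 50 * C / c by positivity]
  set N : ℕ := 20 * N₁ * M with hN
  set jh : ℕ := 5 * M
  set jl : ℕ := 16 * N₁ * M
  have hN₁2 : 10 ≤ N₁ := by omega
  have hN₁M : 10 ≤ N₁ * M := le_trans hN₁2 (Nat.le_mul_of_pos_right _ (by omega))
  have hN2 : 2 ≤ N := by rw [hN, mul_assoc]; omega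
  have hN₂2 : 2 ≤ N₂ := by
    have := Nat.le_mul_of_pos_right (10 * N₁) (show 0 < 2 * W + 1 by omega)
    omega
  -- real parameters
  set L : ℝ := 2 * N₁ with hL
  have hN₁r : (N₁ : ℝ) = 10 * (2 * (W : ℝ) + 1) := by rw [hN₁]; push_cast; ring
  have hN₂r : (N₂ : ℝ) = 10 * N₁ * (2 * (W : ℝ) + 1) := by rw [hN₂]; push_cast; ring
  have hNr : (N : ℝ) = 20 * N₁ * M := by rw [hN]; push_cast; ring
  have hN₁pos : (10 : ℝ) ≤ N₁ := by exact_mod_cast hN₁2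
  have hMr : (1 : ℝ) ≤ M := by exact_mod_cast hM1
  have hL1 : 1 ≤ L := by rw [hL]; linarith
  set x : ℝ := ((jh : ℝ) - 1) / N
  set y : ℝ := ((jl : ℝ) - 1) / N
  have hNpos : (0 : ℝ) < N := by rw [hNr]; positivity
  have hjh : (jh : ℝ) = 5 * M := by simp only [jh]; push_cast; ring
  have hjl : (jl : ℝ) = 16 * N₁ * M := by simp only [jl]; push_cast; ring
  have hx5 : 1 / (5 * (N₁ : ℝ)) ≤ x := by
    simp only [x]
    rw [div_le_div_iff₀ (by positivity) hNpos, hNr, hjh]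
    nlinarith
  have hx0 : 0 < x := lt_of_lt_of_le (by positivity) hx5
  have hy34 : 3 / 4 ≤ y := by
    simp only [y]
    rw [le_div_iff₀ hNpos, hNr, hjl]
    nlinarith
  have hxy : x + y ≤ 9 / 10 := by
    simp only [x, y]
    rw [← add_div, div_le_iff₀ hNpos, hNr, hjh, hjl]
    nlinarith
  have hyL : 1 - y ≤ L * x := by
    have : (2 : ℝ) / 5 ≤ L * x := by
      calc (2 : ℝ) / 5 = L * (1 / (5 * N₁)) := by rw [hL]; field_simp
        _ ≤ L * x := by gcongr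
    linarith
  set R : ℕ := ⌈C / x⌉₊
  obtain ⟨hRx, hRx', hR6⟩ := ceil_bounds hC1 hN₁pos hx5 (show x ≤ 1 by linarith)
  set τ : ℝ := 1 / (300 * C * N₁) with hτdef
  obtain ⟨hτ, hτ14, hRτ⟩ := tau_bounds hC1 hN₁pos hR6
  set q : ℝ := 1 - 1 / (m : ℝ) ^ 2
  set r : ℝ := 4 / (m : ℝ) ^ 2 with hr
  have hN1W : (N₁ : ℝ) = 10 * (2 * (m : ℝ) ^ 3 + 1) := by rw [hN₁r, hW]; push_cast; ring
  obtain ⟨hq0, hq1, hqr⟩ := q_bounds hC1 hm hN1W hmexp
  have hbh : (jh : ℝ) / N < 1 / ((N₁ : ℝ) + 1) - (2 * W + 1) / N₂ := by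
    have e1 : (2 * (W : ℝ) + 1) / N₂ = 1 / (10 * N₁) := by rw [hN₂r]; field_simp
    have e2 : (jh : ℝ) / N = 1 / (4 * N₁) := by rw [hjh, hNr]; field_simp; ring
    rw [e1, e2, lt_sub_iff_add_lt, div_add_div _ _ (by positivity) (by positivity),
      div_lt_div_iff₀ (by positivity) (by positivity)]
    nlinarith only [hN₁pos]
  have hbl : (jl : ℝ) / N < 1 - (2 * W + 1) / N₁ := by
    have e1 : (2 * (W : ℝ) + 1) / N₁ = 1 / 10 := by rw [hN₁r]; field_simp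
    have e2 : (jl : ℝ) / N = 4 / 5 := by rw [hjl, hNr]; field_simp; ring
    rw [e1, e2]; norm_num
  have hr0 : 0 ≤ r := by positivity
  have hAr : C ^ (3 / 4 : ℝ) * Real.sqrt L * r ≤ δ := by
    refine le_trans (le_of_eq ?_) hmδ
    simp only [hr, hL, hN₁r, hW]
    push_cast
    ring_nf
  have hloss : 3 * (R : ℝ) * (1 / N) / (1 - x - y) ≤ c / 2 := by
    rw [div_le_iff₀ (show (0 : ℝ) < 1 - x - y by linarith only [hxy])]
    have h1 : 3 * (R : ℝ) * (1 / N) ≤ 18 * C * N₁ * (1 / N) := by gcongr ?_ * _; linarith only [hR6]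
    have h2 : 18 * C * (N₁ : ℝ) * (1 / N) = 18 * C / (20 * M) := by rw [hNr]; field_simp
    have h3 : 18 * C / (20 * (M : ℝ)) ≤ c / 20 := by
      rw [div_le_div_iff₀ (by positivity) (by norm_num)]
      rw [div_lt_iff₀ hc] at hMbig
      nlinarith only [hMbig, hc, hC1]
    nlinarith only [h1, h2, h3, hxy, hc]
  refine ⟨W, N₁, N₂, N, jh, jl, R, L, τ, q, r, ⟨by omega, hN₂2, hN2, by omega, ?_, ?_, ?_⟩,
    ⟨hL1, hx0, hy34, hxy, hyL, hRx, hRx'⟩, ⟨hτ, hτ14, hRτ, hq0, hq1, hr0, hqr, hAr⟩,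
    ⟨hbh, hbl, hloss⟩⟩
  · show 5 * M ≤ 20 * N₁ * M
    exact Nat.mul_le_mul_right M (by omega)
  · show 1 ≤ 16 * N₁ * M
    rw [mul_assoc]; omega
  · show 16 * N₁ * M ≤ 20 * N₁ * M
    exact Nat.mul_le_mul_right M (Nat.mul_le_mul_right N₁ (by norm_num))

/-- The two coins, from one bank with two ends of known value. -/
theorem coin_of_ends [PartialOrder F] [StarOrderedRing F] (hM : MixtureTarget)
    {c C : ℝ} (hC1 : 1 ≤ C) {σ : F ≃⋆ₐ[ℂ] F} (hσ : Setting σ) {ε δp δn : ℝ}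
    (hp : ∀ (S S' : F) (A c r : ℝ), 0 ≤ S → 0 ≤ S' → 0 ≤ A → 0 ≤ c → 0 ≤ r → S' ≤ (1 + r) • S →
      S ≤ (1 + r) • S' → A * r ≤ δp →
      ‖cfc (fun t => clip 1 (Complex.exp ((phaseFun A c t : ℂ) * Complex.I))) S' -
        cfc (fun t => clip 1 (Complex.exp ((phaseFun A c t : ℂ) * Complex.I))) S‖ ≤ ε)
    (hn : ∀ (S S' : F) (A c r : ℝ), 0 ≤ S → 0 ≤ S' → 0 ≤ A → 0 ≤ c → 0 ≤ r → S' ≤ (1 + r) • S →
      S ≤ (1 + r) • S' → A * r ≤ δn →
      ‖cfc (fun t => clip (-1) (Complex.exp ((phaseFun A c t : ℂ) * Complex.I))) S' -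
        cfc (fun t => clip (-1) (Complex.exp ((phaseFun A c t : ℂ) * Complex.I))) S‖ ≤ ε)
    {R : ℕ} {L x y θ τ r : ℝ} (hL1 : 1 ≤ L) (hx0 : 0 < x) (hy34 : 3 / 4 ≤ y) (hxy : x + y ≤ 9 / 10)
    (hcoinx : ∀ e : ℝ, (e = 1 ∨ e = -1) →
      (∀ v : Fin R → ℝ, (∀ j, 0 ≤ v j ∧ v j ≤ 1) →
        c ≤ prob3 x y v {s | 1 / 10 ≤ e * Real.sin (coinPhase C L s)}) ∧
      ∃ k : ℕ, k ≤ R ∧ 1 / 10 ≤ e * Real.sin (coinPhase C L k))
    (hτ : 0 < τ) (hτ14 : τ < 1 / 4) (hRτ : (R : ℝ) * τ < 1 / 20) (hθ : 0 ≤ θ)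
    (hloss : 3 * (R : ℝ) * θ / (1 - x - y) ≤ c / 2) (hr0 : 0 ≤ r)
    (hAr : C ^ (3 / 4 : ℝ) * Real.sqrt L * r ≤ min δp δn)
    {s : Set F} (hsc : s.Countable) {T wh wl : F} (hTS : T ∈ Cl s) (hT0 : 0 ≤ T) (hT1 : T ≤ 1)
    (hσT : σ T ≤ (1 + r) • T) (hTσ : T ≤ (1 + r) • σ T)
    (hwh : bump (1 - τ) T * wh = wh) (hwl : bump (1 - τ) (1 - T) * wl = wl)
    (hwhf : FullPos (star wh * wh)) (hwlf : FullPos (star wl * wl))
    {th tl : Set F} (hthc : th.Countable) (htlc : tl.Countable)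
    (hh : ∀ B : StarSubalgebra ℂ F, IsClosed (B : Set F) → th ⊆ B → ∀ d : Dim B,
      x ≤ d.d (cut (1 / 100) (star wh * wh)) ∧ d.d (star wh * wh) ≤ x + θ)
    (hl : ∀ B : StarSubalgebra ℂ F, IsClosed (B : Set F) → tl ⊆ B → ∀ d : Dim B,
      y ≤ d.d (cut (1 / 100) (star wl * wl)) ∧ d.d (star wl * wl) ≤ y + θ) :
    ∃ a b : F, 0 ≤ a ∧ a ≤ 1 ∧ 0 ≤ b ∧ b ≤ 1 ∧ a * b = 0 ∧ ‖σ a - a‖ ≤ ε ∧ ‖σ b - b‖ ≤ ε ∧
      FullPos (cut (1 / 4) a) ∧ DGe (cut (1 / 4) a) (c / 2) ∧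
      FullPos (cut (1 / 4) b) ∧ DGe (cut (1 / 4) b) (c / 2) := by
  classical
  obtain ⟨Kh, yh, hyh⟩ := id hwhf
  obtain ⟨Kl, yl, hyl⟩ := id hwlf
  -- the algebra of one bank
  set u : Set F := orb σ (s ∪ (th ∪ tl) ∪ {wh, wl} ∪ (Set.range yh ∪ Set.range yl))
  have huc : u.Countable := orb_countable σ (((hsc.union (hthc.union htlc)).union
    ((Set.countable_singleton _).insert _)).union
      ((Set.countable_range _).union (Set.countable_range _)))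
  have huinv : σ '' u = u := image_orb σ _
  have hsu : Cl s ≤ Cl u := Cl_mono fun z hz => subset_orb σ _ (.inl (.inl (.inl hz)))
  have hmemu : ∀ z ∈ s ∪ (th ∪ tl) ∪ {wh, wl} ∪ (Set.range yh ∪ Set.range yl), z ∈ Cl u :=
    fun z hz => subset_Cl u (subset_orb σ _ hz)
  obtain ⟨κ⟩ := hσ.copies u huc huinv
  let κR : Copies (Cl u) F R :=
    ⟨fun i => κ.hom i, fun i j hij z z' => κ.comm _ _ (fun e => hij (Fin.ext e)) z z'⟩
  let T' : Cl u := ⟨T, hsu hTS⟩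
  let wh' : Cl u := ⟨wh, hmemu wh (.inl (.inr (.inl rfl)))⟩
  let wl' : Cl u := ⟨wl, hmemu wl (.inl (.inr (.inr rfl)))⟩
  let eh : Cl u := star wh' * wh'
  let el : Cl u := star wl' * wl'
  have hehf : FullPos eh := ⟨Kh, fun i => ⟨yh i, hmemu _ (.inr (.inl ⟨i, rfl⟩))⟩,
    Subtype.ext (by simpa [eh, wh'] using hyh)⟩
  have helf : FullPos el := ⟨Kl, fun i => ⟨yl i, hmemu _ (.inr (.inr ⟨i, rfl⟩))⟩,
    Subtype.ext (by simpa [el, wl'] using hyl)⟩
  have hvals : ∀ d : Dim (Cl u), x ≤ d.d (cut (1 / 100) (eh : F)) ∧ d.d (eh : F) ≤ x + θ ∧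
      y ≤ d.d (cut (1 / 100) (el : F)) ∧ d.d (el : F) ≤ y + θ := by
    intro d
    have h1 := hh (Cl u) (isClosed_Cl u) (fun z hz => hmemu z (.inl (.inl (.inr (.inl hz))))) d
    have h2 := hl (Cl u) (isClosed_Cl u) (fun z hz => hmemu z (.inl (.inl (.inr (.inr hz))))) d
    exact ⟨h1.1, h1.2, h2.1, h2.2⟩
  -- the phase
  set A : ℝ := C ^ (3 / 4 : ℝ) * Real.sqrt L with hAdef
  set k : ℝ := (C * Real.sqrt L)⁻¹
  have hA : 0 ≤ A := by positivity
  have hk : 0 ≤ k := by positivity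
  set S := ∑ j, κR.hom j T'
  have hT'0 : ∀ j, 0 ≤ κR.hom j T' := fun j => by
    simpa using hom_mono (κR.hom j) (x := 0) (y := T') hT0
  have hS0 : 0 ≤ S := sum_nonneg fun j _ => hT'0 j
  have hSsa := IsSelfAdjoint.of_nonneg hS0
  have hσS : σ S = ∑ j, κR.hom j (sh σ huinv 1 T') := by
    simp only [S, map_sum]
    refine sum_congr rfl fun j _ => ?_
    exact κ.equiv _ T' _ (by rw [sh_coe, zpow_one])
  have hrel1 : σ S ≤ (1 + r) • S := by
    rw [hσS, smul_sum]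
    refine sum_le_sum fun j _ => ?_
    rw [← Complex.coe_smul, ← map_smul]
    refine hom_mono (κR.hom j) ?_
    rw [sh_coe, zpow_one]
    rw [SetLike.val_smul, Complex.coe_smul]
    exact hσT
  have hrel2 : S ≤ (1 + r) • σ S := by
    rw [hσS, smul_sum]
    refine sum_le_sum fun j _ => ?_
    rw [← Complex.coe_smul, ← map_smul]
    refine hom_mono (κR.hom j) ?_
    rw [SetLike.val_smul, Complex.coe_smul, sh_coe, zpow_one]
    exact hTσ
  -- one sign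
  have hmain : ∀ e : ℝ, (e = 1 ∨ e = -1) → ∀ δ : ℝ,
      (∀ (S S' : F) (A c r : ℝ), 0 ≤ S → 0 ≤ S' → 0 ≤ A → 0 ≤ c → 0 ≤ r → S' ≤ (1 + r) • S →
        S ≤ (1 + r) • S' → A * r ≤ δ →
        ‖cfc (fun t => clip e (Complex.exp ((phaseFun A c t : ℂ) * Complex.I))) S' -
          cfc (fun t => clip e (Complex.exp ((phaseFun A c t : ℂ) * Complex.I))) S‖ ≤ ε) →
      A * r ≤ δ →
      0 ≤ cfc (psi A k e) S ∧ cfc (psi A k e) S ≤ 1 ∧
      ‖σ (cfc (psi A k e) S) - cfc (psi A k e) S‖ ≤ ε ∧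
      FullPos (cut (1 / 4) (cfc (psi A k e) S)) ∧ DGe (cut (1 / 4) (cfc (psi A k e) S)) (c / 2) := by
    intro e he δ hmod hδ
    have hψc := continuous_psi (A := A) hk e
    refine ⟨cfc_nonneg fun t _ => le_min zero_le_one (le_max_left _ _),
      cfc_le_one _ _ fun t _ => min_le_left _ _, ?_, ?_⟩
    · rw [StarAlgHomClass.map_cfc σ (psi A k e) S hψc.continuousOn
        (StarAlgEquiv.isometry σ).continuous hSsa (hSsa.map σ)]
      exact hmod S (σ S) A k r hS0 (map_nonneg _ hS0) hA hk hr0 hrel1 hrel2 hδ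
    · set G : Set ℝ := {t | 0 ≤ t ∧ 1 / 10 ≤ e * Real.sin (coinPhase C L t)}
      obtain ⟨hprob, n, hnR, hnG⟩ := hcoinx e he
      obtain ⟨hdge, hfull⟩ := hM F u R κR T' eh el wh' wl' x y θ τ (1 / 20) (1 / 100) G
        (psi A k e) huc (sqLe_iff.2 hT0) (sqLe_iff.2 hT1) (sqLe_iff.2 (star_mul_self_nonneg wh))
        (sqLe_iff.2 (star_mul_self_nonneg wl)) hτ hτ14 (by norm_num) hx0.le (by linarith)
        (by linarith) hθ hRτ rfl hwh rfl hwl hvals hψc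
        (fun t => ⟨le_min zero_le_one (le_max_left _ _), min_le_left _ _⟩)
        (fun g hg t ht => half_le_psi hC1 hL1 he hg.1 hg.2 ht)
      obtain ⟨p, hp⟩ := exists_pattern hnR
      refine ⟨hfull hehf helf ⟨p, by rw [hp]; exact ⟨Nat.cast_nonneg n, hnG⟩⟩, ?_⟩
      obtain ⟨t, htc, htp, ht⟩ := hdge c fun v hv => (hprob v hv).trans
        (prob3_le_of_nonneg hx0.le (by linarith) (by linarith) hv fun t ht0 ht => ⟨ht0, ht⟩)
      exact ⟨t, htc, htp, fun d => le_trans (by linarith) (ht d)⟩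
  obtain ⟨a0', a1', a2, a3, a4⟩ := hmain 1 (.inl rfl) δp hp
    (hAr.trans (min_le_left _ _))
  obtain ⟨b0', b1', b2, b3, b4⟩ := hmain (-1) (.inr rfl) δn hn
    (hAr.trans (min_le_right _ _))
  refine ⟨_, _, a0', a1', b0', b1', ?_, a2, b2, a3, a4, b3, b4⟩
  rw [← cfc_mul (psi A k 1) (psi A k (-1)) S (continuous_psi hk 1).continuousOn
    (continuous_psi hk (-1)).continuousOn]
  exact (cfc_congr fun t _ => psi_mul_eq_zero A k t).trans (cfc_zero ℝ S)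

/-- Almost fixed coins with uniform bounds. -/
theorem exists_almost (hC : CompareTarget) (hM : MixtureTarget) (hS : CoinScalarTarget) :
    ∃ c : ℝ, 0 < c ∧ ∀ (F : Type) [CStarAlgebra F] [PartialOrder F] [StarOrderedRing F]
      (σ : F ≃⋆ₐ[ℂ] F), Setting σ → ∀ ε : ℝ, 0 < ε → ∃ a b : F,
        0 ≤ a ∧ a ≤ 1 ∧ 0 ≤ b ∧ b ≤ 1 ∧ a * b = 0 ∧ ‖σ a - a‖ ≤ ε ∧ ‖σ b - b‖ ≤ ε ∧
        FullPos (cut (1 / 4) a) ∧ DGe (cut (1 / 4) a) c ∧
        FullPos (cut (1 / 4) b) ∧ DGe (cut (1 / 4) b) c := by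
  obtain ⟨c, C, hc, hC1, hcoin⟩ := hS
  refine ⟨c / 2, half_pos hc, ?_⟩
  intro F _ _ _ σ hσ ε hε
  obtain ⟨δp, hδp, hp⟩ := exists_phase_modulus (clip 1) (continuous_clip 1).continuousOn hε
  obtain ⟨δn, hδn, hn⟩ := exists_phase_modulus (clip (-1)) (continuous_clip (-1)).continuousOn hε
  obtain ⟨W, N₁, N₂, N, jh, jl, R, L, τ, q, r, ⟨hN₁, hN₂, hN, hjh1, hjh, hjl1, hjl⟩,
    ⟨hL1, hx0, hy34, hxy, hyL, hRx, hRx'⟩, ⟨hτ, hτ14, hRτ, hq0, hq1, hr0, hqr, hAr⟩,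
    ⟨hbh, hbl, hloss⟩⟩ := exists_numbers hC1 hc (lt_min hδp hδn)
  have : NeZero N := ⟨by omega⟩
  have : NeZero N₁ := ⟨by omega⟩
  have : NeZero N₂ := ⟨by omega⟩
  have hcop := hasCopies_of σ hσ
  obtain ⟨D₁⟩ := allDrops_of F hcop hσ.noChar N₁ hN₁
  obtain ⟨D₂⟩ := allDrops_of F hcop hσ.noChar N₂ hN₂
  obtain ⟨D⟩ := allDrops_of F hcop hσ.noChar N hN
  obtain ⟨s, a₀, e₀, hsc, hsinv, haS, -, ha0, ha1, he0, hef, haf, hkill, hlow, hup⟩ :=
    exists_atom hσ W hN₂ D₁ D₂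
  obtain ⟨T, vh, vl, hTS, hvhS, hvlS, hT0, hT1, hσT, hTσ, hvh0, hvl0, hvhf, hvlf, hTh, hTl,
    hbank⟩ := exists_bank σ hsinv haS ha0 ha1 he0 hef haf hkill hlow hup hτ (by linarith)
      (by positivity : 0 < τ / 64) le_rfl hq0 hq1 hqr
  obtain ⟨wh, hwh, hwhf, th, hthc, hh⟩ := exists_end hC hcop hσ.central hσ.noChar D jh hjh1 hjh
    hsc hvhS hvh0 hvhf hTh hbh fun B hB hsB d => (hbank B hB hsB d).1
  obtain ⟨wl, hwl, hwlf, tl, htlc, hl⟩ := exists_end hC hcop hσ.central hσ.noChar D jl hjl1 hjl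
    hsc hvlS hvl0 hvlf hTl hbl fun B hB hsB d => (hbank B hB hsB d).2
  exact coin_of_ends hM hC1 hσ (fun S S' => hp S S') (fun S S' => hn S S') hL1 hx0 hy34 hxy
    (hcoin L _ _ R hL1 hx0 hy34 (by linarith) hyL hRx hRx') hτ hτ14 hRτ
    (one_div_nonneg.2 (Nat.cast_nonneg N)) hloss hr0 hAr hsc hTS hT0 hT1 hσT hTσ hwh hwl hwhf hwlf
    hthc htlc
    (fun B hB ht d => ⟨(hh B hB ht d).1, (hh B hB ht d).2.trans_eq (by ring)⟩)
    (fun B hB ht d => ⟨(hl B hB ht d).1, (hl B hB ht d).2.trans_eq (by ring)⟩)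

theorem eval_foldr {k : ℕ} (x : Fin k → F) : ∀ l : List (Term k),
    (l.foldr Term.add (Term.smul 0 Term.one)).eval x = (l.map fun r => r.eval x).sum
  | [] => by simp [Term.eval]
  | r :: l => by simp [Term.eval, eval_foldr x l]

/-- The sum of conjugates of one variable, minus one. -/
def fullRel {k K : ℕ} (a : Fin k) (y : Fin K → Fin k) : Term k :=
  .add ((List.ofFn fun i => Term.mul (Term.mul (Term.adj (.var (y i))) (.var a)) (.var (y i))).foldr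
    Term.add (Term.smul 0 Term.one)) (.smul (-1) .one)

theorem eval_fullRel {k K : ℕ} (a : Fin k) (y : Fin K → Fin k) (x : Fin k → F) :
    (fullRel a y).eval x = ∑ i, star (x (y i)) * x a * x (y i) - 1 := by
  simp [fullRel, Term.eval, eval_foldr, List.map_ofFn, Function.comp_def, List.sum_ofFn,
    ← sub_eq_add_neg]

/-- Two exactly fixed orthogonal full positive elements. -/
theorem coinTarget_of (hC : CompareTarget) (hW : WitnessTarget) (hM : MixtureTarget)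
    (hS : CoinScalarTarget) : CoinTarget := by
  obtain ⟨c, hc, halm⟩ := exists_almost hC hM hS
  obtain ⟨K, hK⟩ := hW c hc
  intro F _ σ hσ
  let := CStarAlgebra.spectralOrder F
  have := CStarAlgebra.spectralOrderedRing F
  let idx := Fintype.equivFin (Fin 6 ⊕ (Fin K ⊕ Fin K))
  set k := Fintype.card (Fin 6 ⊕ (Fin K ⊕ Fin K))
  let v : Fin 6 → Fin k := fun i => idx (.inl i)
  let ya : Fin K → Fin k := fun i => idx (.inr (.inl i))
  let yb : Fin K → Fin k := fun i => idx (.inr (.inr i))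
  let V : Fin 6 → Term k := fun i => .var (v i)
  let rels : List (Term k) :=
    [.add (V 0) (.smul (-1) (.mul (.adj (V 2)) (V 2))),
     .add (.add .one (.smul (-1) (V 0))) (.smul (-1) (.mul (.adj (V 3)) (V 3))),
     .add (V 1) (.smul (-1) (.mul (.adj (V 4)) (V 4))),
     .add (.add .one (.smul (-1) (V 1))) (.smul (-1) (.mul (.adj (V 5)) (V 5))),
     .mul (V 0) (V 1), fullRel (v 0) ya, fullRel (v 1) yb]
  obtain ⟨z, hz, hfix⟩ := hσ.saturated k {v 0, v 1} rels 4 (fun ε hε => by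
    obtain ⟨a, b, ha0, ha1, hb0, hb1, hab, hσa, hσb, haf, hac, hbf, hbc⟩ := halm F σ hσ ε hε
    have hcop := hasCopies_of σ hσ
    obtain ⟨y, hy, hy1⟩ := hK F hcop hσ.central hσ.noChar a (1 / 4) (sqLe_iff.2 ha0) (by norm_num)
      haf hac
    obtain ⟨y', hy', hy1'⟩ := hK F hcop hσ.central hσ.noChar b (1 / 4) (sqLe_iff.2 hb0)
      (by norm_num) hbf hbc
    have hroot : ∀ z : F, 0 ≤ z → z ≤ 1 → ∃ w, z = star w * w ∧ ‖w‖ ≤ 1 := by
      intro z hz0 hz1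
      obtain ⟨w, hw⟩ := CStarAlgebra.nonneg_iff_eq_star_mul_self.1 hz0
      refine ⟨w, hw, ?_⟩
      have h := (CStarAlgebra.norm_le_one_iff_of_nonneg z hz0).2 hz1
      rw [hw, CStarRing.norm_star_mul_self] at h
      nlinarith [norm_nonneg w]
    obtain ⟨wa, hwa, nwa⟩ := hroot a ha0 ha1
    obtain ⟨wa', hwa', nwa'⟩ := hroot (1 - a) (sub_nonneg.2 ha1) (sub_le_self _ ha0)
    obtain ⟨wb, hwb, nwb⟩ := hroot b hb0 hb1
    obtain ⟨wb', hwb', nwb'⟩ := hroot (1 - b) (sub_nonneg.2 hb1) (sub_le_self _ hb0)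
    have na := (CStarAlgebra.norm_le_one_iff_of_nonneg a ha0).2 ha1
    have nb := (CStarAlgebra.norm_le_one_iff_of_nonneg b hb0).2 hb1
    have hsqrt : 2 / Real.sqrt (1 / 4) = 4 := by
      rw [show (1 / 4 : ℝ) = (1 / 2) ^ 2 by norm_num, Real.sqrt_sq (by norm_num)]; norm_num
    rw [hsqrt] at hy hy'
    let x : Fin k → F := fun i =>
      Sum.elim ![a, b, wa, wa', wb, wb'] (Sum.elim y y') (idx.symm i)
    refine ⟨x, fun i => ?_, ?_, fun i hi => ?_⟩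
    · obtain ⟨i, rfl⟩ := idx.surjective i
      simp only [x, Equiv.symm_apply_apply]
      rcases i with i | i | i
      · fin_cases i <;> simp <;> linarith
      · simpa using hy i
      · simpa using hy' i
    · intro r hr
      have h0 : r.eval x = 0 := by
        simp only [rels, List.mem_cons, List.not_mem_nil, or_false] at hr
        rcases hr with rfl | rfl | rfl | rfl | rfl | rfl | rfl <;>
          simp [Term.eval, eval_fullRel, V, v, ya, yb, x, ← hwa, ← hwa', ← hwb, ← hwb', hab, hy1,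
            hy1', ← sub_eq_add_neg]
      rw [h0, norm_zero]
      exact hε.le
    · simp only [Finset.mem_insert, Finset.mem_singleton] at hi
      rcases hi with rfl | rfl <;> simpa [x, v] using ‹_›)
  have h1 := fun r hr => hz r hr
  simp only [rels, List.mem_cons, List.not_mem_nil, or_false, forall_eq_or_imp, forall_eq,
    Term.eval, eval_fullRel, V, neg_smul, one_smul, ← sub_eq_add_neg, sub_eq_zero] at h1
  obtain ⟨e2, e3, e4, e5, e01, efa, efb⟩ := h1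
  exact ⟨z (v 0), z (v 1), hfix _ (by simp), hfix _ (by simp), ⟨z (v 2), by rw [sub_zero, e2]⟩,
    ⟨z (v 4), by rw [sub_zero, e4]⟩, ⟨z (v 3), e3⟩, ⟨z (v 5), e5⟩, e01,
    ⟨K, fun i => z (ya i), efa⟩, ⟨K, fun i => z (yb i), efb⟩⟩

end

end Vale.Agent.P095.Amen.Coin
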