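import Vale.Agent.P095.Amen.Coin.Arcs
import Vale.Agent.P095.Amen.Targets

/-!
# P095: the two scalar targets of the coin and of its amplification
-/

namespace Vale.Agent.P095.Amen.Coin

open Finset

noncomputable section

/-- The bank with two forced ends. -/
def law3 {R : ℕ} {x y : ℝ} (hx : 0 ≤ x) (hy : 0 ≤ y) (hxy : x + y ≤ 1) {v : Fin R → ℝ}
    (hv : ∀ i, 0 ≤ v i ∧ v i ≤ 1) : Laws R (Fin 3) where
  w _ := ![x, y, 1 - x - y]
  v i := ![1, 0, v i]
  nonneg _ j := by fin_cases j <;> simp <;> linarith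
  sum_one _ := by simp [Fin.sum_univ_three]
  val_nonneg i j := by fin_cases j <;> simp [(hv i).1]
  val_le_one i j := by fin_cases j <;> simp [(hv i).2]

theorem le_prob3 {R : ℕ} {x y : ℝ} (hx : 0 ≤ x) (hy : 0 ≤ y) (hxy : x + y ≤ 1) {v : Fin R → ℝ}
    (hv : ∀ i, 0 ≤ v i ∧ v i ≤ 1) (G : Set ℝ) (φ : ℝ → ℝ)
    (hφ : ∀ s, φ s ≤ G.indicator (fun _ => 1) s) :
    ∑ p, (law3 hx hy hxy hv).wt p * φ ((law3 hx hy hxy hv).tot p) ≤ prob3 x y v G := by
  refine sum_le_sum fun p _ => ?_
  refine (mul_le_mul_of_nonneg_left (hφ _) ((law3 hx hy hxy hv).wt_nonneg p)).trans_eq ?_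
  by_cases h : (law3 hx hy hxy hv).tot p ∈ G
  · rw [Set.indicator_of_mem h, mul_one]
    simp only [Laws.tot, Laws.wt, law3] at h ⊢
    rw [Set.indicator_of_mem h]
  · rw [Set.indicator_of_notMem h, mul_zero]
    simp only [Laws.tot, law3] at h
    rw [Set.indicator_of_notMem h]

/-- A set of positive probability for vanishing middle values holds a natural number. -/
theorem exists_nat_mem {R : ℕ} {x y : ℝ} {G : Set ℝ}
    (h : 0 < prob3 x y (fun _ : Fin R => (0 : ℝ)) G) : ∃ k : ℕ, k ≤ R ∧ (k : ℝ) ∈ G := by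
  classical
  by_contra hne
  push Not at hne
  refine h.ne' (sum_eq_zero fun p _ => Set.indicator_of_notMem ?_ _)
  have hs : (∑ j, (![1, 0, 0] : Fin 3 → ℝ) (p j)) = ((univ.filter fun j => p j = 0).card : ℝ) := by
    rw [← sum_boole]
    refine sum_congr rfl fun j _ => ?_
    generalize p j = q
    fin_cases q <;> simp
  rw [hs]
  exact hne _ ((card_filter_le _ _).trans_eq (card_fin R))

/-- The coin. -/
theorem coinScalar : CoinScalarTarget := by
  set C : ℝ := (1000 : ℝ) ^ (4 : ℕ) with hC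
  have hC1 : 1 ≤ C := by norm_num [hC]
  refine ⟨1 / 20, C, by norm_num, hC1, ?_⟩
  intro L x y R hL hx hy hxy hyL hCR hRC e he
  have hy0 : 0 ≤ y := by linarith
  have hsC : Real.sqrt C = 1000000 := by
    rw [hC, show (1000 : ℝ) ^ 4 = 1000000 ^ 2 by norm_num, Real.sqrt_sq (by norm_num)]
  have hph : ∀ s, coinPhase C L s =
      Laws.phase (1000 * Real.sqrt (L * C)) (Real.sqrt L * C) s := by
    intro s
    have h34 : C ^ (3 / 4 : ℝ) = 1000000000 := by
      rw [hC, ← Real.rpow_natCast, ← Real.rpow_mul (by norm_num)]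
      norm_num
    rw [coinPhase, Laws.phase, Real.sqrt_mul (by linarith), hsC, h34, mul_comm C]
    ring
  have main : ∀ v : Fin R → ℝ, (∀ j, 0 ≤ v j ∧ v j ≤ 1) →
      1 / 20 ≤ prob3 x y v {s | 1 / 10 ≤ e * Real.sin (coinPhase C L s)} := by
    intro v hv
    set P := law3 hx.le hy0 hxy hv with hP
    have hrare : ∀ i, (∑ j with P.v i j ≠ 0, P.w i j) ≤ 1 - y := by
      intro i
      refine (sum_le_sum_of_subset_of_nonneg (t := {0, 2}) ?_ fun j _ _ => P.nonneg i j).trans_eq ?_
      · intro j hj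
        fin_cases j <;> simp [P, law3] at hj ⊢
      · simp [P, law3]; ring
    have hm2 : ∀ i, x ≤ P.m2 i := by
      intro i
      have h2 : 0 ≤ (1 - x - y) * v i ^ 2 := mul_nonneg (by linarith) (sq_nonneg _)
      simp [Laws.m2, P, law3, Fin.sum_univ_three]
      linarith
    obtain ⟨hV, hμ⟩ := P.totVar_lower (by linarith) hrare hm2
    have hCV : C ≤ 2 * P.totVar := hCR.trans hV
    have hμ' : P.mu ^ 2 ≤ 4 * L * C * P.totVar := by
      refine hμ.trans (mul_le_mul_of_nonneg_right ?_ P.totVar_nonneg)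
      have h1 := mul_le_mul_of_nonneg_left hyL R.cast_nonneg
      have h2 := mul_le_mul_of_nonneg_left hRC (by linarith : (0 : ℝ) ≤ L)
      nlinarith
    -- the first two coefficients
    have hchar : ∀ κ : ℝ, (κ = 1 ∨ κ = 2) →
        ‖∑ p, (P.wt p : ℂ) * Complex.exp ((κ * coinPhase C L (P.tot p) : ℝ) * Complex.I)‖ ≤
          1 / 10 := by
      intro κ hκ
      simp only [hph]
      have hκ1 : 1 ≤ κ ∧ κ ≤ 2 := by rcases hκ with rfl | rfl <;> norm_num
      refine (P.norm_char_phase_scaled_le (by norm_num) hL hC1 two_pos (by norm_num) hCV hμ'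
        (by rw [hsC, abs_of_nonneg (by linarith)]; linarith)).trans ?_
      rw [hsC, abs_of_nonneg (by linarith : 0 ≤ κ)]
      set z := κ ^ 2 * (1000 : ℝ) ^ 2 / (10 * (2 + 4))
      have hz : 1000 ≤ z := by
        simp only [z]
        rw [le_div_iff₀ (by norm_num)]
        nlinarith
      have hexp : Real.exp (-z) * (z + 1) ≤ 1 := by
        have := mul_le_mul_of_nonneg_left (Real.add_one_le_exp z) (Real.exp_pos (-z)).le
        rwa [← Real.exp_add, neg_add_cancel, Real.exp_zero] at this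
      nlinarith [Real.exp_pos (-z)]
    have he2 : e ^ 2 = 1 := by rcases he with rfl | rfl <;> norm_num
    set E : (ℝ → ℝ) → ℝ := fun f => ∑ p, P.wt p * f (coinPhase C L (P.tot p))
    have hsin : |E Real.sin| ≤ 1 / 10 := by
      refine le_trans (le_of_eq_of_le (congrArg abs ?_) (Complex.abs_im_le_norm _))
        (hchar 1 (.inl rfl))
      simp [E, Complex.im_sum, Complex.exp_ofReal_mul_I_im]
    have hcos : |E fun t => Real.cos (2 * t)| ≤ 1 / 10 := by
      refine le_trans (le_of_eq_of_le (congrArg abs ?_) (Complex.abs_re_le_norm _))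
        (hchar 2 (.inr rfl))
      simp only [E, Complex.re_sum, Complex.re_ofReal_mul, Complex.exp_ofReal_mul_I_re]
    refine le_trans ?_ (le_prob3 hx.le hy0 hxy hv _
      (fun s => ((e * Real.sin (coinPhase C L s)) ^ 2 + e * Real.sin (coinPhase C L s)) / 2 - 1 / 10)
      fun s => ?_)
    · have hsum : ∑ p, P.wt p * (((e * Real.sin (coinPhase C L (P.tot p))) ^ 2 +
          e * Real.sin (coinPhase C L (P.tot p))) / 2 - 1 / 10) =
          1 / 4 - E (fun t => Real.cos (2 * t)) / 4 + e * E Real.sin / 2 - 1 / 10 := by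
        simp only [E, mul_sum, sum_div]
        have h1 := P.sum_wt
        calc _ = ∑ p, ((3 / 20 : ℝ) * P.wt p -
              P.wt p * Real.cos (2 * coinPhase C L (P.tot p)) / 4 +
              e * (P.wt p * Real.sin (coinPhase C L (P.tot p))) / 2) := sum_congr rfl fun p _ => by
              rw [mul_pow, he2, Real.sin_sq_eq_half_sub]; ring
          _ = _ := by rw [sum_add_distrib, sum_sub_distrib, ← mul_sum, h1]; ring
      rw [hsum]
      rcases he with rfl | rfl <;> linarith [abs_le.1 hsin, abs_le.1 hcos]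
    · have h1 : e * Real.sin (coinPhase C L s) ≤ 1 ∧ -1 ≤ e * Real.sin (coinPhase C L s) := by
        rcases he with rfl | rfl <;> constructor <;>
          linarith [Real.sin_le_one (coinPhase C L s), Real.neg_one_le_sin (coinPhase C L s)]
      by_cases hs : 1 / 10 ≤ e * Real.sin (coinPhase C L s)
      · rw [Set.indicator_of_mem (show s ∈ {t | 1 / 10 ≤ e * Real.sin (coinPhase C L t)} from hs)]
        generalize e * Real.sin (coinPhase C L s) = u at h1 hs ⊢
        nlinarith [mul_nonneg (sub_nonneg.2 h1.1) (neg_le_iff_add_nonneg'.1 h1.2)]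
      · rw [Set.indicator_of_notMem (show s ∉ {t | 1 / 10 ≤ e * Real.sin (coinPhase C L t)} from hs)]
        generalize e * Real.sin (coinPhase C L s) = u at h1 hs ⊢
        nlinarith [mul_nonneg (sub_nonneg.2 (not_le.1 hs).le) (neg_le_iff_add_nonneg'.1 h1.2)]
  refine ⟨main, ?_⟩
  exact exists_nat_mem (lt_of_lt_of_le (by norm_num) (main _ fun _ => by simp))

/-- A continuous function sees no translation where finitely many coefficients are small. -/
theorem exists_translate_close (f : C(AddCircle (1 : ℝ), ℂ)) {ε : ℝ} (hε : 0 < ε) :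
    ∃ S : Finset ℤ, (∀ k ∈ S, k ≠ 0) ∧ ∃ δ, 0 < δ ∧ ∀ {ι : Type} [Fintype ι] (w φ : ι → ℝ),
      (∀ i, 0 ≤ w i) → ∑ i, w i = 1 →
      (∀ k ∈ S, ‖∑ i, (w i : ℂ) * fourier k ((φ i : ℝ) : AddCircle (1 : ℝ))‖ ≤ δ) → ∀ a b : ℝ,
      ‖(∑ i, (w i : ℂ) * f ((φ i + a : ℝ))) - ∑ i, (w i : ℂ) * f ((φ i + b : ℝ))‖ ≤ ε := by
  classical
  have : Fact (0 < (1 : ℝ)) := ⟨one_pos⟩
  have hmem : f ∈ (Submodule.span ℂ
      (Set.range (@fourier (1 : ℝ)))).topologicalClosure := by
    rw [span_fourier_closure_eq_top]; trivial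
  rw [← SetLike.mem_coe, Submodule.topologicalClosure_coe] at hmem
  obtain ⟨g, hg, hfg⟩ := Metric.mem_closure_iff.1 hmem (ε / 4) (by linarith)
  obtain ⟨q, rfl⟩ := (Finsupp.mem_span_range_iff_exists_finsupp).1 hg
  set s : ℝ := (∑ k ∈ q.support, ‖q k‖) + 1
  have hs : 1 ≤ s := le_add_of_nonneg_left (sum_nonneg fun _ _ => norm_nonneg _)
  refine ⟨q.support.erase 0, fun k hk => ne_of_mem_erase hk, ε / (4 * s), by positivity, ?_⟩
  intro ι _ w φ hw hw1 hk a b
  set gq : C(AddCircle (1 : ℝ), ℂ) := q.sum fun i z => z • fourier i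
  set E : ℝ → (AddCircle (1 : ℝ) → ℂ) → ℂ := fun t h => ∑ i, (w i : ℂ) * h ((φ i + t : ℝ))
  have happ : ∀ t, ‖E t f - E t gq‖ ≤ ε / 4 := by
    intro t
    simp only [E, ← sum_sub_distrib, ← mul_sub]
    refine (norm_sum_le _ _).trans ?_
    simp only [norm_mul, Complex.norm_real, Real.norm_of_nonneg (hw _)]
    calc _ ≤ ∑ i, w i * (ε / 4) := sum_le_sum fun i _ => mul_le_mul_of_nonneg_left (by
          rw [← ContinuousMap.sub_apply]
          exact (ContinuousMap.norm_coe_le_norm _ _).trans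
            (by rw [← dist_eq_norm]; exact hfg.le)) (hw i)
      _ = ε / 4 := by rw [← sum_mul, hw1, one_mul]
  have hpol : ∀ t, ‖E t gq - q 0‖ ≤ ε / 4 := by
    intro t
    have hsum : E t gq = ∑ k ∈ q.support, q k * E t (fourier k) := by
      simp only [E, gq, Finsupp.sum, ContinuousMap.coe_sum, Finset.sum_apply,
        ContinuousMap.coe_smul, Pi.smul_apply, smul_eq_mul, mul_sum]
      rw [sum_comm]
      exact sum_congr rfl fun k _ => sum_congr rfl fun i _ => by ring
    have hzero : E t (fourier 0) = 1 := by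
      simp only [E, fourier_zero, mul_one]
      exact_mod_cast hw1
    have hsplit : E t gq - q 0 = ∑ k ∈ q.support.erase 0, q k * E t (fourier k) := by
      rw [hsum, sub_eq_iff_eq_add]
      by_cases h0 : (0 : ℤ) ∈ q.support
      · rw [← sum_erase_add _ _ h0, hzero, mul_one]
      · rw [erase_eq_of_notMem h0, Finsupp.notMem_support_iff.1 h0, add_zero]
    rw [hsplit]
    refine (norm_sum_le _ _).trans ?_
    calc _ ≤ ∑ k ∈ q.support.erase 0, ‖q k‖ * (ε / (4 * s)) := sum_le_sum fun k hk' => by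
          rw [norm_mul]
          refine mul_le_mul_of_nonneg_left ?_ (norm_nonneg _)
          have he : ∀ i, fourier k ((φ i + t : ℝ) : AddCircle (1 : ℝ)) =
              fourier k (t : AddCircle (1 : ℝ)) * fourier k ((φ i : ℝ) : AddCircle (1 : ℝ)) := by
            intro i
            simp only [fourier_coe_apply, ← Complex.exp_add]
            congr 1
            push_cast
            ring
          simp only [E, he, mul_left_comm (w _ : ℂ), ← mul_sum, norm_mul]
          rw [fourier_coe_apply, show (2 : ℂ) * Real.pi * Complex.I * k * t / (1 : ℝ) =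
            ((2 * Real.pi * k * t : ℝ) : ℂ) * Complex.I by push_cast; ring,
            Complex.norm_exp_ofReal_mul_I, one_mul]
          exact hk k hk'
      _ ≤ s * (ε / (4 * s)) := by
          rw [← sum_mul]
          refine mul_le_mul_of_nonneg_right ?_ (by positivity)
          exact le_add_of_le_of_nonneg (sum_le_sum_of_subset_of_nonneg (erase_subset _ _)
            fun _ _ _ => norm_nonneg _) zero_le_one
      _ = ε / 4 := by field_simp
  calc ‖E a f - E b f‖ ≤ ‖E a f - q 0‖ + ‖q 0 - E b f‖ := norm_sub_le_norm_sub_add_norm_sub _ _ _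
    _ ≤ (‖E a f - E a gq‖ + ‖E a gq - q 0‖) + (‖E b f - E b gq‖ + ‖E b gq - q 0‖) := by
        rw [norm_sub_rev (q 0)]
        exact add_le_add (norm_sub_le_norm_sub_add_norm_sub _ _ _)
          (norm_sub_le_norm_sub_add_norm_sub _ _ _)
    _ ≤ ε := by linarith [happ a, happ b, hpol a, hpol b]

section Partition

variable (N : ℕ)

/-- A hat of width two steps. -/
def hat (x : AddCircle (1 : ℝ)) : ℝ := max 0 (1 / N - ‖x‖)

variable [NeZero N]

def hatSum (x : AddCircle (1 : ℝ)) : ℝ := ∑ j : ZMod N, hat N (x - ZMod.toAddCircle j)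

/-- A partition of unity by translates. -/
def piece (x : AddCircle (1 : ℝ)) : ℝ := hat N x / hatSum N x

omit [NeZero N] in
theorem hat_nonneg (x : AddCircle (1 : ℝ)) : 0 ≤ hat N x := le_max_left _ _

theorem hatSum_pos (x : AddCircle (1 : ℝ)) : 0 < hatSum N x := by
  induction x using QuotientAddGroup.induction_on with
  | H t =>
    refine lt_of_lt_of_le ?_ (single_le_sum (fun j _ => hat_nonneg N _)
      (mem_univ ((⌊(N : ℝ) * t⌋ : ℤ) : ZMod N)))
    rw [hat, ZMod.toAddCircle_intCast, lt_max_iff]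
    refine .inr (sub_pos.2 ?_)
    have hN : (0 : ℝ) < N := Nat.cast_pos.2 (NeZero.pos N)
    have h1 := Int.floor_le ((N : ℝ) * t)
    have h2 := Int.lt_floor_add_one ((N : ℝ) * t)
    rw [← AddCircle.coe_sub, AddCircle.norm_eq]
    simp only [inv_one, one_mul, mul_one]
    set u := t - (⌊(N : ℝ) * t⌋ : ℝ) / N
    have hu : 0 ≤ u ∧ u < 1 / N := by
      constructor
      · rw [sub_nonneg, div_le_iff₀ hN]; linarith
      · rw [sub_lt_iff_lt_add, ← add_div, lt_div_iff₀ hN]; linarith
    have h3 := round_le u 0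
    simp only [Int.cast_zero, sub_zero, abs_of_nonneg hu.1] at h3
    linarith

theorem hatSum_sub (x : AddCircle (1 : ℝ)) (i : ZMod N) :
    hatSum N (x - ZMod.toAddCircle i) = hatSum N x := by
  refine Fintype.sum_equiv (Equiv.addLeft i) _ _ fun j => ?_
  simp [sub_sub]

theorem piece_nonneg (x : AddCircle (1 : ℝ)) : 0 ≤ piece N x :=
  div_nonneg (hat_nonneg N x) (hatSum_pos N x).le

theorem sum_piece (x : AddCircle (1 : ℝ)) :
    ∑ j : ZMod N, piece N (x - ZMod.toAddCircle j) = 1 := by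
  simp only [piece, hatSum_sub, ← sum_div]
  exact div_self (hatSum_pos N x).ne'

omit [NeZero N] in
theorem continuous_hat : Continuous (hat N) :=
  continuous_const.max (continuous_const.sub continuous_norm)

theorem continuous_piece : Continuous (piece N) :=
  (continuous_hat N).div₀ (continuous_finsetSum _ fun _ _ =>
    (continuous_hat N).comp (continuous_id.sub continuous_const)) fun x => (hatSum_pos N x).ne'

theorem piece_eq_zero {t : ℝ} (h : ∀ k : ℤ, 1 / (N : ℝ) ≤ |t - k|) :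
    piece N (t : AddCircle (1 : ℝ)) = 0 := by
  have h2 : hat N (t : AddCircle (1 : ℝ)) = 0 := by
    rw [hat, AddCircle.norm_eq]
    simp only [inv_one, one_mul, mul_one]
    exact max_eq_left (sub_nonpos.2 (h _))
  rw [piece, h2, zero_div]

/-- An arc gets its length where the translates of the piece are seen alike. -/
theorem arc_lower {ι : Type} [Fintype ι] {w φ : ι → ℝ} {ε a b : ℝ} (hw : ∀ i, 0 ≤ w i)
    (hw1 : ∑ i, w i = 1)
    (heq : ∀ i j : ZMod N, (∑ p, w p * piece N ((φ p : ℝ) - ZMod.toAddCircle i)) ≤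
      (∑ p, w p * piece N ((φ p : ℝ) - ZMod.toAddCircle j)) + ε)
    (hb : b ≤ a + 1) (hε : 0 ≤ ε) (hεN : ε * N ≤ 1) :
    b - a - 3 / N - ε * N ≤
      ∑ p, w p * {t : ℝ | ∃ k : ℤ, a ≤ t - k ∧ t - k ≤ b}.indicator (fun _ => (1 : ℝ)) (φ p) := by
  classical
  have hN : (0 : ℝ) < N := Nat.cast_pos.2 (NeZero.pos N)
  set m := fun i : ZMod N => ∑ p, w p * piece N ((φ p : ℝ) - ZMod.toAddCircle i)
  have hm : ∀ i, 1 / N - ε ≤ m i := by
    intro i
    have h1 : ∑ j, m j = 1 := by
      simp only [m]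
      rw [sum_comm]
      simp [← mul_sum, sum_piece, hw1]
    have h2 : ∑ j, m j ≤ ∑ _j : ZMod N, (m i + ε) := sum_le_sum fun j _ => heq j i
    rw [h1, sum_const, card_univ, ZMod.card, nsmul_eq_mul] at h2
    rw [sub_le_iff_le_add, div_le_iff₀ hN]
    linarith
  set I := Finset.Icc ⌈(N : ℝ) * a + 1⌉ ⌊(N : ℝ) * b - 1⌋
  have hinj : Set.InjOn (fun i : ℤ => (i : ZMod N)) I := by
    intro i hi j hj hij
    simp only [I, coe_Icc, Set.mem_Icc, Int.ceil_le, Int.le_floor] at hi hj
    obtain ⟨d, hd⟩ := (ZMod.intCast_eq_intCast_iff_dvd_sub i j N).1 hij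
    have hd' : (j : ℝ) - i = N * d := by exact_mod_cast hd
    have hlt : |(N : ℝ) * d| < N * 1 := by
      rw [← hd', abs_lt]
      constructor <;> nlinarith
    rw [abs_mul, abs_of_pos hN] at hlt
    have : d = 0 := Int.abs_lt_one_iff.1 (by exact_mod_cast lt_of_mul_lt_mul_left hlt hN.le)
    subst this
    linarith
  have hle : ∀ t : ℝ, ∑ i ∈ I.image (fun i : ℤ => (i : ZMod N)),
      piece N ((t : AddCircle (1 : ℝ)) - ZMod.toAddCircle i) ≤
      {t : ℝ | ∃ k : ℤ, a ≤ t - k ∧ t - k ≤ b}.indicator (fun _ => (1 : ℝ)) t := by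
    intro t
    by_cases ht : t ∈ {t : ℝ | ∃ k : ℤ, a ≤ t - k ∧ t - k ≤ b}
    · rw [Set.indicator_of_mem ht]
      exact (sum_le_univ_sum_of_nonneg fun j => piece_nonneg N _).trans_eq (sum_piece N _)
    · rw [Set.indicator_of_notMem ht]
      refine (sum_eq_zero fun i hi => ?_).le
      obtain ⟨j, hj, rfl⟩ := mem_image.1 hi
      simp only [I, Finset.mem_Icc, Int.ceil_le, Int.le_floor] at hj
      obtain ⟨hja, hjb⟩ := hj
      rename' j => i
      rw [ZMod.toAddCircle_intCast, ← AddCircle.coe_sub]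
      refine piece_eq_zero N fun k => not_lt.1 fun hlt => ht ⟨k, ?_⟩
      rw [abs_lt] at hlt
      have h1 : a + 1 / N ≤ (i : ℝ) / N := by
        rw [le_div_iff₀ hN, add_mul, div_mul_cancel₀ _ hN.ne']; linarith
      have h2 : (i : ℝ) / N ≤ b - 1 / N := by
        rw [div_le_iff₀ hN, sub_mul, div_mul_cancel₀ _ hN.ne']; linarith
      constructor <;> linarith
  refine le_trans ?_ (sum_le_sum fun p _ => mul_le_mul_of_nonneg_left (hle (φ p)) (hw p))
  simp only [mul_sum]
  rw [sum_comm]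
  refine le_trans ?_ (card_nsmul_le_sum _ m _ fun i _ => hm i)
  rw [card_image_of_injOn hinj, nsmul_eq_mul, Int.card_Icc]
  have h0 : 0 ≤ 1 / (N : ℝ) - ε := by
    rw [sub_nonneg, le_div_iff₀ hN]; linarith
  set z := ⌊(N : ℝ) * b - 1⌋ + 1 - ⌈(N : ℝ) * a + 1⌉
  have hz : (N : ℝ) * (b - a) - 3 ≤ (z : ℝ) := by
    simp only [z]
    push_cast
    linarith [Int.sub_one_lt_floor ((N : ℝ) * b - 1), Int.ceil_lt_add_one ((N : ℝ) * a + 1)]
  have hz2 : (z : ℝ) ≤ (z.toNat : ℝ) := by exact_mod_cast Int.self_le_toNat z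
  refine le_trans ?_ (mul_le_mul_of_nonneg_right (hz.trans hz2) h0)
  have : ε * ((N : ℝ) * (b - a)) ≤ ε * N :=
    mul_le_mul_of_nonneg_left (mul_le_of_le_one_right hN.le (by linarith)) hε
  field_simp
  nlinarith

end Partition

/-- Amplification. -/
theorem ampScalar : AmpScalarTarget := by
  intro c θ hc hc3 hθ
  obtain ⟨N, hN⟩ := exists_nat_gt (12 / θ)
  have hN0 : 0 < N := Nat.cast_pos.1 (lt_trans (by positivity) hN)
  have : NeZero N := ⟨hN0.ne'⟩
  have hNr : (0 : ℝ) < N := Nat.cast_pos.2 hN0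
  set ε := min (θ / 4) 1 / N with hεdef
  have hε : 0 < ε := by positivity
  obtain ⟨S, hS, δ, hδ, hclose⟩ := exists_translate_close
    ⟨fun x => (piece N x : ℂ), Complex.continuous_ofReal.comp (continuous_piece N)⟩ hε
  set K : ℝ := ∑ k ∈ S, |(k : ℝ)|
  have hK : 0 ≤ K := sum_nonneg fun _ _ => abs_nonneg _
  set lam : ℝ := 1 / (3 * (K + 1)) with hlamdef
  have hlam : 0 < lam := by positivity
  obtain ⟨R, hR⟩ := exists_nat_gt (10 / ((2 * Real.pi * lam) ^ 2 * c * δ))
  refine ⟨R, lam, hlam, ?_⟩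
  intro a b hab hb hθab
  have main : ∀ v : Fin R → ℝ, (∀ j, 0 ≤ v j ∧ v j ≤ 1) →
      b - a - θ / 2 ≤ prob3 c c v {s | ∃ k : ℤ, a ≤ lam * s - k ∧ lam * s - k ≤ b} := by
    intro v hv
    set P := law3 hc.le hc.le (by linarith : c + c ≤ 1) hv with hP
    have hvar : ∀ i, c / 2 ≤ P.var i := by
      intro i
      rw [P.var_eq]
      generalize hm : P.m1 i = m
      have h2 : 0 ≤ (1 - c - c) * (v i - m) ^ 2 := mul_nonneg (by linarith) (sq_nonneg _)
      simp only [P, law3, Fin.sum_univ_three, Matrix.cons_val_zero, Matrix.cons_val_one,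
        Matrix.cons_val_two, Matrix.head_cons, Matrix.tail_cons] at h2 ⊢
      nlinarith [mul_nonneg hc.le (sq_nonneg (2 * m - 1))]
    have hV : (R : ℝ) * (c / 2) ≤ P.totVar := by
      simpa [Laws.totVar] using sum_le_sum fun i (_ : i ∈ univ) => hvar i
    have hchar : ∀ k ∈ S, ‖∑ p, (P.wt p : ℂ) *
        fourier k ((lam * P.tot p : ℝ) : AddCircle (1 : ℝ))‖ ≤ δ := by
      intro k hk
      set κ := 2 * Real.pi * (k : ℝ) * lam with hκ
      have he : ∀ p, fourier k ((lam * P.tot p : ℝ) : AddCircle (1 : ℝ)) =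
          Complex.exp ((κ * P.tot p : ℝ) * Complex.I) := fun p => by
        rw [fourier_coe_apply, hκ]
        congr 1
        push_cast
        ring
      simp only [he]
      have hk1 : |(k : ℝ)| ≤ K :=
        single_le_sum (f := fun k : ℤ => |(k : ℝ)|) (fun _ _ => abs_nonneg _) hk
      have hκ3 : |κ| ≤ 3 := by
        rw [hκ, abs_mul, abs_mul, abs_of_pos hlam, abs_of_pos (by positivity : 0 < 2 * Real.pi),
          hlamdef, mul_one_div, div_le_iff₀ (by positivity)]
        nlinarith [Real.pi_lt_d2, Real.pi_pos, abs_nonneg (k : ℝ)]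
      refine (P.norm_char_tot_le hκ3).trans ?_
      set z := κ ^ 2 * P.totVar / 5 with hz
      have hzd : 1 ≤ δ * z := by
        have hk2 : (2 * Real.pi * lam) ^ 2 ≤ κ ^ 2 := by
          rw [show κ ^ 2 = (2 * Real.pi * lam) ^ 2 * (k : ℝ) ^ 2 by rw [hκ]; ring]
          refine le_mul_of_one_le_right (sq_nonneg _) ?_
          have hk1 : (1 : ℤ) ≤ k ^ 2 :=
            (one_le_sq_iff_one_le_abs _).2 (Int.one_le_abs (hS k hk))
          exact_mod_cast hk1
        rw [div_lt_iff₀ (by positivity)] at hR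
        have h3 := mul_le_mul hk2 hV (by positivity) (sq_nonneg κ)
        rw [hz, mul_div_assoc', le_div_iff₀ (by norm_num)]
        nlinarith [mul_le_mul_of_nonneg_left h3 hδ.le]
      have hexp : Real.exp (-z) * (z + 1) ≤ 1 := by
        have := mul_le_mul_of_nonneg_left (Real.add_one_le_exp z) (Real.exp_pos (-z)).le
        rwa [← Real.exp_add, neg_add_cancel, Real.exp_zero] at this
      nlinarith [Real.exp_pos (-z), mul_le_mul_of_nonneg_left hexp hδ.le]
    have hcl := hclose P.wt (fun p => lam * P.tot p) P.wt_nonneg P.sum_wt hchar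
    have heq : ∀ i j : ZMod N,
        (∑ p, P.wt p * piece N (((lam * P.tot p : ℝ) : AddCircle (1 : ℝ)) - ZMod.toAddCircle i)) ≤
        (∑ p, P.wt p * piece N (((lam * P.tot p : ℝ) : AddCircle (1 : ℝ)) - ZMod.toAddCircle j)) +
          ε := by
      intro i j
      obtain ⟨i, rfl⟩ := ZMod.intCast_surjective i
      obtain ⟨j, rfl⟩ := ZMod.intCast_surjective j
      have h := hcl (-((i : ℝ) / N)) (-((j : ℝ) / N))
      simp only [← sub_eq_add_neg, AddCircle.coe_sub, ContinuousMap.coe_mk, ← Complex.ofReal_mul,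
        ← Complex.ofReal_sum, ← Complex.ofReal_sub, Complex.norm_real, Real.norm_eq_abs] at h
      simp only [ZMod.toAddCircle_intCast]
      linarith [(abs_le.1 h).2]
    have hεN : ε * N = min (θ / 4) 1 := by rw [hεdef, div_mul_cancel₀ _ hNr.ne']
    have harc := arc_lower N P.wt_nonneg P.sum_wt heq hb hε.le (hεN ▸ min_le_right _ _)
    have h3N : 3 / (N : ℝ) ≤ θ / 4 := by
      rw [div_lt_iff₀ hθ] at hN
      rw [div_le_iff₀ hNr]
      linarith
    refine le_trans ?_ (le_prob3 hc.le hc.le (by linarith) hv _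
      (fun s => {t : ℝ | ∃ k : ℤ, a ≤ t - k ∧ t - k ≤ b}.indicator (fun _ => (1 : ℝ)) (lam * s))
      fun s => le_of_eq rfl)
    refine le_trans ?_ harc
    linarith [min_le_left (θ / 4) 1]
  refine ⟨fun v hv => le_trans (by linarith) (main v hv), ?_⟩
  exact exists_nat_mem (lt_of_lt_of_le (by linarith) (main _ fun _ => by simp))

end

end Vale.Agent.P095.Amen.Coin
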