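import Vale.Agent.P095.Amen.Coin.Char

/-!
# P095 coin: the coefficients of the phase are small, uniformly in the laws
-/

namespace Vale.Agent.P095.Amen.Coin

open Finset

noncomputable section

namespace Laws

variable {n : ℕ} {J : Type} [Fintype J] (P : Laws n J)

/-- Rare positions with a guaranteed mean square: variance and squared mean are controlled. -/
theorem totVar_lower {Λ a : ℝ} (hΛ : Λ ≤ 1 / 2)
    (hrare : ∀ i, (∑ j with P.v i j ≠ 0, P.w i j) ≤ Λ) (ha : ∀ i, a ≤ P.m2 i) :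
    (n : ℝ) * a ≤ 2 * P.totVar ∧ P.mu ^ 2 ≤ 2 * ((n : ℝ) * Λ) * P.totVar := by
  classical
  have hm2 : ∀ i, 0 ≤ P.m2 i := fun i =>
    sum_nonneg fun j _ => mul_nonneg (P.nonneg i j) (sq_nonneg _)
  have hcs : ∀ i, P.m1 i ^ 2 ≤ Λ * P.m2 i := by
    intro i
    set S : Finset J := univ.filter fun j => P.v i j ≠ 0
    have e1 : P.m1 i = ∑ j ∈ S, P.w i j * P.v i j :=
      (sum_subset (subset_univ S) fun j _ hj => by
        have : P.v i j = 0 := by simpa [S] using hj
        simp [this]).symm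
    have h := sum_mul_sq_le_sq_mul_sq S (fun j => Real.sqrt (P.w i j))
      (fun j => Real.sqrt (P.w i j) * P.v i j)
    have e2 : ∀ j, Real.sqrt (P.w i j) * (Real.sqrt (P.w i j) * P.v i j) = P.w i j * P.v i j :=
      fun j => by rw [← mul_assoc, Real.mul_self_sqrt (P.nonneg i j)]
    simp only [e2, Real.sq_sqrt (P.nonneg i _), mul_pow, ← e1] at h
    refine h.trans (mul_le_mul (hrare i)
      (sum_le_univ_sum_of_nonneg fun j => mul_nonneg (P.nonneg i j) (sq_nonneg _))
      (sum_nonneg fun j _ => mul_nonneg (P.nonneg i j) (sq_nonneg _))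
      (le_trans (sum_nonneg fun j _ => P.nonneg i j) (hrare i)))
  have hvar : ∀ i, P.m2 i ≤ 2 * P.var i := fun i => by
    have := hcs i
    have := hm2 i
    show P.m2 i ≤ 2 * (P.m2 i - P.m1 i ^ 2)
    nlinarith
  refine ⟨?_, ?_⟩
  · calc (n : ℝ) * a = ∑ _i : Fin n, a := by simp
      _ ≤ ∑ i, 2 * P.var i := sum_le_sum fun i _ => (ha i).trans (hvar i)
      _ = 2 * P.totVar := by rw [← mul_sum]; rfl
  · have h := sum_mul_sq_le_sq_mul_sq (univ : Finset (Fin n)) (fun _ => (1 : ℝ)) fun i => P.m1 i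
    simp only [one_mul, one_pow, sum_const, card_univ, Fintype.card_fin, nsmul_eq_mul,
      mul_one] at h
    refine h.trans ?_
    calc (n : ℝ) * ∑ i, P.m1 i ^ 2 ≤ (n : ℝ) * ∑ i, Λ * (2 * P.var i) := by
          refine mul_le_mul_of_nonneg_left (sum_le_sum fun i _ => (hcs i).trans ?_) (by positivity)
          have hΛ0 : 0 ≤ Λ := le_trans (sum_nonneg fun j _ => P.nonneg i j) (hrare i)
          exact mul_le_mul_of_nonneg_left (hvar i) hΛ0
      _ = _ := by simp only [← mul_sum]; rw [totVar]; ring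

/-- The characteristic function of `G √(LM) log (1 + x / (√L M))`. -/
theorem norm_char_phase_scaled_le {G L M C D κ : ℝ} (hG : 0 ≤ G) (hL : 1 ≤ L) (hM : 1 ≤ M)
    (hC : 0 < C) (hD : 0 ≤ D) (hV : M ≤ C * P.totVar) (hμ : P.mu ^ 2 ≤ D * L * M * P.totVar)
    (hκ : |κ| * G ≤ 3 * Real.sqrt M) :
    ‖∑ c : Fin n → J, (P.wt c : ℂ) * Complex.exp ((κ * phase (G * Real.sqrt (L * M))
        (Real.sqrt L * M) (P.tot c) : ℝ) * Complex.I)‖ ≤
      Real.exp (-(κ ^ 2 * G ^ 2 / (10 * (C + D)))) + 2 * (1 + |κ| * G) / Real.sqrt M := by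
  set A := G * Real.sqrt (L * M) with hA
  set B := Real.sqrt L * M with hB
  set sM := Real.sqrt M
  set sL := Real.sqrt L
  have hsM : 1 ≤ sM := Real.one_le_sqrt.2 hM
  have hsL : 1 ≤ sL := Real.one_le_sqrt.2 hL
  have hMM : sM * sM = M := Real.mul_self_sqrt (by linarith)
  have hLL : sL * sL = L := Real.mul_self_sqrt (by linarith)
  have hsq : Real.sqrt (L * M) = sL * sM := Real.sqrt_mul (by linarith) M
  have hB0 : 0 < B := by positivity
  have hμ0 := P.mu_nonneg
  have hV0 := P.totVar_nonneg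
  have hκA : |κ| * A ≤ 3 * B := by
    rw [hA, hB, hsq, ← hMM]
    nlinarith [mul_le_mul_of_nonneg_right hκ (by positivity : (0 : ℝ) ≤ sL * sM)]
  refine (P.norm_char_phase_le (by positivity) hB0 hκA).trans (add_le_add ?_ ?_)
  · rw [Real.exp_le_exp, neg_le_neg_iff]
    have hsum : (B + P.mu) ^ 2 ≤ 2 * (C + D) * L * M * P.totVar := by
      have hB2 : B ^ 2 ≤ C * L * M * P.totVar := by
        rw [hB, mul_pow, sq, hLL]
        nlinarith [mul_le_mul_of_nonneg_left hV (by positivity : (0 : ℝ) ≤ L * M)]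
      nlinarith [sq_nonneg (B - P.mu)]
    have hVpos : 0 < P.totVar := by
      rcases hV0.eq_or_lt with h | h
      · rw [← h] at hV; linarith
      · exact h
    rw [div_le_div_iff₀ (by positivity) (by positivity), hA, mul_pow G,
      Real.sq_sqrt (by positivity)]
    nlinarith [mul_le_mul_of_nonneg_left hsum
      (by positivity : (0 : ℝ) ≤ 5 * (κ ^ 2 * G ^ 2))]
  · have h1 : P.totVar / (B + P.mu) ^ 2 ≤ 1 / (4 * B) := by
      rw [div_le_div_iff₀ (by positivity) (by positivity)]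
      nlinarith [P.totVar_le_mu, sq_nonneg (B - P.mu)]
    calc 8 * (1 + |κ| * A) * P.totVar / (B + P.mu) ^ 2
        = 8 * (1 + |κ| * A) * (P.totVar / (B + P.mu) ^ 2) := by ring
      _ ≤ 8 * (1 + |κ| * A) * (1 / (4 * B)) :=
          mul_le_mul_of_nonneg_left h1 (by positivity)
      _ ≤ 2 * (1 + |κ| * G) / sM := by
          rw [mul_one_div, div_le_div_iff₀ (by positivity) (by positivity), hA, hB, hsq, ← hMM]
          have : 0 ≤ |κ| * G := by positivity
          nlinarith [mul_le_mul hsL hsM zero_le_one (by positivity)]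

end Laws

end

end Vale.Agent.P095.Amen.Coin
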