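import Mathlib

/-!
# P095 coin: characteristic functions of the phase of a sum of independent finite laws
-/

namespace Vale.Agent.P095.Amen.Coin

open Finset

noncomputable section

/-- A finite family of finite laws: weights and values, position by position. -/
structure Laws (n : ℕ) (J : Type) [Fintype J] where
  w : Fin n → J → ℝ
  v : Fin n → J → ℝ
  nonneg : ∀ i j, 0 ≤ w i j
  sum_one : ∀ i, ∑ j, w i j = 1
  val_nonneg : ∀ i j, 0 ≤ v i j
  val_le_one : ∀ i j, v i j ≤ 1

namespace Laws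

variable {n : ℕ} {J : Type} [Fintype J] (P : Laws n J)

/-- The probability of a configuration. -/
def wt (c : Fin n → J) : ℝ := ∏ i, P.w i (c i)

/-- The value of a configuration. -/
def tot (c : Fin n → J) : ℝ := ∑ i, P.v i (c i)

/-- Means and variances of the positions. -/
def m1 (i : Fin n) : ℝ := ∑ j, P.w i j * P.v i j
def m2 (i : Fin n) : ℝ := ∑ j, P.w i j * P.v i j ^ 2
def var (i : Fin n) : ℝ := P.m2 i - P.m1 i ^ 2
def mu : ℝ := ∑ i, P.m1 i
def totVar : ℝ := ∑ i, P.var i

theorem wt_nonneg (c : Fin n → J) : 0 ≤ P.wt c := prod_nonneg fun i _ => P.nonneg i _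

theorem sum_prod_fun (f : Fin n → J → ℂ) :
    ∑ c : Fin n → J, (P.wt c : ℂ) * ∏ i, f i (c i) = ∏ i, ∑ j, (P.w i j : ℂ) * f i j := by
  classical
  rw [Fintype.prod_sum]
  refine sum_congr rfl fun c _ => ?_
  simp [wt, prod_mul_distrib]

theorem sum_wt : ∑ c : Fin n → J, P.wt c = 1 := by
  classical
  simp [wt, ← Fintype.prod_sum, P.sum_one]

theorem m1_nonneg (i : Fin n) : 0 ≤ P.m1 i :=
  sum_nonneg fun j _ => mul_nonneg (P.nonneg i j) (P.val_nonneg i j)

theorem mu_nonneg : 0 ≤ P.mu := sum_nonneg fun i _ => P.m1_nonneg i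

theorem var_eq (i : Fin n) : P.var i = ∑ j, P.w i j * (P.v i j - P.m1 i) ^ 2 := by
  have h : ∀ j, P.w i j * (P.v i j - P.m1 i) ^ 2 =
      P.w i j * P.v i j ^ 2 - 2 * P.m1 i * (P.w i j * P.v i j) + P.m1 i ^ 2 * P.w i j :=
    fun j => by ring
  simp only [h, sum_add_distrib, sum_sub_distrib, ← mul_sum, P.sum_one]
  simp only [var, m2, m1]
  ring

theorem var_nonneg (i : Fin n) : 0 ≤ P.var i := by
  rw [P.var_eq]
  exact sum_nonneg fun j _ => mul_nonneg (P.nonneg i j) (sq_nonneg _)

theorem totVar_nonneg : 0 ≤ P.totVar := sum_nonneg fun i _ => P.var_nonneg i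

theorem totVar_le_mu : P.totVar ≤ P.mu := by
  refine sum_le_sum fun i _ => ?_
  have h : P.m2 i ≤ P.m1 i := sum_le_sum fun j _ => by
    refine mul_le_mul_of_nonneg_left ?_ (P.nonneg i j)
    nlinarith [P.val_nonneg i j, P.val_le_one i j]
  show P.m2 i - P.m1 i ^ 2 ≤ P.m1 i
  nlinarith [sq_nonneg (P.m1 i)]

/-- The mean square of the centred sum is the total variance. -/
theorem sum_sq : ∀ {n : ℕ} (P : Laws n J),
    ∑ c : Fin n → J, P.wt c * (P.tot c - P.mu) ^ 2 = P.totVar := by
  intro n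
  induction n with
  | zero => intro P; simp [wt, tot, mu, totVar]
  | succ n ih =>
    intro P
    classical
    let Q : Laws n J :=
      ⟨fun i => P.w i.succ, fun i => P.v i.succ, fun i => P.nonneg i.succ,
        fun i => P.sum_one i.succ, fun i => P.val_nonneg i.succ, fun i => P.val_le_one i.succ⟩
    have hmu : P.mu = P.m1 0 + Q.mu := Fin.sum_univ_succ _
    have hvar : P.totVar = P.var 0 + Q.totVar := Fin.sum_univ_succ _
    have hz : ∑ c : Fin n → J, Q.wt c * (Q.tot c - Q.mu) = 0 := by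
      clear ih
      have key : ∀ {m : ℕ} (R : Laws m J), ∑ c : Fin m → J, R.wt c * R.tot c = R.mu := by
        intro m
        induction m with
        | zero => intro R; simp [wt, tot, mu]
        | succ m ih' =>
          intro R
          let S : Laws m J :=
            ⟨fun i => R.w i.succ, fun i => R.v i.succ, fun i => R.nonneg i.succ,
              fun i => R.sum_one i.succ, fun i => R.val_nonneg i.succ,
              fun i => R.val_le_one i.succ⟩
          rw [← (Fin.consEquiv fun _ => J).sum_comp, Fintype.sum_prod_type]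
          have hb : ∀ a, ∀ b : Fin m → J, R.wt ((Fin.consEquiv fun _ => J) (a, b)) *
              R.tot ((Fin.consEquiv fun _ => J) (a, b)) =
              R.w 0 a * R.v 0 a * S.wt b + R.w 0 a * (S.wt b * S.tot b) := by
            intro a b
            simp [wt, tot, S, Fin.prod_univ_succ, Fin.sum_univ_succ, Fin.consEquiv]
            ring
          simp only [hb, sum_add_distrib, ← mul_sum, S.sum_wt, ih' S, mul_one, ← sum_mul,
            R.sum_one, one_mul]
          show R.m1 0 + S.mu = R.mu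
          simp only [mu, Fin.sum_univ_succ]
          rfl
      simp only [mul_sub, sum_sub_distrib, ← sum_mul, Q.sum_wt, key Q, one_mul, sub_self]
    rw [← (Fin.consEquiv fun _ => J).sum_comp, Fintype.sum_prod_type]
    have hb : ∀ a, ∀ b : Fin n → J, P.wt ((Fin.consEquiv fun _ => J) (a, b)) *
        (P.tot ((Fin.consEquiv fun _ => J) (a, b)) - P.mu) ^ 2 =
        P.w 0 a * (P.v 0 a - P.m1 0) ^ 2 * Q.wt b +
        2 * (P.w 0 a * (P.v 0 a - P.m1 0)) * (Q.wt b * (Q.tot b - Q.mu)) +
        P.w 0 a * (Q.wt b * (Q.tot b - Q.mu) ^ 2) := by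
      intro a b
      rw [hmu]
      simp [wt, tot, Q, Fin.prod_univ_succ, Fin.sum_univ_succ, Fin.consEquiv]
      ring
    simp only [hb, sum_add_distrib, ← mul_sum, Q.sum_wt, hz, ih Q, mul_one, mul_zero,
      add_zero, ← sum_mul, P.sum_one, one_mul, ← P.var_eq, hvar]

/-- The characteristic function of one position. -/
theorem norm_char_le (i : Fin n) {θ : ℝ} (hθ : |θ| ≤ 3) :
    ‖∑ j, (P.w i j : ℂ) * Complex.exp ((θ * P.v i j : ℝ) * Complex.I)‖ ≤
      Real.exp (-(θ ^ 2 * P.var i / 5)) := by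
  set z := ∑ j, (P.w i j : ℂ) * Complex.exp ((θ * P.v i j : ℝ) * Complex.I) with hz
  have hsq : ‖z‖ ^ 2 = ∑ a, ∑ b, P.w i a * P.w i b * Real.cos (θ * P.v i a - θ * P.v i b) := by
    rw [← Complex.normSq_eq_norm_sq, Complex.normSq_apply, hz, Complex.re_sum, Complex.im_sum]
    simp only [Complex.mul_re, Complex.mul_im, Complex.ofReal_re, Complex.ofReal_im, zero_mul,
      sub_zero, add_zero, Complex.exp_ofReal_mul_I_re, Complex.exp_ofReal_mul_I_im]
    rw [sum_mul_sum, sum_mul_sum, ← sum_add_distrib]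
    refine sum_congr rfl fun a _ => ?_
    rw [← sum_add_distrib]
    refine sum_congr rfl fun b _ => ?_
    rw [Real.cos_sub]
    ring
  have hπ : (1 : ℝ) / 5 ≤ 2 / Real.pi ^ 2 := by
    rw [le_div_iff₀ (by positivity)]
    nlinarith [Real.pi_lt_d2, Real.pi_pos]
  have hle : ‖z‖ ^ 2 ≤ 1 - 2 * θ ^ 2 * P.var i / 5 := by
    rw [hsq]
    have hb : ∀ a b, P.w i a * P.w i b * Real.cos (θ * P.v i a - θ * P.v i b) ≤
        P.w i a * P.w i b - θ ^ 2 / 5 * (P.w i a * P.w i b * (P.v i a - P.v i b) ^ 2) := by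
      intro a b
      have h1 := P.val_nonneg i a
      have h2 := P.val_le_one i a
      have h3 := P.val_nonneg i b
      have h4 := P.val_le_one i b
      have habs : |θ * P.v i a - θ * P.v i b| ≤ Real.pi := by
        rw [← mul_sub, abs_mul]
        refine le_trans (mul_le_mul hθ (show |P.v i a - P.v i b| ≤ 1 from ?_) (abs_nonneg _)
          (by norm_num)) (by linarith [Real.pi_gt_three])
        rw [abs_le]; constructor <;> linarith
      have hc := Real.cos_le_one_sub_mul_cos_sq habs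
      have hm : 0 ≤ P.w i a * P.w i b := mul_nonneg (P.nonneg i a) (P.nonneg i b)
      nlinarith [mul_le_mul_of_nonneg_right hπ (sq_nonneg (θ * P.v i a - θ * P.v i b)),
        mul_le_mul_of_nonneg_left hc hm]
    refine (sum_le_sum fun a _ => sum_le_sum fun b _ => hb a b).trans_eq ?_
    have hv : ∑ a, ∑ b, P.w i a * P.w i b * (P.v i a - P.v i b) ^ 2 = 2 * P.var i := by
      have h : ∀ a b, P.w i a * P.w i b * (P.v i a - P.v i b) ^ 2 =
          P.w i a * P.v i a ^ 2 * P.w i b + P.w i a * (P.w i b * P.v i b ^ 2) -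
          2 * (P.w i a * P.v i a) * (P.w i b * P.v i b) := fun a b => by ring
      simp only [h, sum_add_distrib, sum_sub_distrib, ← mul_sum, ← sum_mul, P.sum_one]
      simp only [var, m2, m1]
      ring
    simp only [sum_sub_distrib, ← mul_sum, P.sum_one, mul_one, hv]
    ring
  have he : ‖z‖ ^ 2 ≤ Real.exp (-(θ ^ 2 * P.var i / 5)) ^ 2 := by
    refine hle.trans ?_
    rw [← Real.exp_nat_mul]
    have := Real.add_one_le_exp (((2 : ℕ) : ℝ) * -(θ ^ 2 * P.var i / 5))
    push_cast at this ⊢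
    linarith
  exact le_of_pow_le_pow_left₀ two_ne_zero (Real.exp_pos _).le he

/-- The characteristic function of the sum. -/
theorem norm_char_tot_le {θ : ℝ} (hθ : |θ| ≤ 3) :
    ‖∑ c : Fin n → J, (P.wt c : ℂ) * Complex.exp ((θ * P.tot c : ℝ) * Complex.I)‖ ≤
      Real.exp (-(θ ^ 2 * P.totVar / 5)) := by
  have h : ∀ c : Fin n → J, Complex.exp ((θ * P.tot c : ℝ) * Complex.I) =
      ∏ i, Complex.exp ((θ * P.v i (c i) : ℝ) * Complex.I) := fun c => by
    rw [← Complex.exp_sum]
    congr 1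
    simp [tot, mul_sum, sum_mul]
  simp only [h, P.sum_prod_fun fun i j => Complex.exp ((θ * P.v i j : ℝ) * Complex.I), norm_prod]
  refine (prod_le_prod (fun i _ => norm_nonneg _) fun i _ => P.norm_char_le i hθ).trans_eq ?_
  rw [← Real.exp_sum, totVar, mul_sum, sum_div, sum_neg_distrib]

/-- The exponential is one-Lipschitz on the imaginary line. -/
theorem norm_exp_sub_exp_le (a b : ℝ) :
    ‖Complex.exp ((a : ℂ) * Complex.I) - Complex.exp ((b : ℂ) * Complex.I)‖ ≤ |a - b| := by
  have h : Complex.exp ((a : ℂ) * Complex.I) - Complex.exp ((b : ℂ) * Complex.I) =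
      Complex.exp ((b : ℂ) * Complex.I) * (Complex.exp (Complex.I * ((a - b : ℝ) : ℂ)) - 1) := by
    rw [mul_sub, ← Complex.exp_add, mul_one]
    congr 2
    push_cast
    ring
  rw [h, norm_mul, Complex.norm_exp_ofReal_mul_I, one_mul, ← Real.norm_eq_abs]
  exact Real.norm_exp_I_mul_ofReal_sub_one_le

/-- The phase. -/
def phase (A B x : ℝ) : ℝ := A * Real.log (1 + x / B)

/-- The phase is linear up to a square. -/
theorem norm_exp_phase_sub_le {A B μ x κ : ℝ} (hA : 0 ≤ A) (hB : 0 < B) (hμ : 0 ≤ μ) (hx : 0 ≤ x) :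
    ‖Complex.exp ((κ * phase A B x : ℝ) * Complex.I) -
        Complex.exp ((κ * (phase A B μ + A / (B + μ) * (x - μ)) : ℝ) * Complex.I)‖ ≤
      8 * (1 + |κ| * A) * ((x - μ) / (B + μ)) ^ 2 := by
  set u := (B + x) / (B + μ) with hu
  have hBμ : 0 < B + μ := by linarith
  have hu0 : 0 < u := div_pos (by linarith) hBμ
  have hu1 : u - 1 = (x - μ) / (B + μ) := by rw [hu]; field_simp; ring
  have hphase : phase A B x = phase A B μ + A * Real.log u := by
    unfold phase
    rw [← mul_add, ← Real.log_mul (by positivity) hu0.ne']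
    congr 2
    rw [hu]; field_simp
  have hlin : A / (B + μ) * (x - μ) = A * (u - 1) := by rw [hu1]; ring
  rw [hphase, hlin, ← hu1]
  have hpos : 0 ≤ |κ| * A := mul_nonneg (abs_nonneg _) hA
  rcases le_or_gt (1 / 2) u with h | h
  · have h1 : Real.log u ≤ u - 1 := Real.log_le_sub_one_of_pos hu0
    have h2 : 1 - u⁻¹ ≤ Real.log u := Real.one_sub_inv_le_log_of_pos hu0
    have h3 : |Real.log u - (u - 1)| ≤ 2 * (u - 1) ^ 2 := by
      rw [abs_le]
      refine ⟨?_, by nlinarith [sq_nonneg (u - 1)]⟩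
      have h4 : (u - 1) - (1 - u⁻¹) = (u - 1) ^ 2 / u := by field_simp
      have h5 : (u - 1) ^ 2 / u ≤ 2 * (u - 1) ^ 2 := by
        rw [div_le_iff₀ hu0]; nlinarith [sq_nonneg (u - 1)]
      linarith
    refine (norm_exp_sub_exp_le _ _).trans ?_
    rw [show κ * (phase A B μ + A * Real.log u) - κ * (phase A B μ + A * (u - 1)) =
      κ * A * (Real.log u - (u - 1)) by ring, abs_mul, abs_mul, abs_of_nonneg hA]
    nlinarith [mul_le_mul_of_nonneg_left h3 hpos, sq_nonneg (u - 1)]
  · refine (norm_sub_le _ _).trans ?_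
    simp only [Complex.norm_exp_ofReal_mul_I]
    nlinarith [mul_nonneg hpos (sq_nonneg (u - 1))]

/-- The characteristic function of the phase. -/
theorem norm_char_phase_le {A B κ : ℝ} (hA : 0 ≤ A) (hB : 0 < B) (hκ : |κ| * A ≤ 3 * B) :
    ‖∑ c : Fin n → J, (P.wt c : ℂ) * Complex.exp ((κ * phase A B (P.tot c) : ℝ) * Complex.I)‖ ≤
      Real.exp (-(κ ^ 2 * A ^ 2 * P.totVar / (5 * (B + P.mu) ^ 2))) +
        8 * (1 + |κ| * A) * P.totVar / (B + P.mu) ^ 2 := by
  have hμ := P.mu_nonneg
  have hBμ : 0 < B + P.mu := by linarith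
  set θ := κ * (A / (B + P.mu)) with hθdef
  have hθ : |θ| ≤ 3 := by
    rw [hθdef, abs_mul, abs_div, abs_of_nonneg hA, abs_of_pos hBμ, ← mul_div_assoc,
      div_le_iff₀ hBμ]
    linarith
  set lin := fun c : Fin n → J =>
    Complex.exp ((κ * (phase A B P.mu + A / (B + P.mu) * (P.tot c - P.mu)) : ℝ) * Complex.I)
  have hsplit : ∀ c : Fin n → J, lin c =
      Complex.exp ((κ * phase A B P.mu - θ * P.mu : ℝ) * Complex.I) *
        Complex.exp ((θ * P.tot c : ℝ) * Complex.I) := fun c => by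
    rw [← Complex.exp_add, ← add_mul, ← Complex.ofReal_add]
    simp only [lin, hθdef]
    congr 3
    ring
  have hmain : ‖∑ c, (P.wt c : ℂ) * lin c‖ ≤ Real.exp (-(θ ^ 2 * P.totVar / 5)) := by
    simp only [hsplit, mul_left_comm (P.wt _ : ℂ), ← mul_sum]
    rw [norm_mul, Complex.norm_exp_ofReal_mul_I, one_mul]
    exact P.norm_char_tot_le hθ
  calc _ = ‖(∑ c, (P.wt c : ℂ) * lin c) + ∑ c, (P.wt c : ℂ) *
          (Complex.exp ((κ * phase A B (P.tot c) : ℝ) * Complex.I) - lin c)‖ := by
        rw [← sum_add_distrib]; congr 1; exact sum_congr rfl fun c _ => by ring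
    _ ≤ Real.exp (-(θ ^ 2 * P.totVar / 5)) + ∑ c, P.wt c *
          (8 * (1 + |κ| * A) * ((P.tot c - P.mu) / (B + P.mu)) ^ 2) := by
        refine (norm_add_le _ _).trans (add_le_add hmain ((norm_sum_le _ _).trans
          (sum_le_sum fun c _ => ?_)))
        rw [norm_mul, Complex.norm_real, Real.norm_of_nonneg (P.wt_nonneg c)]
        exact mul_le_mul_of_nonneg_left (norm_exp_phase_sub_le hA hB hμ
          (sum_nonneg fun i _ => P.val_nonneg i _)) (P.wt_nonneg c)
    _ = _ := by
        congr 1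
        · congr 1; rw [hθdef]; field_simp
        · simp only [div_pow, mul_comm (P.wt _), mul_assoc, div_mul_eq_mul_div, ← mul_sum,
            ← sum_div]
          rw [show ∑ c, (P.tot c - P.mu) ^ 2 * P.wt c = P.totVar from
            (sum_congr rfl fun c _ => mul_comm _ _).trans (sum_sq P)]
          ring

end Laws

end

end Vale.Agent.P095.Amen.Coin
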